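import Vale.Agent.P352.H496.Defs2
import Vale.Agent.P352.H246.SubDefs

open MeasureTheory Filter Topology
open scoped ComplexConjugate ContDiff

namespace Vale.Agent.P352.H755

open GF H246 H496
open UniformSpace (Completion)

noncomputable section

/-- Real test functions with compact support. -/
def Tst {E : Type*} [NormedAddCommGroup E] [NormedSpace ℝ E] (f : E → ℝ) : Prop :=
  ContDiff ℝ ∞ f ∧ HasCompactSupport f

/-- Partial derivatives of real functions. -/
def dr (m : Ix) (f : V → ℝ) (x : V) : ℝ := deriv (fun t => f (x + bas m t)) 0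

/-- The vector field `φ(u) w + ½ φ'(u) |w|² a + 2 Φ(u) b`, where `u = a·x`, `w` is the component
of `x` orthogonal to the null vectors `a` and `b` (with `a·b = 1`), `|w|² = -w·w` and `φ` is the
derivative of `Φ`. Its symmetrized derivative is `φ(u) η + ½ φ''(u) |w|² a ⊗ a`. -/
def Yf (a b : V) (Φ : ℝ → ℝ) (x : V) : V :=
  let w : V := x - mdot a x • b - mdot b x • a
  deriv Φ (mdot a x) • w + (-(1 / 2) * deriv (deriv Φ) (mdot a x) * mdot w w) • a +
    (2 * Φ (mdot a x)) • b

/-- Cutoffs adapted to the null hyperplanes orthogonal to `a`. -/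
def cut (a b : V) (κ : V → ℝ) (R : ℝ) (x : V) : ℝ :=
  κ ((mdot b x / R ^ 2) • a + R⁻¹ • (x - mdot a x • b - mdot b x • a))

variable {D : Type*} [NormedAddCommGroup D] [InnerProductSpace ℂ D]

/-- The value at the origin of the function `x ↦ ⟨J^m(x) Ω, v⟩`. -/
def vj (Q : Theory D) (J : Ix → Fld D) (m : Ix) (v : D) : ℂ :=
  Classical.epsilon (Val (fun f => ((J m f Q.vac : D) : Completion D)) v)

/-- The source of `J` that results from the action of the vector field `Y` with scale factor `ψ`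
on the source `h`: the smeared form of `Y·∂ J^c + ½ (∂^c Y_b - ∂_b Y^c) J^b + 3 ψ J^c`. -/
def act (Y : V → V) (ψ : V → ℝ) (h : Ix → V → ℝ) : Ix → V → ℝ := fun c x =>
  3 * ψ x * h c x + ∑ b, (-dr b (fun y => Y y b * h c y) x +
    1 / 2 * h b x * (eta b * eta c * dr b (fun y => Y y c) x - dr c (fun y => Y y b) x))

/-- Vacuum time ordered products `t f h v`, `s F h v` of two currents `J`, and of the stress tensor
`T` and the current `J`: `t f h v` stands for `⟨T{J(f) J(h)} Ω, v⟩` and `s F h v` for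
`⟨T{T(F) J(h)} Ω, v⟩`, for real compactly supported sources `f`, `h`, `F` and vectors
`v = J^m(g) Ω`. -/
structure TProd (Q : Theory D) (J : Ix → Fld D) (G : V → D → D) (κ : V → ℝ)
    (t : (Ix → V → ℝ) → (Ix → V → ℝ) → D → ℂ)
    (s : (Ix → Ix → V → ℝ) → (Ix → V → ℝ) → D → ℂ) : Prop where
  symm : ∀ f h m g, (∀ i, Tst (f i)) → (∀ i, Tst (h i)) → IsTest g →
    t f h (J m g Q.vac) = t h f (J m g Q.vac)
  ward : ∀ (Y : V → V) (ψ : V → ℝ) h m g, (∀ i, Tst fun x => Y x i) → Tst ψ →
    (∀ i, Tst (h i)) → IsTest g →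
    s (fun i j x => (eta j * dr i (fun y => Y y j) x + eta i * dr j (fun y => Y y i) x) / 2 -
        ψ x * bas i (eta i) j) h (J m g Q.vac) - t (fun i => dr i ψ) h (J m g Q.vac) =
      -Complex.I * inner ℂ (∑ i, J i (fun x => (act Y ψ h i x : ℂ)) Q.vac) (J m g Q.vac)
  light : ∀ a b Φ h m g, IsNull a → IsNull b → mdot a b = 1 → Tst Φ → (∀ i, Tst (h i)) →
    IsTest g →
    Tendsto (fun R => s (fun i j x =>
        (eta j * dr i (fun y => cut a b κ R y * Yf a b Φ y j) x +
          eta i * dr j (fun y => cut a b κ R y * Yf a b Φ y i) x) / 2 -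
        cut a b κ R x * deriv Φ (mdot a x) * bas i (eta i) j) h (J m g Q.vac)) atTop
      (𝓝 (∫ u, (deriv (deriv (deriv Φ)) u / 2 : ℂ) * ∫ y in {y | mdot a y < u},
        ∑ i, (h i y : ℂ) * vj Q J i (Q.U 1 GF.one (-y) (Q.U 1 GF.one (u • b)
          (G a (Q.U 1 GF.one (-(u • b)) (J m g Q.vac)))))))
  joint : ∀ a b φ σ m g, IsNull a → IsNull b → mdot a b = 1 → Tst φ → Tst σ → IsTest g →
    ∃ c, Tendsto (fun R : ℝ × ℝ => t (fun i => dr i fun x => cut a b κ R.1 x * φ (mdot a x))
      (fun i => dr i fun x => cut b a κ R.2 x * σ (mdot b x)) (J m g Q.vac)) atTop (𝓝 c)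

end

end Vale.Agent.P352.H755
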