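import Vale.Agent.P352.H755.ChDefs
import Vale.Agent.P352.H755.TP
import Vale.Agent.P352.H246.Vec

/-!
# Conformal charges: internal definitions
-/

open MeasureTheory Filter Topology
open scoped SchwartzMap ContDiff

namespace Vale.Agent.P352.H755

open GF (Ix V Fn bas eta pd bar sim o Fld Theory Sep)
open SubConf UniformSpace

noncomputable section

variable {D : Type*} [NormedAddCommGroup D] [InnerProductSpace ℂ D]

/-- test functions with compact support -/
def CS (f : Fn) : Prop := GF.IsTest f ∧ HasCompactSupport f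

/-- the commutator `[t(g X), A(f)]` -/
def com (t : Ix → Ix → Fld D) (X : Ix → V → ℝ) (g : V → ℝ) (A : Fld D) (f : Fn) (v : D) : D :=
  ∑ n, t o n (fun x => (eta n * X n x * g x : ℝ)) (A f v) -
    A f (∑ n, t o n (fun x => (eta n * X n x * g x : ℝ)) v)

/-- `g` is a cutoff for the set `S`: near the points that are not spacelike to `S` it is a
function of the time with integral one. -/
def Ok (S : Set V) (g : V → ℝ) : Prop := Tst g ∧ ∃ α : ℝ → ℝ, Tst α ∧ ∫ u, α u = 1 ∧
  ∀ x ∈ closure {x | g x ≠ α (x o)}, ∀ y ∈ S, GF.mdot (fun m => x m - y m) (fun m => x m - y m) < 0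

/-- a cutoff for the support of `f` (chosen) -/
def cg (f : Fn) : V → ℝ := Classical.epsilon (Ok (tsupport f))

/-- the action of the charge of `X^n t_mn` on the field `A`, for test functions with compact
support -/
def Phi (t : Ix → Ix → Fld D) (X : Ix → V → ℝ) (A : Fld D) : Fld D := fun f => com t X (cg f) A f

/-- Local fields defined on test functions with compact support, relatively local like `A`. -/
structure CField (Q : Theory D) (A : Fld D) (P P' : Fld D) : Prop where
  linf : ∀ (f g : Fn) (c : ℂ) v, CS f → CS g → P (fun x => f x + c * g x) v = P f v + c • P g v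
  linv : ∀ f (c : ℂ) v w, CS f → P f (v + c • w) = P f v + c • P f w
  bdd : ∀ v, ∃ p : Seminorm ℂ 𝓢(Mink, ℂ), Continuous p ∧
    ∀ F : 𝓢(Mink, ℂ), HasCompactSupport (fl F) → ‖P (fl F) v‖ ≤ p F
  adj : ∀ f v w, CS f → inner ℂ (P f v) w = inner ℂ v (P' (bar f) w)
  loc : ∀ C f g v, Q.fld C → (Q.bose A ∨ Q.bose C) → CS f → CS g → Sep f g →
    P f (C g v) = C g (P f v)

end

end Vale.Agent.P352.H755
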