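import Vale.Agent.P352.H755.ChD

/-!
# The charge commutator as a field on test functions with compact support
-/

set_option linter.all false

noncomputable section

open MeasureTheory Filter Topology Set
open scoped ContDiff ComplexConjugate SchwartzMap

namespace Vale.Agent.P352.H755

open GF (Ix V Fn bas eta pd bar sim o)
open H246 H496 H15
open SubConf (IsKil IsAdj)

variable {D : Type*} [NormedAddCommGroup D] [InnerProductSpace ℂ D] {Q : GF.Theory D}
  {t : Ix → Ix → GF.Fld D} {A B : GF.Fld D} {X X' : Ix → V → ℝ}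

lemma Ok.mono {S S' : Set V} {g : V → ℝ} (h : Ok S g) (hS : S' ⊆ S) : Ok S' g := by
  obtain ⟨h1, α, h2, h3, h4⟩ := h
  exact ⟨h1, α, h2, h3, fun x hx y hy => h4 x hx y (hS hy)⟩

lemma ok_prof {S : Set V} {α : ℝ → ℝ} (hα : Tst α) (hα1 : ∫ u, α u = 1) {M R : ℝ} (hM : 0 ≤ M)
    (hR : 3 * M + 1 ≤ R) (hαM : ∀ u, α u ≠ 0 → |u| ≤ M) (hS : ∀ y ∈ S, ∀ i, |y i| ≤ M) :
    Ok S (fun x => α (x o) * chi R x) := by
  have hR0 : 0 < R := by linarith
  refine ⟨tst_prof hα hR0, α, hα, hα1, fun x hx y hy => ?_⟩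
  have h2 : x ∈ Zf M R := by
    refine closure_minimal ?_ (isClosed_Zf M R) hx
    intro z hz
    have h3 : α (z o) * (chi R z - 1) ≠ 0 := by
      intro h4
      exact hz (by linarith)
    refine ⟨hαM _ (left_ne_zero_of_mul h3), ?_⟩
    by_contra hlt
    push Not at hlt
    exact right_ne_zero_of_mul h3 (by rw [chi_one hR0 hlt.le, sub_self])
  exact sp_far hM hR h2.1 h2.2 (hS y hy)

lemma exists_prof : ∃ α : ℝ → ℝ, Tst α ∧ ∫ u, α u = 1 := by
  let f : ContDiffBump (0 : ℝ) := ⟨1, 2, one_pos, one_lt_two⟩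
  exact ⟨f.normed volume, ⟨f.contDiff_normed, f.hasCompactSupport_normed⟩, f.integral_normed⟩

/-- **Row (a1).** Cutoffs exist. -/
theorem exists_ok {S : Set V} (hS : IsCompact S) : ∃ g, Ok S g := by
  obtain ⟨α, hα, hα1⟩ := exists_prof
  obtain ⟨M1, hM1, hM1'⟩ := supp_bd hα
  obtain ⟨M4, hM4⟩ := hS.isBounded.subset_closedBall (0 : V)
  refine ⟨_, ok_prof (M := M1 + |M4|) hα hα1 (by positivity) le_rfl
    (fun u hu => (hM1' u hu).trans (by have := abs_nonneg M4; linarith)) fun y hy i => ?_⟩
  have h3 := hM4 hy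
  rw [mem_closedBall_zero_iff] at h3
  have h4 := norm_le_pi_norm y i
  have h5 := le_abs_self M4
  rw [Real.norm_eq_abs] at h4
  linarith

/-- the value of `Phi` -/
theorem phi_eq (ht : IsT Q t) (hA : Q.fld A) (hX : IsKil X) {f : Fn} (hf : CS f) {S : Set V}
    (hS : tsupport f ⊆ S) {g : V → ℝ} (hg : Ok S g) (v : D) : Phi t X A f v = com t X g A f v := by
  have h1 : Ok (tsupport f) (cg f) := Classical.epsilon_spec ⟨g, hg.mono hS⟩
  exact com_eq ht hA hX hf subset_rfl h1 (hg.mono hS) v

lemma com_linf (ht : IsT Q t) (hA : Q.fld A) {g : V → ℝ} {f f' : Fn} (hf : GF.IsTest f)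
    (hf' : GF.IsTest f') (c : ℂ) (hX : IsKil X) (hg : Tst g) (v : D) :
    com t X g A (fun x => f x + c * f' x) v = com t X g A f v + c • com t X g A f' v := by
  unfold com
  rw [Q.lin A f f' c v hA hf hf', Q.lin A f f' c _ hA hf hf']
  have h : ∀ n (u u' : D), t o n (fun x => (eta n * X n x * g x : ℝ)) (u + c • u') =
      t o n (fun x => (eta n * X n x * g x : ℝ)) u +
        c • t o n (fun x => (eta n * X n x * g x : ℝ)) u' := by
    intro n u u'
    refine ext_inner_right ℂ fun z => ?_
    have hh := kil_tst hX hg n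
    rw [inner_add_left, inner_smul_left, ht.herm o n _ _ _ (tstIs hh),
      ht.herm o n _ _ _ (tstIs hh), ht.herm o n _ _ _ (tstIs hh), inner_add_left, inner_smul_left]
  simp only [h, Finset.sum_add_distrib, ← Finset.smul_sum, smul_sub]
  abel

lemma com_linv (ht : IsT Q t) (hA : Q.fld A) {g : V → ℝ} {f : Fn} (hf : GF.IsTest f)
    (c : ℂ) (hX : IsKil X) (hg : Tst g) (v w : D) :
    com t X g A f (v + c • w) = com t X g A f v + c • com t X g A f w := by
  unfold com
  have h : ∀ n (u u' : D), t o n (fun x => (eta n * X n x * g x : ℝ)) (u + c • u') =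
      t o n (fun x => (eta n * X n x * g x : ℝ)) u +
        c • t o n (fun x => (eta n * X n x * g x : ℝ)) u' := by
    intro n u u'
    refine ext_inner_right ℂ fun z => ?_
    have hh := kil_tst hX hg n
    rw [inner_add_left, inner_smul_left, ht.herm o n _ _ _ (tstIs hh),
      ht.herm o n _ _ _ (tstIs hh), ht.herm o n _ _ _ (tstIs hh), inner_add_left, inner_smul_left]
  rw [fadd hA hf, fsmul hA hf]
  simp only [h, Finset.sum_add_distrib, ← Finset.smul_sum]
  rw [fadd hA hf, fsmul hA hf, smul_sub]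
  abel

lemma com_linX (ht : IsT Q t) (hA : Q.fld A) {g : V → ℝ} {f : Fn} (hf : GF.IsTest f)
    (c : ℝ) (hX : IsKil X) (hX' : IsKil X') (hg : Tst g) (v : D) :
    com t (fun n x => X n x + c * X' n x) g A f v =
      com t X g A f v + (c : ℂ) • com t X' g A f v := by
  have h : ∀ n (v : D), t o n (fun x => (eta n * (X n x + c * X' n x) * g x : ℝ)) v =
      t o n (fun x => (eta n * X n x * g x : ℝ)) v +
        (c : ℂ) • t o n (fun x => (eta n * X' n x * g x : ℝ)) v := by
    intro n v
    rw [← t_lin ht (kil_tst hX hg n) (kil_tst hX' hg n)]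
    refine congrArg (fun f => t o n f v) ?_
    funext x
    congr 1
    ring
  unfold com
  simp only [h, Finset.sum_add_distrib, ← Finset.smul_sum]
  rw [fadd hA hf, fsmul hA hf, smul_sub]
  abel

lemma com_adj (ht : IsT Q t) (hA : Q.fld A) (hB : Q.fld B) (hAB : IsAdj A B) (hX : IsKil X)
    {g : V → ℝ} (hg : Tst g) {f : Fn} (hf : GF.IsTest f) (v w : D) :
    inner ℂ (com t X g A f v) w = -inner ℂ v (com t X g B (bar f) w) := by
  have hh : ∀ n, Tst fun x => eta n * X n x * g x := fun n => kil_tst hX hg n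
  have hbar : ∀ n, bar (fun x => ((eta n * X n x * g x : ℝ) : ℂ)) =
      fun x => ((eta n * X n x * g x : ℝ) : ℂ) := by
    intro n; funext x; simp [bar]
  have key : ∀ u u' : D, inner ℂ (∑ n, t o n (fun x => (eta n * X n x * g x : ℝ)) u) u' =
      inner ℂ u (∑ n, t o n (fun x => (eta n * X n x * g x : ℝ)) u') := by
    intro u u'
    rw [sum_inner, inner_sum]
    refine Finset.sum_congr rfl fun n _ => ?_
    rw [ht.herm o n _ _ _ (tstIs (hh n)), hbar]
  unfold com
  rw [inner_sub_left, inner_sub_right, neg_sub, key, hAB f _ _ hf, hAB f _ _ hf, key]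

/-- **Row (a2), first half.** -/
lemma sim_one' (y x : V) : sim 1 GF.one y x = x + y := by
  funext k
  simp [sim, GF.one, bas, add_comm]

lemma kil_transl (hX : IsKil X) (y : V) : IsKil (fun n x => X n (x + y)) := by
  obtain ⟨a, b, r, w, hw, h⟩ := hX
  refine ⟨fun n => a n + r * y n + ∑ m, y m * w m n + 2 * GF.mdot b y * y n -
    GF.mdot y y * b n, b, r + 2 * GF.mdot b y,
    fun m n => w m n + 2 * (eta m * b m) * y n - 2 * (eta m * y m) * b n, fun m n => ?_,
    fun n x => ?_⟩
  · have := hw m n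
    linear_combination this
  · show X n (x + y) = _
    rw [h]
    simp only [md_add, md_add_l, Pi.add_apply]
    rw [md_comm y x]
    simp only [GF.mdot, Fin.sum_univ_four]
    ring

lemma Ok.transl {S : Set V} {g : V → ℝ} (h : Ok S g) (y : V) :
    Ok {x | x + y ∈ S} (fun x => g (x + y)) := by
  obtain ⟨h1, α, h2, h3, h4⟩ := h
  refine ⟨⟨h1.1.comp (contDiff_id.add contDiff_const),
    h1.2.comp_homeomorph (Homeomorph.addRight y)⟩, fun u => α (u + y o),
    ⟨h2.1.comp (contDiff_id.add contDiff_const),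
      h2.2.comp_homeomorph (Homeomorph.addRight (y o))⟩, ?_, ?_⟩
  · rw [← h3]
    exact integral_add_right_eq_self α (y o)
  · intro x hx z hz
    have h5 : x + y ∈ closure {x | g x ≠ α (x o)} := by
      have h6 : Continuous fun x : V => x + y := by fun_prop
      have h7 := h6.closure_preimage_subset {x | g x ≠ α (x o)}
      exact h7 hx
    have h8 := h4 _ h5 _ hz
    simpa using h8

lemma com_transl (ht : IsT Q t) (hA : Q.fld A) (hX : IsKil X) {g : V → ℝ} (hg : Tst g) {f : Fn}
    (hf : GF.IsTest f) (y : V) (v : D) :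
    com t X g A f (Q.U 1 GF.one y v) = Q.U 1 GF.one y
      (com t (fun n x => X n (x + y)) (fun x => g (x + y)) A (fun x => f (sim 1 GF.one y x)) v) := by
  have hf' : GF.IsTest fun x => f (sim 1 GF.one y x) := by
    obtain ⟨F, rfl⟩ := exists_fl hf
    rw [fl_shift]
    exact isTest_fl _
  have hh : ∀ n, Tst fun x => eta n * X n x * g x := fun n => kil_tst hX hg n
  have hU : ∀ v w : D, Q.U 1 GF.one y (v - w) = Q.U 1 GF.one y v - Q.U 1 GF.one y w := by
    intro v w
    rw [sub_eq_add_neg, U_add one_pos isLor_one, ← neg_one_smul ℂ w, U_smul one_pos isLor_one,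
      neg_one_smul, ← sub_eq_add_neg]
  have hUs : ∀ v : Ix → D, Q.U 1 GF.one y (∑ n, v n) = ∑ n, Q.U 1 GF.one y (v n) := by
    intro v
    simp only [Fin.sum_univ_four, U_add (Q := Q) one_pos isLor_one]
  have h1 : ∀ n (u : D), t o n (fun x => (eta n * X n x * g x : ℝ)) (Q.U 1 GF.one y u) =
      Q.U 1 GF.one y (t o n (fun x => (eta n * X n (x + y) * g (x + y) : ℝ)) u) := by
    intro n u
    rw [ht.transl o n y _ u (tstIs (hh n))]
    simp only [sim_one']
  unfold com
  rw [hU, hUs]
  congr 1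
  · refine Finset.sum_congr rfl fun n _ => ?_
    rw [Q.transl A y f v hA hf, h1]
  · simp only [h1]
    rw [← hUs, Q.transl A y f _ hA hf]

lemma cs_transl {f : Fn} (hf : CS f) (y : V) : CS fun x => f (sim 1 GF.one y x) := by
  constructor
  · obtain ⟨F, rfl⟩ := exists_fl hf.1
    rw [fl_shift]
    exact isTest_fl _
  · simp only [sim_one']
    exact hf.2.comp_homeomorph (Homeomorph.addRight y)

/-- translation covariance of `Phi` -/
theorem phi_transl (ht : IsT Q t) (hA : Q.fld A) (hX : IsKil X) {f : Fn} (hf : CS f) (y : V)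
    (v : D) : Phi t X A f (Q.U 1 GF.one y v) = Q.U 1 GF.one y
      (Phi t (fun n x => X n (x + y)) A (fun x => f (sim 1 GF.one y x)) v) := by
  obtain ⟨g, hg⟩ := exists_ok hf.2.isCompact
  have h2 : tsupport (fun x => f (sim 1 GF.one y x)) ⊆ {x | x + y ∈ tsupport f} := by
    refine closure_minimal ?_ ?_
    · intro x hx
      rw [Function.mem_support, sim_one'] at hx
      exact subset_tsupport _ hx
    · exact (isClosed_tsupport f).preimage (by fun_prop)
  rw [phi_eq ht hA hX hf subset_rfl hg,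
    phi_eq ht hA (kil_transl hX y) (cs_transl hf y) h2 (hg.transl y),
    com_transl ht hA hX hg.1 hf.1]

theorem phi_linf (ht : IsT Q t) (hA : Q.fld A) (hX : IsKil X) {f f' : Fn} (hf : CS f) (hf' : CS f')
    (c : ℂ) (v : D) : Phi t X A (fun x => f x + c * f' x) v =
      Phi t X A f v + c • Phi t X A f' v := by
  obtain ⟨g, hg⟩ := exists_ok (hf.2.isCompact.union hf'.2.isCompact)
  have hff : CS fun x => f x + c * f' x := by
    constructor
    · obtain ⟨F, rfl⟩ := exists_fl hf.1
      obtain ⟨F', rfl⟩ := exists_fl hf'.1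
      rw [fl_add_smul]
      exact isTest_fl _
    · exact hf.2.add hf'.2.mul_left
  have hs : tsupport (fun x => f x + c * f' x) ⊆ tsupport f ∪ tsupport f' := by
    refine closure_minimal ?_ ((isClosed_tsupport f).union (isClosed_tsupport f'))
    intro x hx
    rw [Function.mem_support] at hx
    by_cases h : f x = 0
    · right
      refine subset_tsupport _ (Function.mem_support.2 fun h' => hx ?_)
      rw [h, h']; simp
    · left
      exact subset_tsupport _ (Function.mem_support.2 h)
  rw [phi_eq ht hA hX hff hs hg, phi_eq ht hA hX hf subset_union_left hg,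
    phi_eq ht hA hX hf' subset_union_right hg, com_linf ht hA hf.1 hf'.1 c hX hg.1]

theorem phi_linv (ht : IsT Q t) (hA : Q.fld A) (hX : IsKil X) {f : Fn} (hf : CS f) (c : ℂ)
    (v w : D) : Phi t X A f (v + c • w) = Phi t X A f v + c • Phi t X A f w := by
  obtain ⟨g, hg⟩ := exists_ok hf.2.isCompact
  simp only [phi_eq ht hA hX hf subset_rfl hg]
  exact com_linv ht hA hf.1 c hX hg.1 v w

lemma kil_add (hX : IsKil X) (hX' : IsKil X') (c : ℝ) : IsKil fun n x => X n x + c * X' n x := by
  obtain ⟨a, b, r, w, hw, h⟩ := hX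
  obtain ⟨a', b', r', w', hw', h'⟩ := hX'
  refine ⟨fun n => a n + c * a' n, fun n => b n + c * b' n, r + c * r',
    fun m n => w m n + c * w' m n, fun m n => ?_, fun n x => ?_⟩
  · have h1 := hw m n
    have h2 := hw' m n
    linear_combination h1 + c * h2
  · show X n x + c * X' n x = _
    rw [h, h']
    simp only [GF.mdot, Fin.sum_univ_four]
    ring

theorem phi_linX (ht : IsT Q t) (hA : Q.fld A) (hX : IsKil X) (hX' : IsKil X') {f : Fn}
    (hf : CS f) (c : ℝ) (v : D) : Phi t (fun n x => X n x + c * X' n x) A f v =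
      Phi t X A f v + (c : ℂ) • Phi t X' A f v := by
  obtain ⟨g, hg⟩ := exists_ok hf.2.isCompact
  rw [phi_eq ht hA (kil_add hX hX' c) hf subset_rfl hg, phi_eq ht hA hX hf subset_rfl hg,
    phi_eq ht hA hX' hf subset_rfl hg]
  exact com_linX ht hA hf.1 c hX hX' hg.1 v

lemma cs_bar {f : Fn} (hf : CS f) : CS (bar f) := by
  constructor
  · obtain ⟨F, rfl⟩ := exists_fl hf.1
    rw [bar_fl]
    exact isTest_fl _
  · exact hf.2.comp_left (g := fun z : ℂ => star z) (by simp)

theorem phi_adj (ht : IsT Q t) (hA : Q.fld A) (hB : Q.fld B) (hAB : IsAdj A B) (hX : IsKil X)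
    {f : Fn} (hf : CS f) (v w : D) :
    inner ℂ (Phi t X A f v) w = -inner ℂ v (Phi t X B (bar f) w) := by
  obtain ⟨g, hg⟩ := exists_ok hf.2.isCompact
  have hs : tsupport (bar f) ⊆ tsupport f := by
    refine closure_mono fun x hx => ?_
    rw [Function.mem_support] at hx ⊢
    intro h
    exact hx (by simp [bar, h])
  rw [phi_eq ht hA hX hf subset_rfl hg, phi_eq ht hB hX (cs_bar hf) hs hg]
  exact com_adj ht hA hB hAB hX hg.1 hf.1 v w

end Vale.Agent.P352.H755
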