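import Vale.Agent.P352.H755.ChI
import Vale.Agent.P352.H846.PhiLoc2
import Vale.Agent.P352.H148.Bdd2
import Vale.Agent.P352.H246.CfExt
import Vale.Agent.P352.H731.ChA

/-!
# The charges of a traceless tensor act by infinitesimal conformal transformations
-/

set_option linter.all false

noncomputable section

open MeasureTheory Filter Topology Set
open scoped ContDiff ComplexConjugate SchwartzMap LineDeriv

namespace Vale.Agent.P352.H755

open GF (Ix V Fn bas eta pd bar sim o)
open H246 H496 H15
open SubConf (IsKil IsAdj Comm chg)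
open UniformSpace (Completion)

variable {D : Type*} [NormedAddCommGroup D] [InnerProductSpace ℂ D] {Q : GF.Theory D}
  {t : Ix → Ix → GF.Fld D} {A B : GF.Fld D} {X X' : Ix → V → ℝ}

lemma hasCut : HasCut := fun S hS =>
  ⟨cutF, isCutoff_cutF, ok_cutoff isCutoff_cutF hS⟩

lemma rows (ht : IsT Q t) : Rows Q t where
  bdd A X v hA hX := H148.phi_bdd ht hA hX v
  loc A X C f g v hA hX hC h hf hg hs := H846.phi_loc ht hA hX hC h hf hg hs v

lemma adj_symm (h : IsAdj A B) : IsAdj B A := by
  intro f v w hf
  have hf' : GF.IsTest (bar f) := by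
    obtain ⟨F, rfl⟩ := exists_fl hf
    rw [bar_fl]
    exact isTest_fl _
  have h1 := h (bar f) w v hf'
  have h2 : bar (bar f) = f := by funext x; simp [bar]
  rw [h2] at h1
  rw [← inner_conj_symm (B f v) w, ← h1, inner_conj_symm]

/-- decomposition of the action of a general conformal Killing field -/
theorem sg_dec (ht : IsT Q t) (hA : Q.fld A) {a b : V} {r : ℝ} {w : Ix → V}
    (hw : ∀ m n, eta n * w m n = -(eta m * w n m)) (h : ∀ n x, X n x = a n + r * x n +
    ∑ m, x m * w m n + 2 * GF.mdot b x * x n - GF.mdot x x * b n) {f : Fn} (hf : CS f) (v : D) :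
    Sg t X A f v = ∑ m, ∑ n, SS t m n A
      (fun x => (((r * (if n = m then 1 else 0) + w m n) + qb b m n x : ℝ) : ℂ) * f x) v +
      ∑ m, ((8 * (eta m * b m) : ℝ) : ℂ) • KK t m A f v := by
  have hlin : IsKil fun (k : Ix) (x : V) => r * x k + ∑ m, x m * w m k :=
    ⟨0, 0, r, w, hw, by simp [GF.mdot]⟩
  have e1 : X = fun n x => (fun n x => (fun (k : Ix) (_ : V) => a k) n x + 1 *
      (fun (k : Ix) (x : V) => r * x k + ∑ m, x m * w m k) n x) n x + 1 * Xb b n x := by
    funext n x
    rw [h]
    simp only [Xb]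
    ring
  have h1 : Sg t X A f v = Sg t (fun (k : Ix) (x : V) => r * x k + ∑ m, x m * w m k) A f v +
      Sg t (Xb b) A f v := by
    rw [e1, sg_linX ht hA (kil_add (kil_c a) hlin 1) (kil_b b) hf,
      sg_linX ht hA (kil_c a) hlin hf, sg_c ht hasCut hA hf a]
    simp only [Complex.ofReal_one, one_smul, zero_add]
  have h2 : ∀ m n, SS t m n A
      (fun x => (((r * (if n = m then 1 else 0) + w m n) + qb b m n x : ℝ) : ℂ) * f x) v =
      ((r * (if n = m then 1 else 0) + w m n : ℝ) : ℂ) • SS t m n A f v +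
        SS t m n A (fun x => (qb b m n x : ℂ) * f x) v := by
    intro m n
    refine Eq.trans ?_ (add_comm _ _)
    rw [← ss_linf ht hA m n (cs_mul hf (Mq_qb b m n)) hf]
    congr 1
    funext x
    push_cast
    ring
  have h3 : ∑ m, ((8 * (eta m * b m) : ℝ) : ℂ) • KK t m A f v = Tau t b A f v := by
    rw [tau_dec ht hA b hf]
    refine Finset.sum_congr rfl fun m _ => ?_
    unfold KK
    rw [smul_smul]
    congr 1
    push_cast
    ring
  rw [h1, lin_dec ht hasCut hA hf r hw, h3]
  simp only [h2, Finset.sum_add_distrib]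
  unfold Tau
  push_cast
  rw [neg_one_smul]
  abel

/-- the charges of the cut off currents -/
lemma chg_eq (ht : IsT Q t) {g : V → ℝ} (v : D) :
    chg (fun m n f v => ((t m n f v : D) : Completion D)) X (fun x => (g x : ℂ)) v =
      ((∑ n, t o n (fun x => ((eta n * X n x * g x : ℝ) : ℂ)) v : D) : Completion D) := by
  unfold chg
  rw [← UniformSpace.Completion.coe_toComplL (𝕜 := ℂ), map_sum]
  refine Finset.sum_congr rfl fun n _ => ?_
  rw [UniformSpace.Completion.coe_toComplL]
  congr 2
  funext x
  push_cast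
  ring

theorem comm_phi (ht : IsT Q t) (hA : Q.fld A) (hB : Q.fld B) (hAB : IsAdj A B) (hX : IsKil X)
    {f : Fn} (hf : CS f) (w v : D) :
    Comm (fun m n f v => ((t m n f v : D) : Completion D)) X A B f w v
      (inner ℂ w (Phi t X A f v)) := by
  intro F hF
  refine tendsto_const_nhds.congr' ?_
  filter_upwards [ok_cutoff hF hf.2.isCompact] with R hR
  obtain ⟨g, hg, hgF⟩ := hR
  rw [hgF, chg_eq ht, chg_eq ht, UniformSpace.Completion.inner_coe,
    UniformSpace.Completion.inner_coe, phi_eq ht hA hX hf subset_rfl hg]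
  have hbar : ∀ n, bar (fun x => ((eta n * X n x * g x : ℝ) : ℂ)) =
      fun x => ((eta n * X n x * g x : ℝ) : ℂ) := by
    intro n; funext x; simp [bar]
  have key : ∀ u u' : D, inner ℂ (∑ n, t o n (fun x => (eta n * X n x * g x : ℝ)) u) u' =
      inner ℂ u (∑ n, t o n (fun x => (eta n * X n x * g x : ℝ)) u') := by
    intro u u'
    rw [sum_inner, inner_sum]
    refine Finset.sum_congr rfl fun n _ => ?_
    rw [ht.herm o n _ _ _ (tstIs (kil_tst hX hg.1 n)), hbar]
  unfold com
  rw [inner_sub_right, key, adj_symm hAB (bar f) w _ (cs_bar hf).1]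
  have h2 : bar (bar f) = f := by funext x; simp [bar]
  rw [h2]

/-- **Row R12.** The charges of the currents `X^n t_mn` of a traceless tensor act on the fields by
infinitesimal conformal transformations. -/
theorem conf_act (ht : IsT Q t) : ConfAct Q t := by
  intro A B hA hB hAB
  have hBA := adj_symm hAB
  have hR := rows ht
  have hS : ∀ m n, ∃ Ψ Ψ' : Fn → D → Completion D, IsLocF Q A Ψ Ψ' ∧
      (∀ f v, CS f → Ψ f v = ((SS t m n A f v : D) : Completion D)) ∧
      ∀ f v, CS f → Ψ' f v = ((SS t m n B f v : D) : Completion D) := fun m n =>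
    H246D.cf_ext' (ss_cf ht hR hA hB hAB m n) (ss_cf ht hR hB hA hBA m n)
      (fun a f v hf => ss_transl ht hasCut hA m n hf a v)
  have hK : ∀ m, ∃ Ψ Ψ' : Fn → D → Completion D, IsLocF Q A Ψ Ψ' ∧
      (∀ f v, CS f → Ψ f v = ((KK t m A f v : D) : Completion D)) ∧
      ∀ f v, CS f → Ψ' f v = ((KK t m B f v : D) : Completion D) := fun m =>
    H246D.cf_ext' (kk_cf ht hR hA hB hAB m) (kk_cf ht hR hB hA hBA m)
      (fun a f v hf => kk_transl ht hasCut hA m hf a v)
  choose S S' hS1 hS2 hS3 using hS
  choose K K' hK1 hK2 hK3 using hK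
  refine ⟨S, S', K, K', hS1, hK1, fun X f w v hX hf hfc => ?_⟩
  have hcs : CS f := ⟨hf, hfc⟩
  have h1 := comm_phi ht hA hB hAB hX hcs w v
  obtain ⟨a, b, r, W, hw, h⟩ := id hX
  -- derivatives of the field
  have d1 : ∀ m n x, pd m (fun y => (X n y : ℂ)) x =
      (((r * (if n = m then 1 else 0) + W m n) + qb b m n x : ℝ) : ℂ) := by
    intro m n x
    rw [pd_tst (contDiff_kil hX n)]
    simp only
    congr 1
    have h2 := (kil_dr h m n x).deriv
    unfold dr
    rw [h2]
    unfold qb
    ring
  have hnn : ∀ n, W n n = 0 := by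
    intro n
    have h1 := hw n n
    have h2 : eta n ≠ 0 := by unfold eta; split_ifs <;> norm_num
    have h3 : eta n * W n n = 0 := by linarith
    exact (mul_eq_zero.1 h3).resolve_left h2
  have d2 : ∀ m n x, pd m (pd n fun y => (X n y : ℂ)) x = ((2 * (eta m * b m) : ℝ) : ℂ) := by
    intro m n x
    have e : (pd n fun y => (X n y : ℂ)) = fun y => ((r + 2 * GF.mdot b y : ℝ) : ℂ) := by
      funext y
      rw [d1, hnn]
      congr 1
      unfold qb
      simp only [if_true]
      ring
    have hc : ContDiff ℝ ∞ fun y : V => r + 2 * GF.mdot b y := by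
      have := H846.contDiff_mdot b
      fun_prop
    rw [e, pd_tst hc]
    simp only
    congr 1
    unfold dr
    have e2 : (fun s : ℝ => r + 2 * GF.mdot b (x + bas m s)) =
        fun s => (r + 2 * GF.mdot b x) + s * (2 * (eta m * b m)) + s ^ 2 * 0 := by
      funext s
      rw [bas_t, md_add, md_smul, md_bas]
      ring
    rw [e2]
    exact (hasDeriv_poly _ _ _).deriv
  -- the two sums
  have s1 : ∑ m, ∑ n, S m n (fun x => pd m (fun y => (X n y : ℂ)) x * f x) v =
      ((∑ m, ∑ n, SS t m n A (fun x => (((r * (if n = m then 1 else 0) + W m n) + qb b m n x : ℝ)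
        : ℂ) * f x) v : D) : Completion D) := by
    rw [← UniformSpace.Completion.coe_toComplL (𝕜 := ℂ), map_sum]
    refine Finset.sum_congr rfl fun m _ => ?_
    rw [map_sum]
    refine Finset.sum_congr rfl fun n _ => ?_
    rw [UniformSpace.Completion.coe_toComplL, ← hS2 m n]
    · congr 1
      funext x
      rw [d1]
    · exact cs_mul hcs ((Mq.const (r * (if n = m then 1 else 0) + W m n)).add (Mq_qb b m n))
  have s2 : ∑ m, ∑ n, K m (fun x => pd m (pd n fun y => (X n y : ℂ)) x * f x) v =
      ((∑ m, ((8 * (eta m * b m) : ℝ) : ℂ) • KK t m A f v : D) : Completion D) := by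
    rw [← UniformSpace.Completion.coe_toComplL (𝕜 := ℂ), map_sum]
    refine Finset.sum_congr rfl fun m _ => ?_
    have e3 : ∀ n, K m (fun x => pd m (pd n fun y => (X n y : ℂ)) x * f x) v =
        ((2 * (eta m * b m) : ℝ) : ℂ) • K m f v := by
      intro n
      have h4 := (hK1 m).linf (fun _ => 0) f ((2 * (eta m * b m) : ℝ) : ℂ) v cs_zero.1 hf
      have h5 : K m (fun _ => 0) v = 0 := by
        have := (hK1 m).linf (fun _ => 0) (fun _ => 0) 1 v cs_zero.1 cs_zero.1
        simp only [mul_zero, add_zero, one_smul] at this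
        simpa using this
      rw [h5, zero_add] at h4
      rw [← h4]
      congr 1
      funext x
      rw [d2]
      ring
    simp only [e3, Finset.sum_const, Finset.card_univ, Fintype.card_fin]
    rw [map_smul, UniformSpace.Completion.coe_toComplL, ← hK2 m f v hcs,
      ← Nat.cast_smul_eq_nsmul ℂ, smul_smul]
    congr 1
    push_cast
    ring
  have h6 := sg_dec ht hA hw h hcs v
  rw [s1, s2]
  rw [← UniformSpace.Completion.coe_sub, ← UniformSpace.Completion.coe_sub,
    UniformSpace.Completion.inner_coe, sub_sub, ← h6]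
  have h8 : inner ℂ w (Phi t X A f v) = Complex.I * inner ℂ w
      (∑ n, A (pd n fun x => (X n x : ℂ) * f x) v - Sg t X A f v) := by
    unfold Sg
    rw [sub_add_cancel_left, inner_neg_right, inner_smul_right]
    linear_combination (inner ℂ w (Phi t X A f v)) * Complex.I_mul_I
  rw [← h8]
  exact h1

end Vale.Agent.P352.H755
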