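import Vale.Agent.P352.H731.Nc1
import Vale.Agent.P352.H148.Cop

/-!
# P352 (helper755): the second null moment and the null charge of the virial current satisfy `KC`
-/

set_option linter.all false

noncomputable section

open MeasureTheory Filter Topology Set
open scoped ContDiff ComplexConjugate

namespace Vale.Agent.P352.H755

open GF (Ix V Fn Fld bas eta o bar sim)
open H496 H15 H246 H121

variable {D : Type*} [NormedAddCommGroup D] [InnerProductSpace ℂ D]
variable {Q : GF.Theory D} {T : Ix → Ix → GF.Fld D} {J : Ix → GF.Fld D}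
  {A : (V → V) → D → D} {K : V → D → D}

/-- the operators `K a` and `C a` -/
theorem kc_of (hT : Q.IsStress T) (hJ : IsVirial Q T J) (h : NullCharges Q T J A K)
    (ht : TrNull T) {a b : V} (ha : IsNull a) (hb : IsNull b) (hab : GF.mdot a b = 1) :
    H731.KC Q A a (K a) (Cop Q A K a b) where
  rep := h.toRep
  nul := ha
  ks v w := nc_symm hT h ha v w
  cs v w := H148.Cop_symm hT hJ h ht ha hb hab v w
  kc s L r v hs hr hL hLa := nc_cov hT h v hs hr hL ha ha hLa
  cc s L r x v hs hr hL hLa := (H148.Cop_cov hT hJ h ht ha hb hab hs hr hL hLa x v).symm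
  tra x v := K_shift hT hJ h ht ha hb hab x v

end Vale.Agent.P352.H755

end
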