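import Vale.Agent.P352.H755.R7h

/-!
# The second null moments are the special conformal generators
-/

set_option linter.all false

noncomputable section

open MeasureTheory Filter Topology Set
open scoped ContDiff ComplexConjugate

namespace Vale.Agent.P352.H755

open GF (Ix V Fn bas eta pd bar sim o)
open H246 H496 H15

variable {D : Type*} [NormedAddCommGroup D] [InnerProductSpace ℂ D] {Q : GF.Theory D}
  {T : Ix → Ix → GF.Fld D} {J : Ix → GF.Fld D} {A : (V → V) → D → D} {K : V → D → D}

lemma conj_Xw (h : Rep Q A) {a b : V} (ha : IsNull a) (hb : IsNull b) (hab : GF.mdot a b = 1)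
    (x : V) (v : D) :
    Q.U 1 GF.one x (A (Xw a b) (Q.U 1 GF.one (-x) v)) = A (fun z => Xw a b (z - x)) v := by
  refine conj_A h (s := fun e => Real.exp e)
    (L := fun e => bst a b (Real.exp (-e) - 1) (Real.exp e - 1)) (t := fun _ => 0) x v
    Real.exp_zero ?_ rfl ?_ ?_
  · funext m
    simp [bst, GF.one]
  · intro e
    refine ⟨Real.exp_pos e, isLor_bst ha hb hab ?_ ?_⟩
    · have := Real.exp_pos (-e); linarith
    · have : Real.exp (-e) * Real.exp e = 1 := by rw [← Real.exp_add]; simp
      linear_combination this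
  · intro n z
    have e : (fun e : ℝ => sim (Real.exp e) (bst a b (Real.exp (-e) - 1) (Real.exp e - 1)) 0 z n) =
        fun e : ℝ => Real.exp e * (z n + ((Real.exp (-e) - 1) * GF.mdot b z) * a n +
          ((Real.exp e - 1) * GF.mdot a z) * b n) := by
      funext e
      rw [sim_s, sim_bst]
      simp only [Pi.smul_apply, Pi.add_apply, smul_eq_mul]
    rw [e]
    have h1 : HasDerivAt (fun e : ℝ => Real.exp e) 1 0 := by
      simpa using Real.hasDerivAt_exp 0
    have h2 : HasDerivAt (fun e : ℝ => Real.exp (-e)) (-1) 0 := by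
      have := (hasDerivAt_neg (0:ℝ)).exp
      simpa using this
    have h3 := ((((h2.sub_const 1).mul_const (GF.mdot b z)).mul_const (a n)).const_add (z n)).add
      (((h1.sub_const 1).mul_const (GF.mdot a z)).mul_const (b n))
    have h4 := h1.mul h3
    have e2 : (1 : ℝ) * (z n + ((Real.exp (-0) - 1) * GF.mdot b z) * a n +
          ((Real.exp 0 - 1) * GF.mdot a z) * b n) + Real.exp 0 * (((-1) * GF.mdot b z) * a n +
          (1 * GF.mdot a z) * b n) = Xw a b z n := by
      simp only [neg_zero, Real.exp_zero, Xw, Pi.add_apply, Pi.sub_apply, Pi.smul_apply,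
        smul_eq_mul]
      ring
    rw [← e2]
    exact h4

lemma conj_const (h : Rep Q A) (b x : V) (v : D) :
    Q.U 1 GF.one x (A (fun _ => b) (Q.U 1 GF.one (-x) v)) = A (fun _ => b) v := by
  refine conj_A h (s := fun _ => 1) (L := fun _ => GF.one) (t := fun e => e • b)
    (X := fun _ => b) x v rfl rfl (zero_smul _ _) (fun _ => ⟨one_pos, isLor_one⟩) ?_
  intro n z
  have e : (fun e : ℝ => sim 1 GF.one (e • b) z n) = fun e : ℝ => z n + e * b n + e ^ 2 * 0 := by
    funext e
    simp [sim, GF.one, bas]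
    ring
  rw [e]
  exact hasDeriv_poly _ _ _

lemma XX_b (a b : V) (hb : IsNull b) (hab : GF.mdot a b = 1) (u : ℝ) :
    XX a (u • b) = fun z => (-2 * u) • Xw a b z + (2 * (u * u)) • b := by
  funext z n
  simp only [XX, Xw, cK, md_smul, md_smul_l, hab, hb.1, Pi.add_apply, Pi.sub_apply, Pi.smul_apply,
    smul_eq_mul]
  ring

lemma A_XXb (h : Rep Q A) {a b : V} (hb : IsNull b) (hab : GF.mdot a b = 1) (u : ℝ) (v : D) :
    A (XX a (u • b)) v = ((-2 * u : ℝ) : ℂ) • A (Xw a b) v +
      ((2 * (u * u) : ℝ) : ℂ) • A (fun _ => b) v := by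
  rw [XX_b a b hb hab]
  exact A_lin2 h _ _ v (Xw_sim a b) (const_sim b)

/-- translations in the direction of `b` -/
theorem tra_b (hT : Q.IsStress T) (hJ : IsVirial Q T J) (h : NullCharges Q T J A K)
    (ho : OnShell Q T J) {a b : V} (ha : IsNull a) (hb : IsNull b) (hab : GF.mdot a b = 1) (u : ℝ)
    (v : D) : Q.U 1 GF.one (u • b) (K a (Q.U 1 GF.one (-(u • b)) v)) =
      K a v + A (XX a (u • b)) v := by
  refine ext_inner_left ℂ fun w => ?_
  have hc : Continuous (Kh Q K a b w v) := h.cont a b v w ha hb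
  have h1 := const_of_int (h := fun u => Kh Q K a b w v u +
    2 * (u : ℂ) * inner ℂ w (A (Xw a b) v) - 2 * ((u : ℂ) * u) * inner ℂ w (A (fun _ => b) v))
    (by fun_prop) (fun G hG => ward hT hJ h ho ha hb hab v w hG) u
  simp only [Kh_zero] at h1
  rw [A_XXb h.toRep hb hab, inner_add_right, inner_add_right, inner_smul_right, inner_smul_right]
  have h2 : inner ℂ w (Q.U 1 GF.one (u • b) (K a (Q.U 1 GF.one (-(u • b)) v))) =
      Kh Q K a b w v u := rfl
  rw [h2]
  push_cast at h1 ⊢
  linear_combination h1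

lemma A_addX (h : Rep Q A) {r r' : ℝ} {X X' : V → V} (v : D) (hX : IsSim r X)
    (hX' : IsSim r' X') : A (fun z => X z + X' z) v = A X v + A X' v := by
  have h1 := h.add r r' 1 X X' v hX hX'
  simpa using h1

lemma sim_shift {r : ℝ} {X : V → V} (hX : IsSim r X) (x : V) : IsSim r (fun z => X (z - x)) := by
  obtain ⟨c, w, hw, h⟩ := hX
  refine ⟨fun n => c n - r * x n - ∑ m, x m * w m n, w, hw, fun z n => ?_⟩
  show X (z - x) n = _
  rw [h]
  simp only [Pi.sub_apply, Fin.sum_univ_four]
  ring

theorem nc_tra (hT : Q.IsStress T) (hJ : IsVirial Q T J) (h : NullCharges Q T J A K)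
    (ho : OnShell Q T J) {a : V} (ha : IsNull a) (x : V) (v : D) :
    Q.U 1 GF.one x (K a (Q.U 1 GF.one (-x) v)) = K a v + A (XX a x) v := by
  obtain ⟨b, hb, hab⟩ := exists_dual ha
  set u : ℝ := GF.mdot a x with hu
  set x0 : V := x - u • b with hx0
  have hax0 : GF.mdot a x0 = 0 := by rw [hx0, md_sub, md_smul, hab, mul_one, sub_self]
  have hx : x = x0 + u • b := by rw [hx0]; abel
  have h1 : Q.U 1 GF.one (-x) v = Q.U 1 GF.one (-(u • b)) (Q.U 1 GF.one (-x0) v) := by
    rw [Uadd1]
    congr 1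
    rw [hx]; abel
  have h2 : ∀ z, Q.U 1 GF.one x z = Q.U 1 GF.one x0 (Q.U 1 GF.one (u • b) z) := by
    intro z; rw [Uadd1, ← hx]
  rw [h1, h2, tra_b hT hJ h ho ha hb hab, U_add one_pos isLor_one,
    tra_zero hT h ha hax0, add_assoc]
  congr 1
  rw [A_XXb h.toRep hb hab, U_add one_pos isLor_one, U_smul one_pos isLor_one,
    U_smul one_pos isLor_one, conj_Xw h.toRep ha hb hab, conj_const h.toRep,
    ← A_lin2 h.toRep _ _ v (sim_shift (Xw_sim a b) x0) (const_sim b),
    ← A_addX h.toRep v (XX_sim a x0)]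
  · congr 1
    funext z n
    rw [hx]
    simp only [XX, Xw, cK, md_smul, md_smul_l, md_add, md_add_l, md_sub, md_sub_l, hab, hb.1, hax0,
      Pi.add_apply, Pi.sub_apply, Pi.smul_apply, smul_eq_mul]
    rw [md_comm x0 b]
    ring
  · have e : (fun z => (-2 * u) • Xw a b (z - x0) + (2 * (u * u)) • b) =
        fun z => XX a (u • b) (z - x0) := by
      rw [XX_b a b hb hab]
    rw [e]
    exact sim_shift (XX_sim a (u • b)) x0

/-- **Row R7.** The null charges of a theory that satisfies the on-shell dilaton constraint are the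
conformal generators. -/
theorem confGen (hT : Q.IsStress T) (hJ : IsVirial Q T J) (h : NullCharges Q T J A K)
    (ho : OnShell Q T J) : ConfGen Q A K where
  toRep := h.toRep
  symm a v w ha := nc_symm hT h ha v w
  cov s L r a b v hs hr hL ha hb hab := nc_cov hT h v hs hr hL ha hb hab
  tra a x v ha := nc_tra hT hJ h ho ha x v

end Vale.Agent.P352.H755
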