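import Vale.Agent.P352.H755.Half
import Vale.Agent.P352.H755.TP
import Vale.Agent.P352.H496.Word

set_option linter.all false

noncomputable section

open MeasureTheory Filter Topology Set
open scoped ContDiff

namespace Vale.Agent.P352.H755

open GF (Ix V Fn bas eta)

/-- the linear form `y ↦ a·y` -/
def ml (a : V) : V →L[ℝ] ℝ := ∑ i, (eta i * a i) • ContinuousLinearMap.proj i

lemma ml_apply (a y : V) : ml a y = GF.mdot a y := by
  simp [ml, GF.mdot, ContinuousLinearMap.sum_apply]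

lemma bas_smul (m : Ix) (t : ℝ) : bas m t = t • bas m 1 := by
  funext n
  simp [bas]

lemma mdot_bas (a : V) (m : Ix) : GF.mdot a (bas m 1) = eta m * a m := by
  simp [GF.mdot, bas]

lemma dr_eq {f : V → ℝ} (hf : Differentiable ℝ f) (m : Ix) (x : V) :
    dr m f x = fderiv ℝ f x (bas m 1) := by
  unfold dr
  have h1 : (fun t : ℝ => f (x + bas m t)) = fun t : ℝ => f (x + t • bas m 1) := by
    funext t
    rw [bas_smul]
  rw [h1]
  exact ((hf x).hasFDerivAt.hasLineDerivAt (bas m 1)).deriv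

lemma Tst.diff {E : Type*} [NormedAddCommGroup E] [NormedSpace ℝ E] {f : E → ℝ} (hf : Tst f) :
    Differentiable ℝ f := hf.1.differentiable (by simp)

lemma Tst.cont {E : Type*} [NormedAddCommGroup E] [NormedSpace ℝ E] {f : E → ℝ} (hf : Tst f) :
    Continuous f := hf.1.continuous

lemma Tst.fd {E : Type*} [NormedAddCommGroup E] [NormedSpace ℝ E] {f : E → ℝ} (hf : Tst f)
    (c : E) : Tst fun x => fderiv ℝ f x c :=
  ⟨(hf.1.fderiv_right (m := ∞) (by simp)).clm_apply contDiff_const, hf.2.fderiv_apply ℝ c⟩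

lemma Tst.dr {f : V → ℝ} (hf : Tst f) (m : Ix) : Tst (dr m f) := by
  have : H755.dr m f = fun x => fderiv ℝ f x (bas m 1) := funext fun x => dr_eq hf.diff m x
  rw [this]
  exact hf.fd _

section

variable {c : V}

lemma CD.add {A A' B B' : V → ℂ} (h : CD c A A') (h' : CD c B B') :
    CD c (fun y => A y + B y) (fun y => A' y + B' y) where
  cont := h.cont.add h'.cont
  supp := h.supp.add h'.supp
  cont' := h.cont'.add h'.cont'
  supp' := h.supp'.add h'.supp'
  der x := (h.der x).add (h'.der x)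

lemma CD.cmul {A A' : V → ℂ} (h : CD c A A') (k : ℂ) :
    CD c (fun y => k * A y) (fun y => k * A' y) where
  cont := continuous_const.mul h.cont
  supp := h.supp.mul_left
  cont' := continuous_const.mul h.cont'
  supp' := h.supp'.mul_left
  der x := (h.der x).const_mul k

lemma cd_mul {g : V → ℝ} (hg : Tst g) {f f' : V → ℂ} (hf : Continuous f) (hf' : Continuous f')
    (hd : ∀ x, HasLineDerivAt ℝ f (f' x) x c) :
    CD c (fun y => (g y : ℂ) * f y) (fun y => ((fderiv ℝ g y c : ℝ) : ℂ) * f y + (g y : ℂ) * f' y) where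
  cont := (Complex.continuous_ofReal.comp hg.cont).mul hf
  supp := by
    have h : HasCompactSupport fun y => (g y : ℂ) := hg.2.comp_left (g := fun r : ℝ => (r : ℂ)) (by simp)
    exact h.mul_right
  cont' := ((Complex.continuous_ofReal.comp (hg.fd c).cont).mul hf).add
    ((Complex.continuous_ofReal.comp hg.cont).mul hf')
  supp' := by
    have h : HasCompactSupport fun y => (g y : ℂ) := hg.2.comp_left (g := fun r : ℝ => (r : ℂ)) (by simp)
    have h' : HasCompactSupport fun y => ((fderiv ℝ g y c : ℝ) : ℂ) :=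
      (hg.fd c).2.comp_left (g := fun r : ℝ => (r : ℂ)) (by simp)
    exact h'.mul_right.add h.mul_right
  der x := by
    have h1 : HasLineDerivAt ℝ g (fderiv ℝ g x c) x c := (hg.diff x).hasFDerivAt.hasLineDerivAt c
    have h2 : HasLineDerivAt ℝ (fun y => (g y : ℂ)) ((fderiv ℝ g x c : ℝ) : ℂ) x c := by
      unfold HasLineDerivAt at h1 ⊢
      exact h1.ofReal_comp
    have h3 := hd x
    unfold HasLineDerivAt at h2 h3 ⊢
    have h4 := h2.fun_mul h3
    simpa using h4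

end

/-- a function with a continuous line derivative in the direction `c` -/
structure LD (c : V) (f f' : V → ℂ) : Prop where
  cont : Continuous f
  cont' : Continuous f'
  der : ∀ x, HasLineDerivAt ℝ f (f' x) x c

/-- (G1) -/
theorem G1 {a b : V} (haa : GF.mdot a a = 0) (hab : GF.mdot a b = 1) {ρ : ℝ → ℝ} (hρ : Continuous ρ)
    (hρc : HasCompactSupport ρ) (hρ1 : ∫ t, ρ t = 1) {Sg : V → ℝ} (hS : Tst Sg)
    {F : Ix → V → ℂ} {F' : Ix → V → V → ℂ} (hF : ∀ i c, LD c (F i) (F' i c))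
    {L : V → ℂ} {L' : V → V → ℂ} (hL : ∀ c, LD c L (L' c))
    {L'' : Ix → V → V → ℂ} (hL' : ∀ i c, LD c (L' (bas i 1)) (L'' i c))
    (hLa : ∀ y, L' a y = ∑ i, (a i : ℂ) * L' (bas i 1) y)
    (hrel : ∀ y, ∑ i, F' i (bas i 1) y = 3 * ∑ i, (eta i : ℂ) * L'' i (bas i 1) y) (u : ℝ) :
    ∫ y in Hs (ml a) u, ∑ i, (dr i Sg y : ℂ) * F i y =
      Su volume (ml a) b ρ u (fun y => (Sg y : ℂ) * (∑ i, ((eta i * a i : ℝ) : ℂ) * F i y) +
        6 * ((fderiv ℝ Sg y a : ℝ) : ℂ) * L y) -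
      3 * ∫ y in Hs (ml a) u, (∑ i, (eta i : ℂ) * (dr i (dr i Sg) y : ℂ)) * L y := by
  have hb : ml a b = 1 := by rw [ml_apply, hab]
  have hSd : ∀ i y, dr i Sg y = fderiv ℝ Sg y (bas i 1) := fun i y => dr_eq hS.diff i y
  have hSi : ∀ i, Tst (dr i Sg) := fun i => hS.dr i
  -- the vector field
  set W : Ix → V → ℂ := fun i y => (Sg y : ℂ) * F i y + ((-3 * eta i : ℝ) : ℂ) *
    ((Sg y : ℂ) * L' (bas i 1) y) + ((3 * eta i : ℝ) : ℂ) * ((dr i Sg y : ℂ) * L y) with hW
  have hWd : ∀ i c, CD c (W i) (fun y =>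
      (((fderiv ℝ Sg y c : ℝ) : ℂ) * F i y + (Sg y : ℂ) * F' i c y) + ((-3 * eta i : ℝ) : ℂ) *
        (((fderiv ℝ Sg y c : ℝ) : ℂ) * L' (bas i 1) y + (Sg y : ℂ) * L'' i c y) +
        ((3 * eta i : ℝ) : ℂ) * (((fderiv ℝ (dr i Sg) y c : ℝ) : ℂ) * L y +
          (dr i Sg y : ℂ) * L' c y)) := by
    intro i c
    exact ((cd_mul hS (hF i c).cont (hF i c).cont' (hF i c).der).add
      ((cd_mul hS (hL' i c).cont (hL' i c).cont' (hL' i c).der).cmul _)).add
      ((cd_mul (hSi i) (hL c).cont (hL c).cont' (hL c).der).cmul _)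
  have hdiv : ∀ i, ∫ y in Hs (ml a) u,
      ((((fderiv ℝ Sg y (bas i 1) : ℝ) : ℂ) * F i y + (Sg y : ℂ) * F' i (bas i 1) y) +
        ((-3 * eta i : ℝ) : ℂ) *
        (((fderiv ℝ Sg y (bas i 1) : ℝ) : ℂ) * L' (bas i 1) y + (Sg y : ℂ) * L'' i (bas i 1) y) +
        ((3 * eta i : ℝ) : ℂ) * (((fderiv ℝ (dr i Sg) y (bas i 1) : ℝ) : ℂ) * L y +
          (dr i Sg y : ℂ) * L' (bas i 1) y)) =
      ((ml a (bas i 1) : ℝ) : ℂ) * Su volume (ml a) b ρ u (W i) := by
    intro i
    have h := hWd i (bas i 1)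
    have h' := hWd i b
    exact half_c hb hρ hρc hρ1 h.cont h.supp h.cont' h.supp' h.der h'.cont' h'.supp' h'.der u
  -- sum
  have hint : ∀ i, IntegrableOn (fun y =>
      ((((fderiv ℝ Sg y (bas i 1) : ℝ) : ℂ) * F i y + (Sg y : ℂ) * F' i (bas i 1) y) +
        ((-3 * eta i : ℝ) : ℂ) *
        (((fderiv ℝ Sg y (bas i 1) : ℝ) : ℂ) * L' (bas i 1) y + (Sg y : ℂ) * L'' i (bas i 1) y) +
        ((3 * eta i : ℝ) : ℂ) * (((fderiv ℝ (dr i Sg) y (bas i 1) : ℝ) : ℂ) * L y +
          (dr i Sg y : ℂ) * L' (bas i 1) y))) (Hs (ml a) u) := by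
    intro i
    have h := hWd i (bas i 1)
    exact (h.cont'.integrable_of_hasCompactSupport h.supp').integrableOn
  have hsum := Finset.sum_congr rfl fun i (_ : i ∈ (Finset.univ : Finset Ix)) => hdiv i
  rw [← integral_finset_sum _ (fun i _ => hint i)] at hsum
  -- the integrand
  have hI : ∀ y, ∑ i, ((((fderiv ℝ Sg y (bas i 1) : ℝ) : ℂ) * F i y + (Sg y : ℂ) * F' i (bas i 1) y) +
        ((-3 * eta i : ℝ) : ℂ) *
        (((fderiv ℝ Sg y (bas i 1) : ℝ) : ℂ) * L' (bas i 1) y + (Sg y : ℂ) * L'' i (bas i 1) y) +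
        ((3 * eta i : ℝ) : ℂ) * (((fderiv ℝ (dr i Sg) y (bas i 1) : ℝ) : ℂ) * L y +
          (dr i Sg y : ℂ) * L' (bas i 1) y)) =
      ∑ i, (dr i Sg y : ℂ) * F i y + 3 * ((∑ i, (eta i : ℂ) * (dr i (dr i Sg) y : ℂ)) * L y) := by
    intro y
    have h1 := hrel y
    have h2 : ∀ i, dr i (dr i Sg) y = fderiv ℝ (dr i Sg) y (bas i 1) := fun i =>
      dr_eq (hSi i).diff i y
    simp only [h2, ← hSd]
    simp only [Fin.sum_univ_four] at h1 ⊢
    push_cast
    linear_combination (Sg y : ℂ) * h1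
  simp only [hI] at hsum
  have hi1 : IntegrableOn (fun y => ∑ i, (dr i Sg y : ℂ) * F i y) (Hs (ml a) u) := by
    refine integrable_finset_sum _ fun i _ => ?_
    exact ((cd_mul (hSi i) (hF i 0).cont (hF i 0).cont' (hF i 0).der).cont.integrable_of_hasCompactSupport
      (cd_mul (hSi i) (hF i 0).cont (hF i 0).cont' (hF i 0).der).supp).integrableOn
  have hi2 : IntegrableOn (fun y => 3 * ((∑ i, (eta i : ℂ) * (dr i (dr i Sg) y : ℂ)) * L y))
      (Hs (ml a) u) := by
    have hSii : ∀ i, Tst (dr i (dr i Sg)) := fun i => (hSi i).dr i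
    have e : (fun y => 3 * ((∑ i, (eta i : ℂ) * (dr i (dr i Sg) y : ℂ)) * L y)) =
        fun y => ∑ i, (3 * (eta i : ℂ)) * ((dr i (dr i Sg) y : ℂ) * L y) := by
      funext y
      rw [Finset.sum_mul, Finset.mul_sum]
      refine Finset.sum_congr rfl fun i _ => by ring
    rw [e]
    refine integrable_finset_sum _ fun i _ => ?_
    have h := (cd_mul (hSii i) (hL 0).cont (hL 0).cont' (hL 0).der).cmul (3 * (eta i : ℂ))
    exact (h.cont.integrable_of_hasCompactSupport h.supp).integrableOn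
  rw [integral_add hi1 hi2, integral_const_mul] at hsum
  rw [eq_sub_iff_add_eq, hsum]
  -- the right hand side
  have hSu : ∀ i, Integrable (fun y : V => (ρ (ml a y) : ℂ) * W i (y + (u - ml a y) • b)) volume :=
    fun i => Su_int hρ hρc (hWd i 0).cont (hWd i 0).supp u
  have e1 : ∑ i, ((ml a (bas i 1) : ℝ) : ℂ) * Su volume (ml a) b ρ u (W i) =
      Su volume (ml a) b ρ u (fun y => ∑ i, ((ml a (bas i 1) : ℝ) : ℂ) * W i y) := by
    unfold Su
    simp_rw [← integral_const_mul]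
    rw [← integral_finset_sum]
    · congr 1
      funext y
      rw [Finset.mul_sum]
      refine Finset.sum_congr rfl fun i _ => by ring
    · exact fun i _ => (hSu i).const_mul _
  rw [e1]
  -- tangential integration by parts
  have hCa := cd_mul (c := a) hS (hL a).cont (hL a).cont' (hL a).der
  have htan := Su_tan (μ := (volume : Measure V)) (b := b) (α := ml a) hρ hρc
    (by rw [ml_apply, haa]) hCa u
  have hC1 := Su_int (μ := (volume : Measure V)) (b := b) (α := ml a) hρ hρc hCa.cont' hCa.supp' u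
  have hCt : CD a (fun y => (Sg y : ℂ) * (∑ i, ((eta i * a i : ℝ) : ℂ) * F i y) +
        6 * (((fderiv ℝ Sg y a : ℝ) : ℂ) * L y)) (fun y => (((fderiv ℝ Sg y a : ℝ) : ℂ) *
        (∑ i, ((eta i * a i : ℝ) : ℂ) * F i y) + (Sg y : ℂ) * (∑ i, ((eta i * a i : ℝ) : ℂ) * F' i a y)) +
        6 * (((fderiv ℝ (fun z => fderiv ℝ Sg z a) y a : ℝ) : ℂ) * L y +
          ((fderiv ℝ Sg y a : ℝ) : ℂ) * L' a y)) := by
    refine (cd_mul hS ?_ ?_ ?_).add ((cd_mul (hS.fd a) (hL a).cont (hL a).cont' (hL a).der).cmul 6)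
    · exact continuous_finset_sum _ fun i _ => continuous_const.mul (hF i a).cont
    · exact continuous_finset_sum _ fun i _ => continuous_const.mul (hF i a).cont'
    · intro x
      have : ∀ i, HasLineDerivAt ℝ (fun y => ((eta i * a i : ℝ) : ℂ) * F i y)
          (((eta i * a i : ℝ) : ℂ) * F' i a x) x a := fun i => ((hF i a).der x).const_mul _
      unfold HasLineDerivAt at this ⊢
      exact HasDerivAt.fun_sum fun i _ => this i
  have hC2 := Su_int (μ := (volume : Measure V)) (b := b) (α := ml a) hρ hρc hCt.cont hCt.supp u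
  have e2 : Su volume (ml a) b ρ u (fun y => ∑ i, ((ml a (bas i 1) : ℝ) : ℂ) * W i y) =
      Su volume (ml a) b ρ u (fun y => (Sg y : ℂ) * (∑ i, ((eta i * a i : ℝ) : ℂ) * F i y) +
        6 * (((fderiv ℝ Sg y a : ℝ) : ℂ) * L y)) - 3 * Su volume (ml a) b ρ u
        (fun y => ((fderiv ℝ Sg y a : ℝ) : ℂ) * L y + (Sg y : ℂ) * L' a y) := by
    unfold Su
    rw [← integral_const_mul, ← integral_sub hC2 (hC1.const_mul 3)]
    congr 1
    funext y
    set z := y + (u - ml a y) • b with hz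
    have h1 : ∀ i, ml a (bas i 1) = eta i * a i := fun i => by rw [ml_apply, mdot_bas]
    have h2 := hLa z
    have h3 : fderiv ℝ Sg z a = ∑ i, a i * dr i Sg z := by
      simp only [hSd]
      have : a = ∑ i, a i • (bas i 1 : V) := by
        funext n
        simp [bas, Finset.sum_apply]
      conv_lhs => rw [this, map_sum]
      simp only [map_smul, smul_eq_mul]
    have h4 : ∀ i : Ix, eta i * eta i = 1 := by
      intro i
      unfold eta
      split_ifs <;> norm_num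
    simp only [hW, h1, h2, h3]
    have h4c : ∀ i : Ix, (eta i : ℂ) * (eta i : ℂ) = 1 := fun i => by
      rw [← Complex.ofReal_mul, h4 i, Complex.ofReal_one]
    simp only [Fin.sum_univ_four]
    push_cast
    linear_combination (ρ (ml a y) : ℂ) * (
      (-3 * (a 0 : ℂ) * (Sg z : ℂ) * L' (bas 0 1) z + 3 * (a 0 : ℂ) * (dr 0 Sg z : ℂ) * L z) * h4c 0 +
      (-3 * (a 1 : ℂ) * (Sg z : ℂ) * L' (bas 1 1) z + 3 * (a 1 : ℂ) * (dr 1 Sg z : ℂ) * L z) * h4c 1 +
      (-3 * (a 2 : ℂ) * (Sg z : ℂ) * L' (bas 2 1) z + 3 * (a 2 : ℂ) * (dr 2 Sg z : ℂ) * L z) * h4c 2 +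
      (-3 * (a 3 : ℂ) * (Sg z : ℂ) * L' (bas 3 1) z + 3 * (a 3 : ℂ) * (dr 3 Sg z : ℂ) * L z) * h4c 3)
  rw [e2, htan, mul_zero, sub_zero]
  congr 1
  funext y
  ring

end Vale.Agent.P352.H755
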