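import Vale.Agent.P352.H746.Vjm
import Vale.Agent.P352.H755.G1
import Mathlib.Analysis.Distribution.AEEqOfIntegralContDiff

set_option linter.all false

noncomputable section

open MeasureTheory SchwartzMap Complex Filter Topology
open scoped SchwartzMap ComplexConjugate ENNReal NNReal LineDeriv ContDiff

namespace Vale.Agent.P352.H755

open GF (Ix V Fn Sch ev pd bar sim bas o eta)
open H246 H496 H746
open UniformSpace (Completion)

variable {D : Type*} [NormedAddCommGroup D] [InnerProductSpace ℂ D]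
variable {Q : GF.Theory D}
variable {H : D → D} {alg : Set V → Set (D → D)} {S : V → ℝ → D → D}

/-- point like functionals -/
def IsPf (Q : GF.Theory D) (H : D → D) (lm : D → ℂ) : Prop :=
  ∃ (κ : 𝓢(Mink, ℂ) →L[ℂ] Completion D) (μ : Measure Mink) (K : Cvd Q κ μ) (w : Lp ℂ 2 μ) (n : ℕ),
    ∀ v, lm v = pt (K.J w) (pw1 H n) v

/-- the value at the origin -/
def vk (j : Fn → Completion D) (v : D) : ℂ := Classical.epsilon (Val j v)

lemma vj_eq_vk (J : Ix → GF.Fld D) (m : Ix) (v : D) :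
    vj Q J m v = vk (fun f => ((J m f Q.vac : D) : Completion D)) v := rfl

lemma UU (x y : V) (v : D) : Q.U 1 GF.one x (Q.U 1 GF.one y v) = Q.U 1 GF.one (x + y) v := by
  have h := U1_U1_all (Q := Q) (WithLp.toLp 2 x) (WithLp.toLp 2 y) v
  exact h

lemma U0 (v : D) : Q.U 1 GF.one (0 : V) v = v := U1_zero_all (Q := Q) v

lemma nU (x : V) (v : D) : ‖Q.U 1 GF.one x v‖ = ‖v‖ := U1_norm (Q := Q) (WithLp.toLp 2 x) v

section

variable (N : Net Q H alg S)
include N

/-- derivatives of point functions -/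
theorem IsPf.deriv {lm : D → ℂ} (h : IsPf Q H lm) (c : V) : ∃ lm', IsPf Q H lm' ∧
    ∀ v, LD c (fun y => lm (Q.U 1 GF.one (-y) v)) (fun y => lm' (Q.U 1 GF.one (-y) v)) := by
  obtain ⟨κ, μ, K, w, n, hlm⟩ := h
  obtain ⟨w', hw'⟩ := K.deriv_pt N w n (WithLp.toLp 2 (-c))
  refine ⟨fun v => pt (K.J w') (pw1 H (n + 1)) v, ⟨κ, μ, K, w', n + 1, fun v => rfl⟩, fun v => ?_⟩
  refine ⟨?_, ?_, ?_⟩
  · simp only [hlm]
    exact (cont_op N (K.J w) (pw1_mem N n) v).comp continuous_neg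
  · exact (cont_op N (K.J w') (pw1_mem N (n + 1)) v).comp continuous_neg
  · intro y
    unfold HasLineDerivAt
    have h1 := hw' (Q.U 1 GF.one (-y) v) 0
    have e1 : ∀ t : ℝ, U1 Q (t • (WithLp.toLp 2 (-c) : Mink)) (Q.U 1 GF.one (-y) v) =
        Q.U 1 GF.one (-(y + t • c)) v := by
      intro t
      show Q.U 1 GF.one (t • (WithLp.toLp 2 (-c) : Mink)).ofLp (Q.U 1 GF.one (-y) v) = _
      rw [UU]
      congr 1
      show t • (-c) + -y = -(y + t • c)
      rw [smul_neg, neg_add, add_comm]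
    simp only [e1] at h1
    simpa [hlm] using h1

/-- norm continuity -/
lemma cont_all {X : D → D} (hX : X ∈ alg Set.univ) (v : D) :
    Continuous fun x : V => X (Q.U 1 GF.one x v) := by
  rw [continuous_iff_continuousAt]
  intro x0
  have h1 := cont_norm N hX hX (Q.U 1 GF.one x0 v)
  have h2 : Tendsto (fun x : V => x - x0) (𝓝 x0) (𝓝 0) := by
    have : Continuous fun x : V => x - x0 := by fun_prop
    have h3 := this.tendsto x0
    rwa [sub_self] at h3
  have h3 := h1.comp h2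
  have e : (fun x : V => X (Q.U 1 GF.one x v)) =
      (fun x : V => X (Q.U 1 GF.one x (Q.U 1 GF.one x0 v))) ∘ fun x => x - x0 := by
    funext x
    simp only [Function.comp_apply]
    rw [UU, sub_add_cancel]
  have h4 : Tendsto (fun x : V => X (Q.U 1 GF.one x v)) (𝓝 x0) (𝓝 (X (Q.U 1 GF.one x0 v))) := by
    rw [e]
    exact h3
  exact h4

/-- joint continuity of point functions -/
theorem IsPf.cont2 {lm : D → ℂ} (h : IsPf Q H lm) {G : D → D} (hG : G ∈ alg Set.univ) (v : D) :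
    Continuous fun p : V × V => lm (Q.U 1 GF.one p.1 (G (Q.U 1 GF.one p.2 v))) := by
  obtain ⟨κ, μ, K, w, n, hlm⟩ := h
  simp only [hlm]
  have hB := pw1_mem N n
  have hBG := N.mul _ _ hB _ hG
  have hc := cont_all N hBG v
  have hU : ∀ w : D, Continuous fun x : V => Q.U 1 GF.one x w := fun w =>
    (continuous_U1a (Q := Q) w).comp (by fun_prop : Continuous fun x : V => (WithLp.toLp 2 x : Mink))
  have e : ∀ p : V × V, pt (K.J w) (pw1 H n) (Q.U 1 GF.one p.1 (G (Q.U 1 GF.one p.2 v))) =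
      inner ℂ (K.J w) ((Q.U 1 GF.one p.1 (pw1 H n (G (Q.U 1 GF.one p.2 v))) : D) : Completion D) := by
    intro p
    unfold pt
    have h1 := pw1_comm N n (WithLp.toLp 2 p.1) (G (Q.U 1 GF.one p.2 v))
    have h2 : pw1 H n (Q.U 1 GF.one p.1 (G (Q.U 1 GF.one p.2 v))) =
        Q.U 1 GF.one p.1 (pw1 H n (G (Q.U 1 GF.one p.2 v))) := h1
    rw [h2]
  simp only [e]
  have hj : Continuous fun p : V × V => Q.U 1 GF.one p.1 (pw1 H n (G (Q.U 1 GF.one p.2 v))) := by
    rw [continuous_iff_continuousAt]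
    rintro ⟨x0, y0⟩
    rw [ContinuousAt, tendsto_iff_norm_sub_tendsto_zero]
    have h1 : Tendsto (fun p : V × V => ‖pw1 H n (G (Q.U 1 GF.one p.2 v)) -
        pw1 H n (G (Q.U 1 GF.one y0 v))‖) (𝓝 (x0, y0)) (𝓝 0) := by
      have := (hc.comp continuous_snd).tendsto (x0, y0)
      exact tendsto_iff_norm_sub_tendsto_zero.1 this
    have h2 : Tendsto (fun p : V × V => ‖Q.U 1 GF.one p.1 (pw1 H n (G (Q.U 1 GF.one y0 v))) -
        Q.U 1 GF.one x0 (pw1 H n (G (Q.U 1 GF.one y0 v)))‖) (𝓝 (x0, y0)) (𝓝 0) := by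
      have := ((hU (pw1 H n (G (Q.U 1 GF.one y0 v)))).comp continuous_fst).tendsto (x0, y0)
      exact tendsto_iff_norm_sub_tendsto_zero.1 this
    refine squeeze_zero (fun _ => norm_nonneg _) (fun p => ?_) (by simpa using h1.add h2)
    have e2 : Q.U 1 GF.one p.1 (pw1 H n (G (Q.U 1 GF.one p.2 v))) -
        Q.U 1 GF.one x0 (pw1 H n (G (Q.U 1 GF.one y0 v))) =
        Q.U 1 GF.one p.1 (pw1 H n (G (Q.U 1 GF.one p.2 v)) - pw1 H n (G (Q.U 1 GF.one y0 v))) +
        (Q.U 1 GF.one p.1 (pw1 H n (G (Q.U 1 GF.one y0 v))) -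
          Q.U 1 GF.one x0 (pw1 H n (G (Q.U 1 GF.one y0 v)))) := by
      have h3 := U1_sub (Q := Q) (WithLp.toLp 2 p.1) (pw1 H n (G (Q.U 1 GF.one p.2 v)))
        (pw1 H n (G (Q.U 1 GF.one y0 v)))
      have h4 : Q.U 1 GF.one p.1 (pw1 H n (G (Q.U 1 GF.one p.2 v)) -
        pw1 H n (G (Q.U 1 GF.one y0 v))) = Q.U 1 GF.one p.1 (pw1 H n (G (Q.U 1 GF.one p.2 v))) -
          Q.U 1 GF.one p.1 (pw1 H n (G (Q.U 1 GF.one y0 v))) := h3
      rw [h4]
      abel
    rw [e2]
    refine (norm_add_le _ _).trans (add_le_add (le_of_eq ?_) le_rfl)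
    exact nU _ _
  exact (continuous_const.inner ((Completion.continuous_coe D).comp hj))

lemma IsPf.bound {lm : D → ℂ} (h : IsPf Q H lm) {G : D → D} (hG : G ∈ alg Set.univ) :
    ∃ (C : ℝ) (X : D → D), X ∈ alg Set.univ ∧ ∀ x v, ‖lm (Q.U 1 GF.one x (G v))‖ ≤ C * ‖X v‖ := by
  obtain ⟨κ, μ, K, w, n, hlm⟩ := h
  have hB := pw1_mem N n
  have hBG := N.mul _ _ hB _ hG
  refine ⟨‖K.J w‖, _, hBG, fun x v => ?_⟩
  rw [hlm]
  unfold pt
  refine (norm_inner_le_norm _ _).trans ?_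
  rw [Completion.norm_coe]
  have h1 := pw1_comm N n (WithLp.toLp 2 x) (G v)
  have h2 : pw1 H n (Q.U 1 GF.one x (G v)) = Q.U 1 GF.one x (pw1 H n (G v)) := h1
  rw [h2, nU]

end

/-! ### Representations -/

/-- covariant distributions -/
structure Cd (Q : GF.Theory D) (j : Fn → Completion D) (κ : 𝓢(Mink, ℂ) →L[ℂ] Completion D) : Prop where
  eq : ∀ F, j (fl F) = κ F
  cov : ∀ g (a : Mink) (z : D), inner ℂ ((U1 Q a z : D) : Completion D) (κ (tauS a g)) =
      inner ℂ (z : Completion D) (κ g)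

lemma Cd.field {J : Ix → GF.Fld D} (hJ : ∀ m, Q.fld (J m)) (m : Ix) :
    Cd Q (fun f => ((J m f Q.vac : D) : Completion D)) (kf (hJ m)) :=
  ⟨fun F => rfl, kf_cov (hJ m)⟩

theorem Cd.pf (N : Net Q H alg S) {j : Fn → Completion D} {κ : 𝓢(Mink, ℂ) →L[ℂ] Completion D}
    (h : Cd Q j κ) : IsPf Q H (vk j) ∧ (∀ v c, Val j v c ↔ c = vk j v) ∧
      ∀ F (v : D), inner ℂ (j (fl F)) (v : Completion D) =
        ∫ x : V, conj (fl F x) * vk j (Q.U 1 GF.one (-x) v) := by
  obtain ⟨μ, K⟩ := exists_cvd κ h.cov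
  obtain ⟨w, n, hr⟩ := K.exists_pt N
  have hB := pw1_mem N n
  have hrep : Rep Q κ (K.J w) (pw1 H n) := hr
  have h1 : ∀ v c, Val j v c ↔ c = pt (K.J w) (pw1 H n) v := val_iff_gen N h.eq hB hrep
  have h2 : ∀ v, vk j v = pt (K.J w) (pw1 H n) v := by
    intro v
    have h3 : Val j v (vk j v) := Classical.epsilon_spec ⟨_, (h1 v _).2 rfl⟩
    exact (h1 v _).1 h3
  refine ⟨⟨κ, μ, K, w, n, h2⟩, fun v c => by rw [h1, h2], fun F v => ?_⟩
  rw [h.eq, hr, integral_V]
  simp only [h2]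
  rfl

/-- real test functions as Schwartz functions -/
lemma Tst.fl {g : V → ℝ} (hg : Tst g) : ∃ F : 𝓢(Mink, ℂ), fl F = fun x => (g x : ℂ) := by
  have h1 : ContDiff ℝ ((⊤ : ℕ∞) : WithTop ℕ∞) (fun x : V => (g x : ℂ)) :=
    Complex.ofRealCLM.contDiff.comp hg.1
  have h2 : HasCompactSupport (fun x : V => (g x : ℂ)) :=
    hg.2.comp_left (g := fun r : ℝ => (r : ℂ)) (by simp)
  have h3 : GF.IsTest (fun x : V => (g x : ℂ)) := ⟨h2.toSchwartzMap h1, rfl⟩
  exact exists_fl h3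

lemma Tst.isTest {g : V → ℝ} (hg : Tst g) : GF.IsTest (fun x => (g x : ℂ)) := by
  obtain ⟨F, hF⟩ := hg.fl
  rw [← hF]
  exact isTest_fl F

theorem Cd.rep (N : Net Q H alg S) {j : Fn → Completion D} {κ : 𝓢(Mink, ℂ) →L[ℂ] Completion D}
    (h : Cd Q j κ) {g : V → ℝ} (hg : Tst g) (v : D) :
    inner ℂ (j fun x => (g x : ℂ)) (v : Completion D) =
      ∫ x : V, (g x : ℂ) * vk j (Q.U 1 GF.one (-x) v) := by
  obtain ⟨F, hF⟩ := hg.fl
  rw [← hF, (h.pf N).2.2 F v]
  congr 1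
  funext x
  rw [hF, conj_ofReal]

/-- continuous functions are determined by real test functions -/
lemma fun_uniqueV {h h' : V → ℂ} (hc : Continuous h) (hc' : Continuous h')
    (he : ∀ g : V → ℝ, Tst g → ∫ x, (g x : ℂ) * h x = ∫ x, (g x : ℂ) * h' x) : h = h' := by
  have h1 : ∀ᵐ x ∂(volume : Measure V), h x = h' x := by
    refine ae_eq_of_integral_contDiff_smul_eq hc.locallyIntegrable hc'.locallyIntegrable
      fun g hg hgc => ?_
    have := he g ⟨hg, hgc⟩
    simpa only [real_smul] using this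
  exact Continuous.ae_eq_iff_eq volume hc hc' |>.1 h1

/-- integration by parts -/
lemma LD.parts {c : V} {f f' : V → ℂ} (h : LD c f f') {g : V → ℝ} (hg : Tst g) :
    ∫ x, (g x : ℂ) * f' x = -∫ x, ((fderiv ℝ g x c : ℝ) : ℂ) * f x := by
  have h1 := cd_mul hg h.cont h.cont' h.der
  have i0 : Integrable (fun x => (g x : ℂ) * f x) := h1.cont.integrable_of_hasCompactSupport h1.supp
  have hgc : HasCompactSupport fun y => (g y : ℂ) := hg.2.comp_left (g := fun r : ℝ => (r : ℂ)) (by simp)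
  have hgc' : HasCompactSupport fun y => ((fderiv ℝ g y c : ℝ) : ℂ) :=
    (hg.fd c).2.comp_left (g := fun r : ℝ => (r : ℂ)) (by simp)
  have i1 : Integrable (fun x => (g x : ℂ) * f' x) :=
    ((Complex.continuous_ofReal.comp hg.cont).mul h.cont').integrable_of_hasCompactSupport
      hgc.mul_right
  have i2 : Integrable (fun x => ((fderiv ℝ g x c : ℝ) : ℂ) * f x) :=
    ((Complex.continuous_ofReal.comp (hg.fd c).cont).mul h.cont).integrable_of_hasCompactSupport
      hgc'.mul_right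
  have h0 := integral_bilinear_hasLineDerivAt_right_eq_neg_left_of_integrable
    (μ := (volume : Measure V))
    (f := fun y : V => (g y : ℂ)) (f' := fun y => ((fderiv ℝ g y c : ℝ) : ℂ))
    (g := f) (g' := f') (v := c)
    (B := ContinuousLinearMap.mul ℝ ℂ)
    (by simp only [ContinuousLinearMap.mul_apply']; exact i2)
    (by simp only [ContinuousLinearMap.mul_apply']; exact i1)
    (by simp only [ContinuousLinearMap.mul_apply']; exact i0)
    (fun x _ => by
      have h1 : HasLineDerivAt ℝ g (fderiv ℝ g x c) x c := (hg.diff x).hasFDerivAt.hasLineDerivAt c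
      unfold HasLineDerivAt at h1 ⊢
      exact h1.ofReal_comp)
    (fun x _ => h.der x)
  simp only [ContinuousLinearMap.mul_apply'] at h0
  exact h0

end Vale.Agent.P352.H755
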