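import Vale.Agent.P352.H246.SubConfDefs

open MeasureTheory Filter Topology
open scoped SchwartzMap

namespace Vale.Agent.P352.H755

open GF SubConf UniformSpace

noncomputable section

variable {D : Type*} [NormedAddCommGroup D] [InnerProductSpace ℂ D]

/-- `P` is a local field, with formal adjoint `P'`: a translation covariant operator valued
tempered distribution, whose operators map `D` into the Hilbert space, which commutes at spacelike
distance with every field `C` of `Q` such that `A` or `C` is bosonic. -/
structure IsLocF (Q : Theory D) (A : Fld D) (P P' : Fn → D → Completion D) : Prop where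
  linf : ∀ (f g : Fn) (c : ℂ) v, IsTest f → IsTest g →
    P (fun x => f x + c * g x) v = P f v + c • P g v
  linv : ∀ f (c : ℂ) v w, IsTest f → P f (v + c • w) = P f v + c • P f w
  cont : ∀ v, Continuous fun g => P (ev g) v
  adj : ∀ f (v w : D), IsTest f →
    inner ℂ (P f v) (w : Completion D) = inner ℂ (v : Completion D) (P' (bar f) w)
  transl : ∀ a f (v z : D), IsTest f → inner ℂ (Q.U 1 one a z : Completion D)
    (P f (Q.U 1 one a v)) = inner ℂ (z : Completion D) (P (fun x => f (sim 1 one a x)) v)
  loc : ∀ C C' f g v z, Q.fld C → Q.fld C' → IsAdj C C' → (Q.bose A ∨ Q.bose C) → IsTest f →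
    IsTest g → Sep f g → inner ℂ (C' (bar g) z : Completion D) (P f v) =
      inner ℂ (z : Completion D) (P f (C g v))

/-- For every conformal Killing vector field `X` the charge of the current `X^n t_{mn}` acts on
every field `A` of `Q` by the infinitesimal conformal transformation
`-X^n ∂_n A - (∂_m X^n) S_mn A - (∂_m ∂_n X^n) K_m A` with local fields `S_mn A` and `K_m A`. -/
def ConfAct (Q : Theory D) (t : Ix → Ix → Fld D) : Prop :=
  ∀ A B, Q.fld A → Q.fld B → IsAdj A B → ∃ (S S' : Ix → Ix → Fn → D → Completion D)
    (K K' : Ix → Fn → D → Completion D), (∀ m n, IsLocF Q A (S m n) (S' m n)) ∧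
      (∀ m, IsLocF Q A (K m) (K' m)) ∧
      ∀ X f w v, IsKil X → IsTest f → HasCompactSupport f →
        Comm (fun m n f v => ((t m n f v : D) : Completion D)) X A B f w v
        (Complex.I * inner ℂ (w : Completion D) (∑ n, (A (pd n fun x => X n x * f x) v) -
          ∑ m, ∑ n, S m n (fun x => pd m (fun y => (X n y : ℂ)) x * f x) v -
          ∑ m, ∑ n, K m (fun x => pd m (pd n fun y => (X n y : ℂ)) x * f x) v))

/-- A symmetric conserved traceless local tensor field with the charges of the translations. -/
structure IsT (Q : Theory D) (t : Ix → Ix → Fld D) : Prop where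
  lin : ∀ m n f g c v, IsTest f → IsTest g →
    t m n (fun x => f x + c * g x) v = t m n f v + (c : ℂ) • t m n g v
  cont : ∀ m n v, Continuous fun g => t m n (ev g) v
  herm : ∀ m n f v w, IsTest f → inner ℂ (t m n f v) w = inner ℂ v (t m n (bar f) w)
  transl : ∀ m n a f v, IsTest f →
    t m n f (Q.U 1 one a v) = Q.U 1 one a (t m n (fun x => f (sim 1 one a x)) v)
  loc : ∀ m n B f g v, Q.fld B → IsTest f → IsTest g → Sep f g →
    t m n f (B g v) = B g (t m n f v)
  symm : ∀ m n f v, IsTest f → t m n f v = t n m f v
  conserved : ∀ n f v, IsTest f → ∑ m, t m n (pd m f) v = 0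
  traceless : ∀ f v, IsTest f → ∑ m, (eta m : ℂ) • t m m f v = 0
  charge : ∀ F n A f v w, IsCutoff F → Q.fld A → IsTest f → HasCompactSupport f →
    Tendsto (fun R => inner ℂ w (t o n (F R) (A f v) - A f (t o n (F R) v))) atTop
      (𝓝 (inner ℂ w ((Complex.I * eta n) • A (pd n f) v)))

end

end Vale.Agent.P352.H755
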