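import Vale.Agent.P352.H755.R7g

/-!
# Boosts in the plane of two null vectors, conjugation of the generators by translations
-/

set_option linter.all false

noncomputable section

open MeasureTheory Filter Topology Set
open scoped ContDiff ComplexConjugate

namespace Vale.Agent.P352.H755

open GF (Ix V Fn bas eta pd bar sim o)
open H246 H496 H15

variable {D : Type*} [NormedAddCommGroup D] [InnerProductSpace ℂ D] {Q : GF.Theory D}
  {T : Ix → Ix → GF.Fld D} {J : Ix → GF.Fld D} {A : (V → V) → D → D} {K : V → D → D}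

/-- the boost `z ↦ z + α (b·z) a + β (a·z) b` -/
def bst (a b : V) (α β : ℝ) : Ix → V := fun m =>
  bas m 1 + (α * (eta m * b m)) • a + (β * (eta m * a m)) • b

lemma sim_bst (a b : V) (α β : ℝ) (x : V) :
    sim 1 (bst a b α β) 0 x = x + (α * GF.mdot b x) • a + (β * GF.mdot a x) • b := by
  rw [sim_lin]
  funext n
  fin_cases n <;>
  · simp only [bst, Fin.sum_univ_four, Pi.add_apply, Pi.smul_apply, smul_eq_mul, GF.mdot, bas]
    simp
    ring

lemma isLor_bst {a b : V} (ha : IsNull a) (hb : IsNull b) (hab : GF.mdot a b = 1) {α β : ℝ}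
    (hα : 0 < 1 + α) (h : (1 + α) * (1 + β) = 1) : GF.IsLor (bst a b α β) := by
  refine ⟨?_, ?_, ?_⟩
  · intro m n
    have h1 : GF.mdot (bas m 1) (bas n 1) = bas m (eta m) n := by
      rw [md_bas]
      simp only [bas]
      by_cases hnm : n = m
      · subst hnm; simp
      · simp [hnm, Ne.symm hnm]
    have hba : GF.mdot b a = 1 := by rw [md_comm]; exact hab
    have h2 : GF.mdot (bas m 1) a = eta m * a m := by rw [md_comm, md_bas]
    have h3 : GF.mdot (bas m 1) b = eta m * b m := by rw [md_comm, md_bas]
    have h4 : GF.mdot a (bas n 1) = eta n * a n := md_bas a n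
    have h5 : GF.mdot b (bas n 1) = eta n * b n := md_bas b n
    unfold bst
    simp only [md_add, md_add_l, md_smul, md_smul_l, h1, h2, h3, h4, h5, ha.1, hb.1, hab, hba]
    linear_combination (eta m * b m * (eta n * a n) + eta m * a m * (eta n * b n)) * h
  · have ha0 : 0 < a o := ha.2
    have hb0 : 0 < b o := hb.2
    have h1 : bst a b α β o o = 1 + (α + β) * (a o * b o) := by
      simp only [bst, Pi.add_apply, Pi.smul_apply, smul_eq_mul, bas, eta, if_true]
      ring
    rw [h1]
    have hβ : 0 < 1 + β := by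
      by_contra hle
      push Not at hle
      nlinarith
    have h2 : 0 ≤ α + β := by nlinarith [sq_nonneg (α - β), sq_nonneg (α + β)]
    have h3 : 0 ≤ (α + β) * (a o * b o) := mul_nonneg h2 (mul_pos ha0 hb0).le
    linarith
  · obtain ⟨P, hP⟩ : ∃ P : Matrix Ix (Fin 2) ℝ, ∀ m i, P m i =
        if i = 0 then α * (eta m * b m) else β * (eta m * a m) :=
      ⟨Matrix.of fun m i => if i = 0 then α * (eta m * b m) else β * (eta m * a m), fun m i => rfl⟩
    obtain ⟨R, hR⟩ : ∃ R : Matrix (Fin 2) Ix ℝ, ∀ i n, R i n = if i = 0 then a n else b n :=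
      ⟨Matrix.of fun i n => if i = 0 then a n else b n, fun i n => rfl⟩
    have e : Matrix.of (bst a b α β) = 1 + P * R := by
      ext m n
      simp only [Matrix.add_apply, Matrix.mul_apply, Fin.sum_univ_two, hP, hR, if_true,
        one_ne_zero, if_false, Matrix.one_apply, Matrix.of_apply]
      simp only [bst, Pi.add_apply, Pi.smul_apply, smul_eq_mul, bas]
      simp only [eq_comm (a := n) (b := m), Fin.isValue, one_ne_zero, if_false]
      ring
    have hba : GF.mdot b a = 1 := by rw [md_comm]; exact hab
    have h1 : ∑ m, a m * (eta m * b m) = 1 := by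
      rw [← hab]; unfold GF.mdot; exact Finset.sum_congr rfl fun m _ => by ring
    have h2 : ∑ m, a m * (eta m * a m) = 0 := by
      rw [← ha.1]; unfold GF.mdot; exact Finset.sum_congr rfl fun m _ => by ring
    have h4 : ∑ m, b m * (eta m * a m) = 1 := by
      rw [← hba]; unfold GF.mdot; exact Finset.sum_congr rfl fun m _ => by ring
    have k1 : ∑ j, a j * (α * (eta j * b j)) = α := by
      have : ∑ j, a j * (α * (eta j * b j)) = α * ∑ m, a m * (eta m * b m) := by
        rw [Finset.mul_sum]; exact Finset.sum_congr rfl fun m _ => by ring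
      rw [this, h1, mul_one]
    have k2 : ∑ j, b j * (β * (eta j * a j)) = β := by
      have : ∑ j, b j * (β * (eta j * a j)) = β * ∑ m, b m * (eta m * a m) := by
        rw [Finset.mul_sum]; exact Finset.sum_congr rfl fun m _ => by ring
      rw [this, h4, mul_one]
    have k3 : ∑ j, a j * (β * (eta j * a j)) = 0 := by
      have : ∑ j, a j * (β * (eta j * a j)) = β * ∑ m, a m * (eta m * a m) := by
        rw [Finset.mul_sum]; exact Finset.sum_congr rfl fun m _ => by ring
      rw [this, h2, mul_zero]
    have hRP : (1 + R * P).det = (1 + α) * (1 + β) := by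
      rw [Matrix.det_fin_two]
      simp only [Matrix.add_apply, Matrix.mul_apply, hP, hR, if_true, one_ne_zero, if_false,
        Matrix.one_apply, Fin.isValue, zero_ne_one]
      rw [k1, k2, k3]
      ring
    have h5 : (Matrix.of (bst a b α β)).det = 1 := by
      rw [e, Matrix.det_one_add_mul_comm, hRP, h]
    exact h5

lemma A_zero' (h : Rep Q A) (v : D) : A (fun _ => 0) v = 0 := by
  have h1 := h.add 0 0 1 (fun _ => 0) (fun _ => 0) v (const_sim 0) (const_sim 0)
  simp only [smul_zero, add_zero, Complex.ofReal_one, one_smul] at h1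
  simpa using h1

lemma A_lin2 (h : Rep Q A) {r r' : ℝ} (c c' : ℝ) {X X' : V → V} (v : D) (hX : IsSim r X)
    (hX' : IsSim r' X') : A (fun z => c • X z + c' • X' z) v =
      (c : ℂ) • A X v + (c' : ℂ) • A X' v := by
  have h1 := h.add 0 r c (fun _ => 0) X v (const_sim 0) hX
  simp only [zero_add, A_zero' h] at h1
  have hcX : IsSim (c * r) (fun z => c • X z) := by
    obtain ⟨d, w, hw, hz⟩ := hX
    refine ⟨c • d, fun m n => c * w m n, fun m n => ?_, fun z n => ?_⟩
    · have := hw m n
      linear_combination c * this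
    · simp only [Pi.smul_apply, smul_eq_mul, hz]
      rw [mul_add, mul_add, Finset.mul_sum]
      congr 1
      · ring
      · exact Finset.sum_congr rfl fun m _ => by ring
  have h2 := h.add (c * r) r' c' (fun z => c • X z) X' v hcX hX'
  rw [h2, h1]

lemma UUc {s : ℝ} {L : Ix → V} (h : Rep Q A) (hs : 0 < s) (hL : GF.IsLor L) (x t : V) (v : D) :
    Q.U 1 GF.one x (Q.U s L t (Q.U 1 GF.one (-x) v)) = Q.U s L (x + t - sim s L 0 x) v := by
  rw [h.mul s L t 1 GF.one (-x) v hs one_pos hL isLor_one,
    h.mul 1 GF.one x _ _ _ v one_pos (mul_pos hs one_pos) isLor_one]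
  · have e1 : (1 : ℝ) * (s * 1) = s := by ring
    have e2 : (fun m => sim 1 GF.one 0 ((fun m => sim 1 L 0 (GF.one m)) m)) = L := by
      funext m n
      simp [sim, GF.one, bas]
    have e3 : sim 1 GF.one x (sim s L t (-x)) = x + t - sim s L 0 x := by
      funext n
      simp [sim, GF.one, bas]
      ring
    rw [e1, e2, e3]
  · have e2 : (fun m => sim 1 L 0 (GF.one m)) = L := by
      funext m n
      simp [sim, GF.one, bas]
    rw [e2]; exact hL

/-- conjugation of a generator by a translation -/
lemma conj_A (h : Rep Q A) {s : ℝ → ℝ} {L : ℝ → Ix → V} {t : ℝ → V} {X : V → V} (x : V) (v : D)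
    (h0 : s 0 = 1) (h1 : L 0 = GF.one) (ht : t 0 = 0) (hp : ∀ e, 0 < s e ∧ GF.IsLor (L e))
    (hd : ∀ n z, HasDerivAt (fun e => sim (s e) (L e) (t e) z n) (X z n) 0) :
    Q.U 1 GF.one x (A X (Q.U 1 GF.one (-x) v)) = A (fun z => X (z - x)) v := by
  have hx1 := h.der s L t X (Q.U 1 GF.one (-x) v) h0 h1 ht hp hd
  have hx2 := h.der s L (fun e => x + t e - sim (s e) (L e) 0 x) (fun z => X (z - x)) v h0 h1 (by
    funext n
    simp [h0, h1, ht, sim, GF.one, bas]) hp (by
    intro n z
    have k1 := hd n (z - x)
    have e : (fun e => sim (s e) (L e) (x + t e - sim (s e) (L e) 0 x) z n) =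
        fun e => x n + sim (s e) (L e) (t e) (z - x) n := by
      funext e
      simp only [sim, Pi.add_apply, Pi.sub_apply, Pi.zero_apply, Fin.sum_univ_four]
      ring
    rw [e]
    exact k1.const_add _)
  -- the norm preserving map
  have hU : HasDerivAt (fun e => Q.U 1 GF.one x (Q.U (s e) (L e) (t e) (Q.U 1 GF.one (-x) v)))
      (Q.U 1 GF.one x (Complex.I • A X (Q.U 1 GF.one (-x) v))) 0 := by
    let Ul : D →L[ℝ] D := LinearMap.mkContinuous
      { toFun := Q.U 1 GF.one x
        map_add' := fun v w => U_add one_pos isLor_one x v w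
        map_smul' := fun c v => by
          have := U_smul (Q := Q) one_pos isLor_one x (c : ℂ) v
          simpa using this } 1 (fun v => by
            rw [one_mul]
            exact (U_nrm0 one_pos isLor_one x v).le)
    exact Ul.hasFDerivAt.comp_hasDerivAt (0:ℝ) hx1
  have hU' : (fun e => Q.U 1 GF.one x (Q.U (s e) (L e) (t e) (Q.U 1 GF.one (-x) v))) =
      fun e => Q.U (s e) (L e) (x + t e - sim (s e) (L e) 0 x) v :=
    funext fun e => UUc h (hp e).1 (hp e).2 x (t e) v
  rw [hU'] at hU
  have h3 := hU.unique hx2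
  rw [U_smul one_pos isLor_one] at h3
  exact smul_right_injective D Complex.I_ne_zero h3

end Vale.Agent.P352.H755
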