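import Vale.Agent.P352.H755.R7c

/-!
# Covariance of the second null moments
-/

set_option linter.all false

noncomputable section

open MeasureTheory Filter Topology Set
open scoped ContDiff ComplexConjugate

namespace Vale.Agent.P352.H755

open GF (Ix V Fn bas eta pd bar sim o)
open H246 H496 H15

variable {D : Type*} [NormedAddCommGroup D] [InnerProductSpace ℂ D] {Q : GF.Theory D}
  {T : Ix → Ix → GF.Fld D} {J : Ix → GF.Fld D} {A : (V → V) → D → D} {K : V → D → D}

lemma tst_zero {E : Type*} [NormedAddCommGroup E] [NormedSpace ℝ E] : Tst (fun _ : E => (0 : ℝ)) :=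
  ⟨contDiff_const, HasCompactSupport.zero⟩

lemma mt_zero (hT : Q.IsStress T) (w v : D) : mt T w v (fun _ _ _ => 0) = 0 := by
  have h := mt_add hT (F := fun _ _ _ => 0) (G := fun _ _ _ => 0) (fun _ _ => tst_zero)
    (fun _ _ => tst_zero) 1 w v
  simp only [mul_zero, add_zero, Complex.ofReal_one, one_mul] at h
  have h2 := h
  linear_combination -h2

lemma mt_smul (hT : Q.IsStress T) {F : Ix → Ix → V → ℝ} (hF : ∀ m n, Tst (F m n)) (c : ℝ)
    (w v : D) : mt T w v (fun m n x => c * F m n x) = c * mt T w v F := by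
  have h := mt_add hT (F := fun _ _ _ => 0) (fun _ _ => tst_zero) hF c w v
  simp only [zero_add, mt_zero hT] at h
  exact h

/-- similitudes as linear equivalences -/
def simE (s : ℝ) (L : Ix → V) (hs : 0 < s) (hL : GF.IsLor L) : V ≃ₗ[ℝ] V :=
  LinearEquiv.ofInjectiveEndo
    { toFun := fun x => s • sim 1 L 0 x
      map_add' := fun x y => by rw [simL_add, smul_add]
      map_smul' := fun c x => by rw [simL_smul, smul_comm, RingHom.id_apply] } (by
    intro x y hxy
    have h1 : s • sim 1 L 0 x = s • sim 1 L 0 y := hxy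
    have h2 : sim 1 L 0 x = sim 1 L 0 y := smul_right_injective V hs.ne' h1
    funext k
    have h3 := md_L hL k x
    rw [h2, md_L hL k y] at h3
    have h4 : eta k ≠ 0 := by unfold eta; split_ifs <;> norm_num
    exact (mul_left_cancel₀ h4 h3).symm)

lemma simE_apply {s : ℝ} {L : Ix → V} (hs : 0 < s) (hL : GF.IsLor L) (x : V) :
    simE s L hs hL x = sim s L 0 x := by
  rw [sim_s]; rfl

lemma tst_sim {g : V → ℝ} (hg : Tst g) {s : ℝ} {L : Ix → V} (hs : 0 < s) (hL : GF.IsLor L) :
    Tst fun x => g (sim s L 0 x) := by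
  have h := hg.2.comp_homeomorph (simE s L hs hL).toContinuousLinearEquiv.toHomeomorph
  have h2 := hg.1.comp (simE s L hs hL).toContinuousLinearEquiv.contDiff
  have e : (fun x => g (sim s L 0 x)) = g ∘ (simE s L hs hL).toContinuousLinearEquiv := by
    funext x
    simp [simE_apply]
  rw [e]
  exact ⟨h2, h⟩

lemma linv_id {L : Ix → V} (hL : GF.IsLor L) : (fun m => sim 1 L 0 (linv L m)) = GF.one := by
  funext m
  have h := sim_linv hL (bas m 1)
  have e : sim 1 (linv L) 0 (bas m 1) = linv L m := by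
    funext n
    simp [sim, bas]
  rw [e] at h
  exact h

lemma U_linv' (h : Rep Q A) {s : ℝ} {L : Ix → V} (hs : 0 < s) (hL : GF.IsLor L) (z : D) :
    Q.U s L 0 (Q.U s⁻¹ (linv L) 0 z) = z := by
  rw [h.mul s L 0 s⁻¹ (linv L) 0 z hs (inv_pos.2 hs) hL (isLor_linv hL), linv_id hL,
    mul_inv_cancel₀ hs.ne']
  have e : sim s L 0 0 = 0 := by funext n; simp [sim]
  rw [e]
  exact Uone z

theorem nc_cov (hT : Q.IsStress T) (h : NullCharges Q T J A K) {s r : ℝ} {L : Ix → V} {a b : V}
    (v : D) (hs : 0 < s) (hr : 0 < r) (hL : GF.IsLor L) (ha : IsNull a) (hb : IsNull b)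
    (hab : sim 1 L 0 a = r • b) :
    Q.U s L 0 (K a v) = ((r / s : ℝ) : ℂ) • K b (Q.U s L 0 v) := by
  obtain ⟨b', hb', hbb'⟩ := exists_dual hb
  obtain ⟨κ', hκ', hκ1'⟩ := exists_kp
  obtain ⟨a', ha'def⟩ : ∃ a', a' = r⁻¹ • sim 1 (linv L) 0 b' := ⟨_, rfl⟩
  have hLa' : sim 1 L 0 a' = r⁻¹ • b' := by rw [ha'def, simL_smul, sim_linv hL]
  have haa' : GF.mdot a a' = 1 := by
    rw [← md_LL hL, hab, hLa', md_smul, md_smul_l, hbb']
    field_simp
  have ha' : IsNull a' := by
    have h0 : GF.mdot a' a' = 0 := by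
      rw [← md_LL hL, hLa', md_smul, md_smul_l, hb'.1]; simp
    exact ⟨h0, null_pos ha h0 (by rw [haa']; exact one_pos)⟩
  set κ : V → ℝ := fun x => κ' (sim s L 0 x) with hκdef
  have hκ : Tst κ := tst_sim hκ' hs hL
  have hκ1 : ∀ᶠ x in 𝓝 (0 : V), κ x = 1 := by
    have hc : Tendsto (fun x : V => sim s L 0 x) (𝓝 0) (𝓝 0) := by
      have h1 : Continuous fun x : V => simE s L hs hL x :=
        (simE s L hs hL).toContinuousLinearEquiv.continuous
      have h2 := h1.tendsto 0
      have e : sim s L 0 (0 : V) = 0 := by funext n; simp [sim]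
      simpa [simE_apply, e] using h2
    exact hc.eventually hκ1'
  have hsim : ∀ x, sim s L 0 x = s • sim 1 L 0 x := fun x => sim_s s L x
  have hbx : ∀ x, GF.mdot b (sim s L 0 x) = s / r * GF.mdot a x := by
    intro x
    have e : b = r⁻¹ • sim 1 L 0 a := by rw [hab, smul_smul, inv_mul_cancel₀ hr.ne', one_smul]
    rw [e, md_smul_l, hsim, md_smul, md_LL hL]
    field_simp
  have hb'x : ∀ x, GF.mdot b' (sim s L 0 x) = s * r * GF.mdot a' x := by
    intro x
    have e : b' = r • sim 1 L 0 a' := by rw [hLa', smul_smul, mul_inv_cancel₀ hr.ne', one_smul]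
    rw [e, md_smul_l, hsim, md_smul, md_LL hL]
    ring
  have hcut : ∀ R x, cut b b' κ' R (sim s L 0 x) = cut a a' κ R x := by
    intro R x
    unfold cut
    rw [hκdef]
    simp only
    congr 1
    rw [hbx, hb'x, hsim, hsim, simL_add, simL_smul, simL_smul, simL_sub, simL_sub, simL_smul,
      simL_smul L (GF.mdot a' x), hab, hLa']
    funext n
    simp only [Pi.add_apply, Pi.smul_apply, Pi.sub_apply, smul_eq_mul]
    field_simp
  have hsq : ∀ x, sq b b' (sim s L 0 x) = s ^ 2 * sq a a' x := by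
    intro x
    unfold H15.sq
    rw [hbx, hb'x, hsim, md_smul, md_smul_l, md_LL hL]
    field_simp
  -- the limits
  have main : ∀ w, inner ℂ (Q.U s L 0 w) (K b (Q.U s L 0 v)) =
      ((s / r : ℝ) : ℂ) * inner ℂ w (K a v) := by
    intro w
    have key : (fun u => Kh Q K b b' (Q.U s L 0 w) (Q.U s L 0 v) u) =
        fun u => ((s / r : ℝ) : ℂ) * Kh Q K a a' w v (r / s * u) := by
      have hca : Continuous (Kh Q K a a' w v) := h.cont a a' v w ha ha'
      refine fun_uniqueR (h.cont b b' _ _ hb hb')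
        (continuous_const.mul (hca.comp (continuous_const.mul continuous_id))) fun ψ' hψ' => ?_
      set ψ : ℝ → ℝ := fun u => ψ' (s / r * u) with hψdef
      have hsr : s / r ≠ 0 := (div_pos hs hr).ne'
      have hψ : Tst ψ :=
        ⟨hψ'.1.comp (contDiff_const.mul contDiff_id),
          hψ'.2.comp_homeomorph (Homeomorph.mulLeft₀ (s / r) hsr)⟩
      have hAb : Adm b b' κ' ψ' := ⟨hb, hb', hbb', hκ', hκ1', hψ'⟩
      have hAa : Adm a a' κ ψ := ⟨ha, ha', haa', hκ, hκ1, hψ⟩
      have h1 := Mom.tt h.mom hAb 0 (Q.U s L 0 v) (Q.U s L 0 w)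
      have h2 := (Mom.tt h.mom hAa 0 v w).const_mul (((s / r) ^ 2 : ℝ) : ℂ)
      have h3 : (fun R => mt T (Q.U s L 0 w) (Q.U s L 0 v) (Fm b b' κ' 0 ψ' R)) =ᶠ[atTop]
          fun R => (((s / r) ^ 2 : ℝ) : ℂ) * mt T w v (Fm a a' κ 0 ψ R) := by
        filter_upwards [eventually_ge_atTop 1] with R hR
        have hg : Tst fun x => sq b b' x * ctf b b' κ' 0 ψ' R x :=
          tst_smul (contDiff_sq b b') (ctf_tst hAb 0 hR)
        have e1 : Fm b b' κ' 0 ψ' R = fun m n x => (eta m * b m) * (eta n * b n) *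
            (sq b b' x * ctf b b' κ' 0 ψ' R x) := by
          funext m n x; unfold Fm; ring
        rw [e1, mt_cov hT hg (fun m => eta m * b m) hs hL w v (tst_sim hg hs hL),
          ← mt_smul hT (fun m n => Fm_tst hAa 0 hR m n)]
        congr 1
        funext k l x
        have e2 : ∀ k, ∑ m, L k m * (eta m * b m) = r⁻¹ * (eta k * a k) := by
          intro k
          have e : b = r⁻¹ • sim 1 L 0 a := by
            rw [hab, smul_smul, inv_mul_cancel₀ hr.ne', one_smul]
          have h5 := md_L hL k a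
          rw [← h5, ← md_smul, ← e]
          unfold GF.mdot
          exact Finset.sum_congr rfl fun m _ => by ring
        have e3 : ctf b b' κ' 0 ψ' R (sim s L 0 x) = ctf a a' κ 0 ψ R x := by
          unfold ctf
          rw [sub_zero, sub_zero, hcut, hbx]
        rw [e2, e2, hsq, e3]
        unfold Fm
        field_simp
      have h4 := tendsto_nhds_unique h1 (h2.congr' h3.symm)
      rw [h4]
      have h5 := Measure.integral_comp_mul_left
        (fun u => (ψ' u : ℂ) * Kh Q K a a' w v (r / s * u)) (s / r)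
      have h6 : ∀ u, r / s * (s / r * u) = u := by intro u; field_simp
      simp only [h6] at h5
      rw [hψdef]
      simp only
      rw [h5, abs_of_pos (inv_pos.2 (div_pos hs hr))]
      simp_rw [mul_left_comm _ (((s / r : ℝ)) : ℂ) _]
      rw [integral_const_mul, Complex.real_smul, ← mul_assoc]
      congr 1
      push_cast
      have : (s : ℂ) ≠ 0 := by exact_mod_cast hs.ne'
      have : (r : ℂ) ≠ 0 := by exact_mod_cast hr.ne'
      field_simp
    have h0 := congrFun key 0
    simp only [Kh_zero, mul_zero] at h0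
    exact h0
  refine ext_inner_left ℂ fun z => ?_
  have hz := U_linv' h.toRep hs hL z
  rw [← hz, inner_smul_right, main, Q.U_inner s L 0 _ _ hs hL, ← mul_assoc]
  have : (s : ℂ) ≠ 0 := by exact_mod_cast hs.ne'
  have : (r : ℂ) ≠ 0 := by exact_mod_cast hr.ne'
  push_cast
  field_simp

end Vale.Agent.P352.H755
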