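import Vale.Agent.P352.H755.ChC

/-!
# Commutators with cut off conformal charges: independence of the cutoff
-/

set_option linter.all false

noncomputable section

open MeasureTheory Filter Topology Set
open scoped ContDiff ComplexConjugate SchwartzMap

namespace Vale.Agent.P352.H755

open GF (Ix V Fn bas eta pd bar sim o)
open H246 H496 H15
open SubConf (IsKil IsAdj)

variable {D : Type*} [NormedAddCommGroup D] [InnerProductSpace ℂ D] {Q : GF.Theory D}
  {t : Ix → Ix → GF.Fld D} {A B : GF.Fld D} {X X' : Ix → V → ℝ}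

/-- a bump on space-time -/
def bmp : ContDiffBump (0 : V) := ⟨1, 2, one_pos, one_lt_two⟩

/-- spatial cutoffs -/
def chi (R : ℝ) (x : V) : ℝ := bmp (R⁻¹ • sp x)

lemma contDiff_sp : ContDiff ℝ ∞ sp := by
  refine contDiff_pi.2 fun n => ?_
  unfold sp
  by_cases h : n = o
  · simp only [h, if_true]; exact contDiff_const
  · simp only [h, if_false]; exact contDiff_apply ℝ ℝ n

lemma contDiff_chi (R : ℝ) : ContDiff ℝ ∞ (chi R) := by
  have h : ContDiff ℝ ∞ fun x => R⁻¹ • sp x := contDiff_sp.const_smul _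
  exact bmp.contDiff.comp h

lemma chi_one {R : ℝ} (hR : 0 < R) {x : V} (h : ‖sp x‖ ≤ R) : chi R x = 1 := by
  refine bmp.one_of_mem_closedBall ?_
  rw [mem_closedBall_zero_iff, norm_smul, norm_inv, Real.norm_eq_abs, abs_of_pos hR]
  show R⁻¹ * ‖sp x‖ ≤ 1
  rw [inv_mul_le_iff₀ hR]
  linarith

lemma chi_supp {R : ℝ} (hR : 0 < R) {x : V} (h : chi R x ≠ 0) : ‖sp x‖ ≤ 2 * R := by
  have h1 : R⁻¹ • sp x ∈ Function.support bmp := h
  rw [bmp.support_eq] at h1
  rw [mem_ball_zero_iff, norm_smul, norm_inv, Real.norm_eq_abs, abs_of_pos hR] at h1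
  have h2 : R⁻¹ * ‖sp x‖ < 2 := h1
  rw [inv_mul_lt_iff₀ hR] at h2
  linarith

lemma norm_le_sp (x : V) : ‖x‖ ≤ max |x o| ‖sp x‖ := by
  refine (pi_norm_le_iff_of_nonneg (le_max_of_le_left (abs_nonneg _))).2 fun i => ?_
  by_cases h : i = o
  · subst h; exact le_max_left _ _
  · refine le_max_of_le_right ?_
    have := norm_le_pi_norm (sp x) i
    simpa [sp, h] using this

lemma supp_bd {β : ℝ → ℝ} (hβ : Tst β) : ∃ M, 0 ≤ M ∧ ∀ u, β u ≠ 0 → |u| ≤ M := by
  obtain ⟨M, hM⟩ := hβ.2.isCompact.isBounded.subset_closedBall (0 : ℝ)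
  refine ⟨|M|, abs_nonneg _, fun u hu => ?_⟩
  have := hM (subset_tsupport _ (Function.mem_support.2 hu))
  rw [mem_closedBall_zero_iff, Real.norm_eq_abs] at this
  exact this.trans (le_abs_self M)

/-- products of a function of the time and a spatial cutoff -/
lemma tst_prof {β : ℝ → ℝ} (hβ : Tst β) {R : ℝ} (hR : 0 < R) : Tst fun x => β (x o) * chi R x := by
  refine ⟨(hβ.1.comp (contDiff_apply ℝ ℝ o)).mul (contDiff_chi R), ?_⟩
  obtain ⟨M, hM0, hM⟩ := supp_bd hβ
  refine HasCompactSupport.intro (isCompact_closedBall (0 : V) (max M (2 * R))) fun x hx => ?_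
  by_contra hne
  apply hx
  rw [mem_closedBall_zero_iff]
  refine (norm_le_sp x).trans (max_le_max ?_ ?_)
  · exact hM _ (left_ne_zero_of_mul hne)
  · exact chi_supp hR (right_ne_zero_of_mul hne)

lemma sp_bas_o (x : V) (s : ℝ) : sp (x + bas o s) = sp x := by
  funext n
  by_cases h : n = o
  · simp [sp, h]
  · simp [sp, h, bas]

lemma dr_prof_o {β : ℝ → ℝ} (hβ : Tst β) (R : ℝ) (x : V) :
    dr o (fun x => β (x o) * chi R x) x = deriv β (x o) * chi R x := by
  unfold dr chi
  simp only [sp_bas_o]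
  have e : ∀ s : ℝ, (x + bas o s) o = x o + s := by intro s; simp [bas]
  simp only [e]
  have h1 : HasDerivAt (fun s : ℝ => β (x o + s)) (deriv β (x o)) 0 := by
    have h2 : HasDerivAt β (deriv β (x o)) (x o + 0) := by
      rw [add_zero]
      exact ((hβ.1.differentiable (by simp)) (x o)).hasDerivAt
    exact h2.comp_const_add (x o) 0
  exact (h1.mul_const _).deriv

lemma dr_prof {β : ℝ → ℝ} (hβ : Tst β) {R : ℝ} (hR : 0 < R) {m : Ix} (hm : m ≠ o) {x : V}
    (h : dr m (fun x => β (x o) * chi R x) x ≠ 0) : β (x o) ≠ 0 ∧ R ≤ ‖sp x‖ := by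
  have e : ∀ s : ℝ, (x + bas m s) o = x o := by intro s; simp [bas, Ne.symm hm]
  have h1 : dr m (fun x => β (x o) * chi R x) x = β (x o) * dr m (chi R) x := by
    unfold dr
    simp only [e]
    have h2 := (diff_line (contDiff_chi R) m x).const_mul (β (x o))
    exact h2.deriv
  rw [h1] at h
  refine ⟨left_ne_zero_of_mul h, ?_⟩
  by_contra hlt
  push Not at hlt
  refine right_ne_zero_of_mul h ?_
  rw [dr_fd (contDiff_chi R)]
  have h3 : chi R =ᶠ[𝓝 x] fun _ => (1 : ℝ) := by
    have h4 : ∀ᶠ y in 𝓝 x, ‖sp y‖ < R :=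
      (contDiff_sp.continuous.norm).continuousAt.eventually (gt_mem_nhds hlt)
    filter_upwards [h4] with y hy
    exact chi_one hR hy.le
  rw [h3.fderiv_eq]
  simp

/-- the points far away in a slab -/
def Zf (M R : ℝ) : Set V := {x | |x o| ≤ M ∧ R ≤ ‖sp x‖}

lemma isClosed_Zf (M R : ℝ) : IsClosed (Zf M R) := by
  have h1 : Continuous fun x : V => |x o| := by fun_prop
  exact (isClosed_le h1 continuous_const).inter
    (isClosed_le continuous_const contDiff_sp.continuous.norm)

lemma com_time (ht : IsT Q t) (hA : Q.fld A) (hX : IsKil X) {f : Fn} (hf : GF.IsTest f)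
    {β : ℝ → ℝ} (hβ : Tst β) {M R : ℝ} (hM : 0 ≤ M) (hR : 3 * M + 1 ≤ R)
    (hβM : ∀ u, β u ≠ 0 → |u| ≤ M) (hfM : ∀ y ∈ tsupport f, ∀ i, |y i| ≤ M) (v : D) :
    com t X (fun x => deriv β (x o) * chi R x) A f v = 0 := by
  have hR0 : 0 < R := by linarith
  have hg := tst_prof hβ hR0
  set h : V → ℝ := fun x => β (x o) * chi R x with hh
  have e1 : (fun x => deriv β (x o) * chi R x) = dr o h := by
    funext x; rw [hh, dr_prof_o hβ]
  have hF : ∀ m n, Tst fun x => eta n * X n x * dr m h x := fun m n => kil_tst hX (tst_dr hg m) n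
  have key : ∀ u : D, ∑ n, t o n (fun x => (eta n * X n x * dr o h x : ℝ)) u =
      -∑ m ∈ Finset.univ.erase o, ∑ n, t m n (fun x => (eta n * X n x * dr m h x : ℝ)) u := by
    intro u
    have h1 := kil_cons ht hX hg u
    unfold smt at h1
    rw [← Finset.add_sum_erase _ _ (Finset.mem_univ o)] at h1
    exact eq_neg_of_add_eq_zero_left h1
  rw [e1]
  unfold com
  rw [key, key, fneg hA hf, fsum hA hf]
  rw [sub_neg_eq_add, neg_add_eq_zero]
  refine Finset.sum_congr rfl fun m hm => ?_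
  rw [fsum hA hf]
  refine Finset.sum_congr rfl fun n _ => ?_
  have hmo : m ≠ o := Finset.ne_of_mem_erase hm
  refine ht.loc m n A _ f v hA (tstIs (hF m n)) hf ?_
  intro x hx y hy
  have h2 : x ∈ Zf M R := by
    refine closure_minimal ?_ (isClosed_Zf M R) hx
    intro z hz
    rw [Function.mem_support] at hz
    have h3 : dr m h z ≠ 0 := fun h4 => hz (by rw [h4]; simp)
    obtain ⟨h5, h6⟩ := dr_prof hβ hR0 hmo h3
    exact ⟨hβM _ h5, h6⟩
  exact sp_far hM hR h2.1 h2.2 (hfM y hy)

/-- reduction of a cutoff to a product -/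
lemma com_red (ht : IsT Q t) (hA : Q.fld A) (hX : IsKil X) {f : Fn} (hf : GF.IsTest f)
    {g : V → ℝ} (hg : Tst g) {α : ℝ → ℝ} (hα : Tst α) {M R : ℝ} (hM : 0 ≤ M)
    (hR : 3 * M + 1 ≤ R) (hαM : ∀ u, α u ≠ 0 → |u| ≤ M)
    (hfM : ∀ y ∈ tsupport f, ∀ i, |y i| ≤ M)
    (hs : ∀ x ∈ closure {x | g x ≠ α (x o)}, ∀ y ∈ tsupport f,
      GF.mdot (fun m => x m - y m) (fun m => x m - y m) < 0) (v : D) :
    com t X g A f v = com t X (fun x => α (x o) * chi R x) A f v := by
  have hR0 : 0 < R := by linarith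
  have hp := tst_prof hα hR0
  have hk : Tst fun x => g x + (-1) * (α (x o) * chi R x) :=
    ⟨hg.1.add (contDiff_const.mul hp.1), hg.2.add hp.2.mul_left⟩
  have h0 := com_sep ht hA hX hf hk (fun x hx y hy => ?_) v
  · rw [com_add ht hA hX hf hg hp] at h0
    have h1 : com t X g A f v - com t X (fun x => α (x o) * chi R x) A f v = 0 := by
      rw [← h0]; push_cast; rw [neg_one_smul]; abel
    exact sub_eq_zero.1 h1
  · have h2 : x ∈ closure {x | g x ≠ α (x o)} ∪ Zf M R := by
      refine closure_minimal ?_ (isClosed_closure.union (isClosed_Zf M R)) hx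
      intro z hz
      rw [Function.mem_support] at hz
      by_cases hgz : g z = α (z o)
      · right
        have h3 : α (z o) * (1 - chi R z) ≠ 0 := by
          intro h4
          apply hz
          rw [hgz]
          linarith
        refine ⟨hαM _ (left_ne_zero_of_mul h3), ?_⟩
        by_contra hlt
        push Not at hlt
        exact right_ne_zero_of_mul h3 (by rw [chi_one hR0 hlt.le, sub_self])
      · left
        exact subset_closure hgz
    rcases h2 with h2 | h2
    · exact hs x h2 y hy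
    · exact sp_far hM hR h2.1 h2.2 (hfM y hy)

/-- **Row (a3).** The commutator does not depend on the cutoff. -/
theorem com_eq (ht : IsT Q t) (hA : Q.fld A) (hX : IsKil X) {f : Fn} (hf : CS f) {S : Set V}
    (hS : tsupport f ⊆ S) {g g' : V → ℝ} (hg : Ok S g) (hg' : Ok S g') (v : D) :
    com t X g A f v = com t X g' A f v := by
  obtain ⟨h1, α, hα, hα1, h2⟩ := hg
  obtain ⟨h1', α', hα', hα1', h2'⟩ := hg'
  have hψ : Tst fun u => α u - α' u := ⟨hα.1.sub hα'.1, hα.2.sub hα'.2⟩
  have i1 : Integrable α := hα.1.continuous.integrable_of_hasCompactSupport hα.2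
  have i2 : Integrable α' := hα'.1.continuous.integrable_of_hasCompactSupport hα'.2
  obtain ⟨β, hβ, hβ'⟩ := prim_tst hψ (by rw [integral_sub i1 i2, hα1, hα1', sub_self])
  obtain ⟨M1, hM1, hM1'⟩ := supp_bd hα
  obtain ⟨M2, hM2, hM2'⟩ := supp_bd hα'
  obtain ⟨M3, hM3, hM3'⟩ := supp_bd hβ
  obtain ⟨M4, hM4⟩ := hf.2.isCompact.isBounded.subset_closedBall (0 : V)
  set M := M1 + M2 + M3 + |M4| with hMdef
  have hM : 0 ≤ M := by positivity
  have hfM : ∀ y ∈ tsupport f, ∀ i, |y i| ≤ M := by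
    intro y hy i
    have h3 := hM4 hy
    rw [mem_closedBall_zero_iff] at h3
    have h4 := norm_le_pi_norm y i
    have h5 := le_abs_self M4
    rw [Real.norm_eq_abs] at h4
    linarith
  have hM4' := abs_nonneg M4
  have k1 := com_red ht hA hX hf.1 h1 hα hM le_rfl (fun u hu => (hM1' u hu).trans (by linarith)) hfM
    (fun x hx y hy => h2 x hx y (hS hy)) v
  have k2 := com_red ht hA hX hf.1 h1' hα' hM le_rfl (fun u hu => (hM2' u hu).trans (by linarith))
    hfM (fun x hx y hy => h2' x hx y (hS hy)) v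
  have k3 := com_time ht hA hX hf.1 hβ hM le_rfl (fun u hu => (hM3' u hu).trans (by linarith))
    hfM v
  have hR0 : 0 < 3 * M + 1 := by linarith
  have e : (fun x : V => deriv β (x o) * chi (3 * M + 1) x) = fun x =>
      α (x o) * chi (3 * M + 1) x + (-1) * (α' (x o) * chi (3 * M + 1) x) := by
    funext x
    rw [hβ']
    ring
  rw [e, com_add ht hA hX hf.1 (tst_prof hα hR0) (tst_prof hα' hR0)] at k3
  rw [k1, k2]
  have h1 : com t X (fun x => α (x o) * chi (3 * M + 1) x) A f v -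
      com t X (fun x => α' (x o) * chi (3 * M + 1) x) A f v = 0 := by
    rw [← k3]; push_cast; rw [neg_one_smul]; abel
  exact sub_eq_zero.1 h1

end Vale.Agent.P352.H755
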