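import Vale.Agent.P352.H755.R7b

/-!
# Covariance of the second null moments
-/

set_option linter.all false

noncomputable section

open MeasureTheory Filter Topology Set
open scoped ContDiff ComplexConjugate

namespace Vale.Agent.P352.H755

open GF (Ix V Fn bas eta pd bar sim o)
open H246 H496 H15

variable {D : Type*} [NormedAddCommGroup D] [InnerProductSpace ℂ D] {Q : GF.Theory D}
  {T : Ix → Ix → GF.Fld D} {J : Ix → GF.Fld D} {A : (V → V) → D → D} {K : V → D → D}

lemma md_comm (x y : V) : GF.mdot x y = GF.mdot y x := by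
  unfold GF.mdot
  exact Finset.sum_congr rfl fun i _ => by ring

lemma md_smul (a : V) (t : ℝ) (y : V) : GF.mdot a (t • y) = t * GF.mdot a y := by
  unfold GF.mdot
  rw [Finset.mul_sum]
  exact Finset.sum_congr rfl fun i _ => by simp only [Pi.smul_apply, smul_eq_mul]; ring

lemma md_smul_l (a : V) (t : ℝ) (y : V) : GF.mdot (t • a) y = t * GF.mdot a y := by
  rw [md_comm, md_smul, md_comm]

lemma md_add (a x y : V) : GF.mdot a (x + y) = GF.mdot a x + GF.mdot a y := by
  unfold GF.mdot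
  rw [← Finset.sum_add_distrib]
  exact Finset.sum_congr rfl fun i _ => by simp only [Pi.add_apply]; ring

lemma md_sub (a x y : V) : GF.mdot a (x - y) = GF.mdot a x - GF.mdot a y := by
  unfold GF.mdot
  rw [← Finset.sum_sub_distrib]
  exact Finset.sum_congr rfl fun i _ => by simp only [Pi.sub_apply]; ring

lemma md_add_l (a x y : V) : GF.mdot (x + y) a = GF.mdot x a + GF.mdot y a := by
  rw [md_comm, md_add, md_comm a x, md_comm a y]

lemma md_sub_l (a x y : V) : GF.mdot (x - y) a = GF.mdot x a - GF.mdot y a := by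
  rw [md_comm, md_sub, md_comm a x, md_comm a y]

lemma sim_lin (L : Ix → V) (x : V) : sim 1 L 0 x = ∑ m, x m • L m := by
  funext n
  simp [sim, Finset.sum_apply]

lemma sim_s (s : ℝ) (L : Ix → V) (x : V) : sim s L 0 x = s • sim 1 L 0 x := by
  funext n
  simp [sim]

lemma simL_add (L : Ix → V) (x y : V) : sim 1 L 0 (x + y) = sim 1 L 0 x + sim 1 L 0 y := by
  simp only [sim_lin, Pi.add_apply, add_smul, Finset.sum_add_distrib]

lemma simL_sub (L : Ix → V) (x y : V) : sim 1 L 0 (x - y) = sim 1 L 0 x - sim 1 L 0 y := by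
  simp only [sim_lin, Pi.sub_apply, sub_smul, Finset.sum_sub_distrib]

lemma simL_smul (L : Ix → V) (c : ℝ) (x : V) : sim 1 L 0 (c • x) = c • sim 1 L 0 x := by
  simp only [sim_lin, Pi.smul_apply, smul_assoc, Finset.smul_sum]

lemma md_sum (a : V) (x : Ix → V) (c : Ix → ℝ) :
    GF.mdot a (∑ m, c m • x m) = ∑ m, c m * GF.mdot a (x m) := by
  simp only [Fin.sum_univ_four, md_add, md_smul]

lemma md_L {L : Ix → V} (hL : GF.IsLor L) (k : Ix) (x : V) :
    GF.mdot (L k) (sim 1 L 0 x) = eta k * x k := by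
  rw [sim_lin, md_sum, Finset.sum_eq_single k]
  · rw [hL.1 k k]; simp [bas, mul_comm]
  · intro m _ hm
    rw [hL.1 k m]; simp [bas, hm]
  · intro h; exact absurd (Finset.mem_univ k) h

lemma md_LL {L : Ix → V} (hL : GF.IsLor L) (x y : V) :
    GF.mdot (sim 1 L 0 x) (sim 1 L 0 y) = GF.mdot x y := by
  rw [md_comm, sim_lin L x, md_sum]
  unfold GF.mdot
  refine Finset.sum_congr rfl fun m _ => ?_
  have h := md_L hL m y
  rw [md_comm] at h
  unfold GF.mdot at h
  rw [h]; ring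

lemma sim_linv {L : Ix → V} (hL : GF.IsLor L) (x : V) :
    sim 1 L 0 (sim 1 (linv L) 0 x) = x := by
  have h := lam_linv hL (WithLp.toLp 2 x)
  funext n
  have h2 := congrArg (fun z : Mink => z n) h
  simpa [sim, lam_apply] using h2

/-- the sign of a null vector is fixed by the product with a positive null vector -/
lemma null_pos {a c : V} (ha : IsNull a) (hc : GF.mdot c c = 0) (hac : 0 < GF.mdot a c) :
    0 < c o := by
  by_contra hle
  push Not at hle
  obtain ⟨h1, h2⟩ := ha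
  have h2' : 0 < a 0 := h2
  have hle' : c 0 ≤ 0 := hle
  simp only [GF.mdot, Fin.sum_univ_four, eta, o, ↓reduceIte, Fin.isValue, one_ne_zero,
    Fin.reduceEq] at h1 hc hac
  have e : (a 1 * c 1 + a 2 * c 2 + a 3 * c 3) ^ 2 ≤ (a 0 * c 0) ^ 2 := by
    have i : (a 1 * c 1 + a 2 * c 2 + a 3 * c 3) ^ 2 ≤
        (a 1 ^ 2 + a 2 ^ 2 + a 3 ^ 2) * (c 1 ^ 2 + c 2 ^ 2 + c 3 ^ 2) := by
      nlinarith [sq_nonneg (a 1 * c 2 - a 2 * c 1), sq_nonneg (a 1 * c 3 - a 3 * c 1),
        sq_nonneg (a 2 * c 3 - a 3 * c 2)]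
    have j : (a 1 ^ 2 + a 2 ^ 2 + a 3 ^ 2) = a 0 ^ 2 := by linarith
    have k : (c 1 ^ 2 + c 2 ^ 2 + c 3 ^ 2) = c 0 ^ 2 := by linarith
    rw [j, k] at i
    linarith [mul_pow (a 0) (c 0) 2]
  have hP : a 0 * c 0 ≤ 0 := mul_nonpos_of_nonneg_of_nonpos h2'.le hle'
  nlinarith [mul_pos (by linarith : 0 < a 0 * c 0 - (a 1 * c 1 + a 2 * c 2 + a 3 * c 3))
    (by linarith : 0 < -(a 0 * c 0) - (a 1 * c 1 + a 2 * c 2 + a 3 * c 3))]

lemma mt_prod (hT : Q.IsStress T) {g : V → ℝ} (hg : Tst g) (p q : Ix → ℝ) (w v : D) :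
    mt T w v (fun m n x => p m * q n * g x) =
      ∑ m, ∑ n, ((p m : ℂ) * q n) * inner ℂ w (T m n (fun x => (g x : ℂ)) v) := by
  rw [mt_eq]
  refine Finset.sum_congr rfl fun m _ => Finset.sum_congr rfl fun n _ => ?_
  have h0 := Q.lin (T m n) (fun x => (g x : ℂ)) (fun x => (g x : ℂ)) (-1) v
    (Q.bose_fld _ (hT.bose m n)) (tstIs hg) (tstIs hg)
  have h1 : T m n (fun _ => 0) v = 0 := by
    have e : (fun x => (g x : ℂ) + (-1) * (g x : ℂ)) = fun _ => 0 := by
      funext x; ring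
    rw [e] at h0
    rw [h0]
    simp
  have h2 := Q.lin (T m n) (fun _ => 0) (fun x => (g x : ℂ)) ((p m : ℂ) * q n) v
    (Q.bose_fld _ (hT.bose m n)) ⟨0, rfl⟩ (tstIs hg)
  have e : (fun x => ((p m * q n * g x : ℝ) : ℂ)) =
      fun x => (0 : ℂ) + ((p m : ℂ) * q n) * (g x : ℂ) := by
    funext x; push_cast; ring
  rw [e, h2, h1, zero_add, inner_smul_right]

lemma mt_cov (hT : Q.IsStress T) {g : V → ℝ} (hg : Tst g) (p : Ix → ℝ) {s : ℝ} {L : Ix → V}
    (hs : 0 < s) (hL : GF.IsLor L) (w v : D) (hg' : Tst fun x => g (sim s L 0 x)) :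
    mt T (Q.U s L 0 w) (Q.U s L 0 v) (fun m n x => p m * p n * g x) =
      mt T w v (fun k l x => (∑ m, L k m * p m) * (∑ m, L l m * p m) * g (sim s L 0 x)) := by
  rw [mt_prod hT hg, mt_prod hT hg' (fun k => ∑ m, L k m * p m) (fun k => ∑ m, L k m * p m)]
  have h1 : ∀ m n, inner ℂ (Q.U s L 0 w) (T m n (fun x => (g x : ℂ)) (Q.U s L 0 v)) =
      ∑ k, ∑ l, ((L k m : ℂ) * L l n) * inner ℂ w (T k l (fun x => (g (sim s L 0 x) : ℂ)) v) := by
    intro m n
    rw [hT.cov m n s L 0 _ v hs hL (tstIs hg), inner_sum]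
    refine Finset.sum_congr rfl fun k _ => ?_
    rw [inner_sum]
    refine Finset.sum_congr rfl fun l _ => ?_
    rw [inner_smul_right, Q.U_inner s L 0 _ _ hs hL]
  simp only [h1]
  push_cast
  simp only [Fin.sum_univ_four]
  ring

end Vale.Agent.P352.H755
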