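import Vale.Agent.P352.H755.Lim

set_option linter.all false

noncomputable section

open MeasureTheory SchwartzMap Filter Topology Set
open Complex hiding eta
open scoped SchwartzMap ComplexConjugate ENNReal NNReal LineDeriv ContDiff

namespace Vale.Agent.P352.H755

open GF (Ix V Fn Sch ev pd bar sim bas o eta)
open H246 H496 H746
open UniformSpace (Completion)

variable {D : Type*} [NormedAddCommGroup D] [InnerProductSpace ℂ D]
variable {Q : GF.Theory D}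
variable {H : D → D} {alg : Set V → Set (D → D)} {S : V → ℝ → D → D}

/-- iterated limits of a convergent double family -/
lemma joint_unique {F : ℝ × ℝ → ℂ} {A : ℝ → ℂ} {c c' : ℂ} (h : Tendsto F atTop (𝓝 c))
    (h1 : ∀ r, 1 ≤ r → Tendsto (fun R => F (R, r)) atTop (𝓝 (A r)))
    (h2 : Tendsto A atTop (𝓝 c')) : c = c' := by
  refine tendsto_nhds_unique ?_ h2
  rw [Metric.tendsto_atTop]
  intro ε hε
  have h3 : ∀ᶠ p in (atTop : Filter (ℝ × ℝ)), dist (F p) c ≤ ε / 2 := by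
    filter_upwards [h (Metric.closedBall_mem_nhds c (half_pos hε))] with p hp using hp
  rw [← prod_atTop_atTop_eq] at h3
  obtain ⟨pa, ha, pb, hb, hab⟩ := eventually_prod_iff.1 h3
  obtain ⟨B, hB⟩ := eventually_atTop.1 hb
  refine ⟨max B 1, fun r hr => ?_⟩
  have h4 : ∀ᶠ R in atTop, dist (F (R, r)) c ≤ ε / 2 := by
    filter_upwards [ha] with R hR using hab hR (hB r ((le_max_left _ _).trans hr))
  have h5 := h1 r ((le_max_right _ _).trans hr)
  have h6 : dist (A r) c ≤ ε / 2 := le_of_tendsto (h5.dist tendsto_const_nhds) h4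
  linarith [half_lt_self hε]

/-- the inner limit -/
def Inn (Q : GF.Theory D) (J : Ix → GF.Fld D) (G : V → D → D) (a b : V) (Φ : ℝ → ℝ) (X : D)
    (h : Ix → V → ℝ) : ℂ :=
  (∫ u, (deriv (deriv (deriv Φ)) u / 2 : ℂ) * ∫ y in {y | GF.mdot a y < u}, ∑ i, (h i y : ℂ) *
    vj Q J i (Q.U 1 GF.one (-y) (Q.U 1 GF.one (u • b) (G a (Q.U 1 GF.one (-(u • b)) X))))) +
  Complex.I * inner ℂ (∑ i, J i (fun x => (act (Yf a b Φ) (fun x => deriv Φ (GF.mdot a x))
        h i x : ℂ)) Q.vac) X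

theorem lim_inn (N : CNet Q H alg S) {G : V → D → D} (Gg : Gnr Q alg S G)
    {T : Ix → Ix → GF.Fld D} {J : Ix → GF.Fld D} (hJ : IsVirial Q T J)
    {l : Fn → Completion D} (hl : IsPot Q T l) {a b : V} (ha : IsNull a) (hb : IsNull b)
    (hab : GF.mdot a b = 1) {κ : V → ℝ} (hκ : Tst κ) (hκ1 : ∀ᶠ x in 𝓝 (0 : V), κ x = 1)
    {Φ σ : ℝ → ℝ} (hΦ : Tst Φ) (hσ : Tst σ) (X : D)
    (i1 : Integrable fun y : V => ((deriv (deriv (deriv Φ)) (GF.mdot a y) * σ (GF.mdot b y) : ℝ) : ℂ) *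
      vc Q J a (pl Q G a b X y))
    (i2 : Integrable fun y : V => ((deriv (deriv (deriv Φ)) (GF.mdot a y) *
      deriv σ (GF.mdot b y) : ℝ) : ℂ) * vl l (pl Q G a b X y))
    (hi : ∀ c, Integrable fun y : V => (1 + ‖y‖) ^ 2 * ‖vj Q J c (Q.U 1 GF.one (-y) X)‖) :
    Tendsto (fun R => Inn Q J G a b Φ X (fun i => dr i (Sc a b κ σ R))) atTop
      (𝓝 (Sid a b (deriv Φ) σ (fun y => vc Q J a (pl Q G a b X y))
        (fun y => vl l (pl Q G a b X y)) (fun y => vc Q J b (Q.U 1 GF.one (-y) X))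
        (fun y => vc Q J (prp a b y) (Q.U 1 GF.one (-y) X)))) := by
  have hba : GF.mdot b a = 1 := by rw [mdot_comm, hab]
  have hfld : ∀ m, Q.fld (J m) := fun m => Q.bose_fld _ (hJ.bose m)
  have hvj : ∀ i, IsPf Q H (vj Q J i) := fun i => ((Cd.field hfld i).pf N.toNet).1
  obtain ⟨κl, hκl⟩ := Cd.pot hl
  have hvl : IsPf Q H (vl l) := (hκl.pf N.toNet).1
  have hG := Gg.mem a ha
  set ψ : ℝ → ℂ := fun u => (deriv (deriv (deriv Φ)) u / 2 : ℂ) with hψd
  have hΦ3 : Tst (deriv (deriv (deriv Φ))) := tst_deriv (tst_deriv (tst_deriv hΦ))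
  have hψ : Continuous ψ := (continuous_ofReal.comp hΦ3.cont).div_const 2
  have hψc : HasCompactSupport ψ := hΦ3.2.comp_left (g := fun r : ℝ => (r : ℂ) / 2) (by simp)
  have hSc : ∀ R : ℝ, 1 ≤ R → Tst (Sc a b κ σ R) := fun R hR =>
    H846.cut_tst hb.1 ha.1 hba hκ hσ hR
  -- the value
  have hval : ∀ R : ℝ, 1 ≤ R → Inn Q J G a b Φ X (fun i => dr i (Sc a b κ σ R)) =
      (∫ y : V, ψ (GF.mdot a y) * ((Sc a b κ σ R y : ℂ) * vc Q J a (pl Q G a b X y) +
        6 * ((fderiv ℝ (Sc a b κ σ R) y a : ℝ) : ℂ) * vl l (pl Q G a b X y))) -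
      3 * (∫ u, ψ u * ∫ y in Hs (ml a) u, (∑ i, (eta i : ℂ) * (dr i (dr i (Sc a b κ σ R)) y : ℂ)) *
        vl l (Q.U 1 GF.one (-y) (Ps Q G a b X u))) +
      I * ∑ c, ∫ y : V, (act (Yf a b Φ) (fun x => deriv Φ (GF.mdot a x))
        (fun i => dr i (Sc a b κ σ R)) c y : ℂ) * vj Q J c (Q.U 1 GF.one (-y) X) := by
    intro R hR
    have h1 := app1 N hJ hl ha.1 hab hG X (hSc R hR) hψ hψc
    unfold Inn
    have h2 : inner ℂ (∑ i, J i (fun x => (act (Yf a b Φ) (fun x => deriv Φ (GF.mdot a x))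
        (fun i => dr i (Sc a b κ σ R)) i x : ℂ)) Q.vac) X =
        ∑ c, ∫ y : V, (act (Yf a b Φ) (fun x => deriv Φ (GF.mdot a x))
        (fun i => dr i (Sc a b κ σ R)) c y : ℂ) * vj Q J c (Q.U 1 GF.one (-y) X) := by
      rw [sum_inner]
      refine Finset.sum_congr rfl fun c _ => ?_
      have h3 := (Cd.field hfld c).rep N.toNet (H746.act_tst (Yf_cd a b hΦ)
        ((tst_deriv hΦ).1.comp (contDiff_mdot a)) (fun i => (hSc R hR).dr i) c) X
      rw [Completion.inner_coe] at h3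
      exact h3
    rw [h2]
    exact congrArg (· + _) h1
  -- limits
  have t1 := lim_plane ha.1 hb.1 hab hκ hκ1 hσ ψ (Fa := fun y => vc Q J a (pl Q G a b X y))
    (Fl := fun y => vl l (pl Q G a b X y)) (by
      refine (i1.const_mul (1 / 2)).congr (Eventually.of_forall fun y => ?_)
      simp only [hψd]
      push_cast
      ring) (by
      refine (i2.const_mul (1 / 2)).congr (Eventually.of_forall fun y => ?_)
      simp only [hψd]
      push_cast
      ring)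
  obtain ⟨C, hC⟩ := ps_L2 N hl (b := b) hG X (K := tsupport ψ) hψc
  have t2 := (H846.box_lim ha.1 hb.1 hab hκ hκ1 hσ hψ hψc
    (L := fun u y => vl l (Q.U 1 GF.one (-y) (Ps Q G a b X u)))
    (hvl.cont_ps N hG X) C hC).2
  have t3 := lim_loc ha.1 hb.1 hab hκ hκ1 hΦ hσ
    (A := fun c y => vj Q J c (Q.U 1 GF.one (-y) X))
    (fun c => (((hvj c).deriv N.toNet 0).choose_spec.2 X).cont) hi
  have t4 := (t1.sub (t2.const_mul 3)).add (t3.const_mul I)
  have t5 : Tendsto (fun R => Inn Q J G a b Φ X (fun i => dr i (Sc a b κ σ R))) atTop _ :=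
    t4.congr' (by
      filter_upwards [eventually_ge_atTop (1 : ℝ)] with R hR
      exact (hval R hR).symm)
  have e : (∫ y : V, ψ (GF.mdot a y) * ((σ (GF.mdot b y) : ℂ) * vc Q J a (pl Q G a b X y) +
        6 * ((deriv σ (GF.mdot b y) : ℝ) : ℂ) * vl l (pl Q G a b X y))) =
      ∫ y : V, ((1 / 2 * deriv (deriv (deriv Φ)) (GF.mdot a y) : ℝ) : ℂ) *
        (((σ (GF.mdot b y) : ℝ) : ℂ) * vc Q J a (pl Q G a b X y) +
        6 * ((deriv σ (GF.mdot b y) : ℝ) : ℂ) * vl l (pl Q G a b X y)) := by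
    refine integral_congr_ae (Eventually.of_forall fun y => ?_)
    simp only [hψd]
    push_cast
    ring
  rw [e, mul_zero, sub_zero] at t5
  exact t5

/-- the time ordered product of two plane sources, first one on the light front -/
theorem sid_lim (N : CNet Q H alg S) {G : V → D → D} (Gg : Gnr Q alg S G)
    {T : Ix → Ix → GF.Fld D} {J : Ix → GF.Fld D} (hJ : IsVirial Q T J)
    {l : Fn → Completion D} (hl : IsPot Q T l) {κ : V → ℝ}
    {t : (Ix → V → ℝ) → (Ix → V → ℝ) → D → ℂ}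
    {s : (Ix → Ix → V → ℝ) → (Ix → V → ℝ) → D → ℂ} (hT : TProd Q J G κ t s)
    (hκ : Tst κ) (hκ1 : ∀ᶠ x in 𝓝 (0 : V), κ x = 1) {a b : V} (ha : IsNull a) (hb : IsNull b)
    (hab : GF.mdot a b = 1) {Φ σ : ℝ → ℝ} (hΦ : Tst Φ) (hσ : Tst σ) (m : Ix) {g : Fn}
    (hg : GF.IsTest g) {X : D} (hX : X = J m g Q.vac)
    (i1 : Integrable fun y : V => ((deriv (deriv (deriv Φ)) (GF.mdot a y) * σ (GF.mdot b y) : ℝ) : ℂ) *
      vc Q J a (pl Q G a b X y))
    (i2 : Integrable fun y : V => ((deriv (deriv (deriv Φ)) (GF.mdot a y) *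
      deriv σ (GF.mdot b y) : ℝ) : ℂ) * vl l (pl Q G a b X y))
    (hi : ∀ c, Integrable fun y : V => (1 + ‖y‖) ^ 2 * ‖vj Q J c (Q.U 1 GF.one (-y) X)‖) {c : ℂ}
    (hc : Tendsto (fun R : ℝ × ℝ => t (fun i => dr i fun x => cut a b κ R.1 x *
      deriv Φ (GF.mdot a x)) (fun i => dr i fun x => cut b a κ R.2 x * σ (GF.mdot b x)) X) atTop
      (𝓝 c)) :
    c = Sid a b (deriv Φ) σ (fun y => vc Q J a (pl Q G a b X y))
        (fun y => vl l (pl Q G a b X y)) (fun y => vc Q J b (Q.U 1 GF.one (-y) X))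
        (fun y => vc Q J (prp a b y) (Q.U 1 GF.one (-y) X)) := by
  have hba : GF.mdot b a = 1 := by rw [mdot_comm, hab]
  refine joint_unique hc (fun r hr => ?_)
    (lim_inn N Gg hJ hl ha hb hab hκ hκ1 hΦ hσ X i1 i2 hi)
  have h1 : ∀ i, Tst (dr i (Sc a b κ σ r)) := fun i =>
    (H846.cut_tst hb.1 ha.1 hba hκ hσ hr).dr i
  have h2 := H846.lfw hT hκ hκ1 ha hb hab hΦ h1 m hg
  rw [hX]
  exact h2

/-- THE TWO LIGHT FRONT FORMS AGREE -/
theorem sid_symm (N : CNet Q H alg S) {G : V → D → D} (Gg : Gnr Q alg S G)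
    {T : Ix → Ix → GF.Fld D} {J : Ix → GF.Fld D} (hJ : IsVirial Q T J)
    {l : Fn → Completion D} (hl : IsPot Q T l) {κ : V → ℝ}
    {t : (Ix → V → ℝ) → (Ix → V → ℝ) → D → ℂ}
    {s : (Ix → Ix → V → ℝ) → (Ix → V → ℝ) → D → ℂ} (hT : TProd Q J G κ t s)
    (hκ : Tst κ) (hκ1 : ∀ᶠ x in 𝓝 (0 : V), κ x = 1) {a b : V} (ha : IsNull a) (hb : IsNull b)
    (hab : GF.mdot a b = 1)
    (hpa : ∀ s w, GF.mdot a w = 0 → Ptr Q S a s w) (hpb : ∀ s w, GF.mdot b w = 0 → Ptr Q S b s w)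
    {Φ Sig : ℝ → ℝ} (hΦ : Tst Φ) (hSig : Tst Sig) (m : Ix) {g : Fn}
    (hg : GF.IsTest g) {X : D} (hX : X = J m g Q.vac)
    (n0a : ∀ y, vc Q J a (G a (Q.U 1 GF.one (-y) X)) = 0)
    (n0b : ∀ y, vc Q J b (G b (Q.U 1 GF.one (-y) X)) = 0)
    (Am : Ix → 𝓢(V, ℂ)) (hAm : ∀ m y, vj Q J m (Q.U 1 GF.one (-y) X) = Am m y)
    (Lm : 𝓢(V, ℂ)) (hLm : ∀ y, vl l (Q.U 1 GF.one (-y) X) = Lm y)
    (Z Z' : 𝓢(V, ℂ)) (hZ : ∀ y, vl l (G a (Q.U 1 GF.one (-y) X)) = Z y)
    (hZ' : ∀ y, vl l (G b (Q.U 1 GF.one (-y) X)) = Z' y) :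
    Sid a b (deriv Φ) (deriv Sig) (fun y => vc Q J a (pl Q G a b X y))
        (fun y => vl l (pl Q G a b X y)) (fun y => vc Q J b (Q.U 1 GF.one (-y) X))
        (fun y => vc Q J (prp a b y) (Q.U 1 GF.one (-y) X)) =
      Sid b a (deriv Sig) (deriv Φ) (fun y => vc Q J b (pl Q G b a X y))
        (fun y => vl l (pl Q G b a X y)) (fun y => vc Q J a (Q.U 1 GF.one (-y) X))
        (fun y => vc Q J (prp b a y) (Q.U 1 GF.one (-y) X)) := by
  have hba : GF.mdot b a = 1 := by rw [mdot_comm, hab]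
  set Ac : V → 𝓢(V, ℂ) := fun c => ∑ m, ((GF.eta m * c m : ℝ) : ℂ) • Am m with hAc
  have hAc' : ∀ c y, vc Q J c (Q.U 1 GF.one (-y) X) = Ac c y := by
    intro c y
    simp only [vc, hAm, hAc, SchwartzMap.sum_apply, SchwartzMap.smul_apply, smul_eq_mul]
  have hi : ∀ c, Integrable fun y : V => (1 + ‖y‖) ^ 2 * ‖vj Q J c (Q.U 1 GF.one (-y) X)‖ := by
    intro c
    simp only [hAm]
    have h1 : Integrable fun y : V => (((1 + ‖y‖) ^ 2 : ℝ) : ℂ) * Am c y := by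
      refine int_pol (Am c) (M := 2) (by fun_prop) fun y => ?_
      rw [norm_real, Real.norm_eq_abs, abs_of_nonneg (by positivity)]
      nlinarith [sq_nonneg (1 - ‖y‖)]
    refine h1.norm.congr (Eventually.of_forall fun y => ?_)
    simp only
    rw [norm_mul, norm_real, Real.norm_eq_abs, abs_of_nonneg (by positivity)]
  -- integrability on the light fronts
  have key : ∀ (a b : V) (ha : IsNull a) (hb : IsNull b) (hab : GF.mdot a b = 1)
      (hpa : ∀ s w, GF.mdot a w = 0 → Ptr Q S a s w)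
      (n0a : ∀ y, vc Q J a (G a (Q.U 1 GF.one (-y) X)) = 0)
      (Z : 𝓢(V, ℂ)) (hZ : ∀ y, vl l (G a (Q.U 1 GF.one (-y) X)) = Z y) (θ τ : ℝ → ℝ)
      (hθ : Bd θ) (hτ : Bd τ),
      (Integrable fun y : V => ((θ (GF.mdot a y) * τ (GF.mdot b y) : ℝ) : ℂ) *
        vc Q J a (pl Q G a b X y)) ∧
      Integrable fun y : V => ((θ (GF.mdot a y) * τ (GF.mdot b y) : ℝ) : ℂ) *
        vl l (pl Q G a b X y) := by
    intro a b ha hb hab hpa n0a Z hZ θ τ hθ hτ
    constructor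
    · refine ((int_profW hθ hτ a b (∂_{a} (Ac a) : 𝓢(V, ℂ))).const_mul I).congr
        (Eventually.of_forall fun y => ?_)
      simp only
      rw [plane_vc N Gg hJ ha hb hab hpa (Ac a) (hAc' a) y, n0a]
      push_cast
      ring
    · refine ((int_prof hθ hτ a b Z).add ((int_profW hθ hτ a b
        (∂_{a} Lm : 𝓢(V, ℂ))).const_mul I)).congr (Eventually.of_forall fun y => ?_)
      simp only [Pi.add_apply]
      rw [plane_vl N Gg hl ha hb hab hpa Lm hLm y, hZ]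
      push_cast
      ring
  obtain ⟨c, hc⟩ := hT.joint a b (deriv Φ) (deriv Sig) m g ha hb hab (tst_deriv hΦ)
    (tst_deriv hSig) hg
  rw [← hX] at hc
  have hc' : Tendsto (fun R : ℝ × ℝ => t (fun i => dr i fun x => cut b a κ R.1 x *
      deriv Sig (GF.mdot b x)) (fun i => dr i fun x => cut a b κ R.2 x * deriv Φ (GF.mdot a x)) X)
      atTop (𝓝 c) := by
    have h1 : Tendsto (fun R : ℝ × ℝ => (R.2, R.1)) atTop atTop := by
      rw [← prod_atTop_atTop_eq]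
      exact tendsto_snd.prodMk tendsto_fst
    refine (hc.comp h1).congr' ?_
    rw [← prod_atTop_atTop_eq]
    filter_upwards [prod_mem_prod (eventually_ge_atTop (1 : ℝ)) (eventually_ge_atTop (1 : ℝ))]
      with R hR
    have hR1 : (1 : ℝ) ≤ R.1 := hR.1
    have hR2 : (1 : ℝ) ≤ R.2 := hR.2
    simp only [Function.comp_apply]
    rw [hX]
    exact hT.symm _ _ m g (fun i => (H846.cut_tst ha.1 hb.1 hab hκ (tst_deriv hΦ) hR2).dr i)
      (fun i => (H846.cut_tst hb.1 ha.1 hba hκ (tst_deriv hSig) hR1).dr i) hg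
  have k1 := key a b ha hb hab hpa n0a Z hZ (deriv (deriv (deriv Φ))) (deriv Sig)
    (tst_bd (tst_deriv (tst_deriv (tst_deriv hΦ)))) (tst_bd (tst_deriv hSig))
  have k2 := key a b ha hb hab hpa n0a Z hZ (deriv (deriv (deriv Φ))) (deriv (deriv Sig))
    (tst_bd (tst_deriv (tst_deriv (tst_deriv hΦ)))) (tst_bd (tst_deriv (tst_deriv hSig)))
  have k3 := key b a hb ha hba hpb n0b Z' hZ' (deriv (deriv (deriv Sig))) (deriv Φ)
    (tst_bd (tst_deriv (tst_deriv (tst_deriv hSig)))) (tst_bd (tst_deriv hΦ))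
  have k4 := key b a hb ha hba hpb n0b Z' hZ' (deriv (deriv (deriv Sig))) (deriv (deriv Φ))
    (tst_bd (tst_deriv (tst_deriv (tst_deriv hSig)))) (tst_bd (tst_deriv (tst_deriv hΦ)))
  rw [← sid_lim N Gg hJ hl hT hκ hκ1 ha hb hab hΦ (tst_deriv hSig) m hg hX k1.1 k2.2 hi hc,
    ← sid_lim N Gg hJ hl hT hκ hκ1 hb ha hba hSig (tst_deriv hΦ) m hg hX k3.1 k4.2 hi hc']

end Vale.Agent.P352.H755
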