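import Vale.Agent.P352.H755.R7f

/-!
# Translations off the null plane
-/

set_option linter.all false

noncomputable section

open MeasureTheory Filter Topology Set
open scoped ContDiff ComplexConjugate

namespace Vale.Agent.P352.H755

open GF (Ix V Fn bas eta pd bar sim o)
open H246 H496 H15

variable {D : Type*} [NormedAddCommGroup D] [InnerProductSpace ℂ D] {Q : GF.Theory D}
  {T : Ix → Ix → GF.Fld D} {J : Ix → GF.Fld D} {A : (V → V) → D → D} {K : V → D → D}

/-- the field `z - (b·z) a + (a·z) b` -/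
def Xw (a b : V) : V → V := fun z => z - GF.mdot b z • a + GF.mdot a z • b

lemma Xw_sim (a b : V) : IsSim 1 (Xw a b) := by
  refine ⟨0, fun m n => -(eta m * b m) * a n + (eta m * a m) * b n, ?_, ?_⟩
  · intro m n; ring
  · intro z n
    simp only [Xw, GF.mdot, Fin.sum_univ_four, Pi.add_apply, Pi.sub_apply, Pi.smul_apply,
      smul_eq_mul, Pi.zero_apply]
    ring

lemma tst_add' {F G : V → ℝ} (hF : Tst F) (c : ℝ) (hG : Tst G) : Tst fun x => F x + c * G x :=
  ⟨hF.1.add (contDiff_const.mul hG.1), hF.2.add hG.2.mul_left⟩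

lemma Adm.dv {a b : V} {κ : V → ℝ} {G : ℝ → ℝ} (h : Adm a b κ G) : Adm a b κ (deriv G) :=
  ⟨h.1, h.2.1, h.2.2.1, h.2.2.2.1, h.2.2.2.2.1, (contDiff_infty_iff_deriv.1 h.2.2.2.2.2.1).2,
    h.2.2.2.2.2.2.deriv⟩

/-- charge of the field `Xw` when the virial current vanishes on shell -/
lemma gen1 (hJ : IsVirial Q T J) (h : NullCharges Q T J A K) (ho : OnShell Q T J) {a b : V}
    {κ : V → ℝ} {ψ : ℝ → ℝ} (hA : Adm a b κ ψ) (y : V) {X : V → V} (hX : IsSim 1 X) (v w : D) :
    Tendsto (fun R => mt T w v (Fg a b κ y ψ R X)) atTop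
      (𝓝 ((∫ u, (ψ u : ℂ)) * inner ℂ w (A X v))) := by
  have h1 := (h.gen a b κ y ψ 1 X v w hA hX).add (ho.vir a b κ y ψ v w hA)
  rw [add_zero] at h1
  refine h1.congr fun R => ?_
  rw [← inner_add_right]
  simp only [Complex.ofReal_one, one_smul]
  rw [sub_add_cancel]
  rfl

lemma mt_tr (hT : Q.IsStress T) {g : V → ℝ} (hg : Tst g) (w v : D) :
    mt T w v (fun m n x => (if n = m then eta n else 0) * g x) =
      inner ℂ w (GF.tr T (fun x => (g x : ℂ)) v) := by
  rw [mt_eq]
  unfold GF.tr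
  rw [inner_sum]
  refine Finset.sum_congr rfl fun m _ => ?_
  rw [Finset.sum_eq_single m]
  · have h0 := Q.lin (T m m) (fun x => (g x : ℂ)) (fun x => (g x : ℂ)) (-1) v
      (Q.bose_fld _ (hT.bose m m)) (tstIs hg) (tstIs hg)
    have h1 : T m m (fun _ => 0) v = 0 := by
      have e : (fun x => (g x : ℂ) + (-1) * (g x : ℂ)) = fun _ => 0 := by
        funext x; ring
      rw [e] at h0
      rw [h0]
      simp
    have h2 := Q.lin (T m m) (fun _ => 0) (fun x => (g x : ℂ)) (eta m : ℂ) v
      (Q.bose_fld _ (hT.bose m m)) ⟨0, rfl⟩ (tstIs hg)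
    have e : (fun x => (((if m = m then eta m else 0) * g x : ℝ) : ℂ)) =
        fun x => (0 : ℂ) + (eta m : ℂ) * (g x : ℂ) := by
      funext x; simp
    rw [e, h2, h1, zero_add]
  · intro n _ hn
    have h0 := Q.lin (T m n) (fun x => (g x : ℂ)) (fun x => (g x : ℂ)) (-1) v
      (Q.bose_fld _ (hT.bose m n)) (tstIs hg) (tstIs hg)
    have h1 : T m n (fun _ => 0) v = 0 := by
      have e : (fun x => (g x : ℂ) + (-1) * (g x : ℂ)) = fun _ => 0 := by
        funext x; ring
      rw [e] at h0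
      rw [h0]
      simp
    have e : (fun x => (((if n = m then eta n else 0) * g x : ℝ) : ℂ)) = fun _ => (0 : ℂ) := by
      funext x; simp [hn]
    rw [e, h1, inner_zero_right]
  · intro hm; exact absurd (Finset.mem_univ m) hm

/-- the Ward identity in one matrix element -/
lemma ward (hT : Q.IsStress T) (hJ : IsVirial Q T J) (h : NullCharges Q T J A K)
    (ho : OnShell Q T J) {a b : V} (ha : IsNull a) (hb : IsNull b) (hab : GF.mdot a b = 1)
    (v w : D) {G : ℝ → ℝ} (hG : Tst G) :
    ∫ u, ((deriv G u : ℝ) : ℂ) * (Kh Q K a b w v u + 2 * (u : ℂ) * inner ℂ w (A (Xw a b) v) -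
      2 * ((u : ℂ) * u) * inner ℂ w (A (fun _ => b) v)) = 0 := by
  obtain ⟨κ, hκ, hκ1⟩ := exists_kp
  have hA : Adm a b κ G := ⟨ha, hb, hab, hκ, hκ1, hG⟩
  have hA1 := Adm.dv hA
  have hA2 := Adm.umul hA1
  have hA3 := Adm.umul hA2
  have hA4 := Adm.umul hA
  have l1 := h.flux a b κ G v w hA
  have l2 := Mom.tt h.mom hA1 0 v w
  have l3 := gen1 hJ h ho hA2 0 (Xw_sim a b) v w
  have l4 := gen0 h hA3 0 (const_sim b) v w
  have l5 := ho.tr a b κ 0 (fun u => u * G u) v w hA4
  have l6 := ((((l1.add l2).add (l3.const_mul 2)).add (l4.const_mul (-2))).add (l5.const_mul 2))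
  have l7 : (fun _ : ℝ => (0 : ℂ)) =ᶠ[atTop] fun R =>
      mt T w v (fun m n x => dr m (cut a b κ R) x * G (GF.mdot a x) * (eta n * cK a x n)) +
      mt T w v (Fm a b κ 0 (deriv G) R) +
      2 * mt T w v (Fg a b κ 0 (fun u => u * deriv G u) R (Xw a b)) +
      (-2) * mt T w v (Fg a b κ 0 (fun u => u * (u * deriv G u)) R (fun _ => b)) +
      2 * inner ℂ w (GF.tr T (fun x => (ctf a b κ 0 (fun u => u * G u) R x : ℂ)) v) := by
    filter_upwards [eventually_ge_atTop 1] with R hR
    have t1 : ∀ m n, Tst (Fm a b κ 0 (deriv G) R m n) := fun m n => Fm_tst hA1 0 hR m n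
    have t2 : ∀ m n, Tst (Fg a b κ 0 (fun u => u * deriv G u) R (Xw a b) m n) :=
      fun m n => Fg_tst hA2 0 hR (Xw_sim a b) m n
    have t3 : ∀ m n, Tst (Fg a b κ 0 (fun u => u * (u * deriv G u)) R (fun _ => b) m n) :=
      fun m n => Fg_tst hA3 0 hR (const_sim b) m n
    have t4 : Tst (ctf a b κ 0 (fun u => u * G u) R) := ctf_tst hA4 0 hR
    have t4' : ∀ m n : Ix, Tst fun x => (if n = m then eta n else 0) *
        ctf a b κ 0 (fun u => u * G u) R x := fun m n => tst_smul contDiff_const t4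
    have t5 : Tst fun x => cut a b κ R x * G (GF.mdot a x) :=
      H846.cut_tst ha.1 hb.1 hab hκ hG hR
    have t6 : ∀ n, Tst fun x => cut a b κ R x * G (GF.mdot a x) * (eta n * cK a x n) := fun n =>
      H846.tst_mul t5 (contDiff_const.mul (contDiff_cK a n))
    have cx : ∀ m : Ix, ContDiff ℝ ∞ fun x : V => x m := fun m => contDiff_apply ℝ ℝ m
    have t7 : ∀ m n, Tst fun x => cut a b κ R x * G (GF.mdot a x) * (eta n * (2 * (eta m * a m) * x n
        - 2 * (eta m * x m) * a n)) := fun m n => by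
      have c1 := cx m
      have c2 := cx n
      exact H846.tst_mul t5 (by fun_prop)
    have z1 := mt_cons hT t6 w v
    have z2 := mt_anti hT t7 (fun m n x => by ring) w v
    -- the sum of the last four functions
    set P : Ix → Ix → V → ℝ := fun m n x =>
      dr m (cut a b κ R) x * G (GF.mdot a x) * (eta n * cK a x n) with hP
    have e : ∀ m n x, P m n x = dr m (fun x => cut a b κ R x * G (GF.mdot a x) *
        (eta n * cK a x n)) x + (-1) * Fm a b κ 0 (deriv G) R m n x +
        (-2) * Fg a b κ 0 (fun u => u * deriv G u) R (Xw a b) m n x +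
        2 * Fg a b κ 0 (fun u => u * (u * deriv G u)) R (fun _ => b) m n x +
        (-2) * ((if n = m then eta n else 0) * ctf a b κ 0 (fun u => u * G u) R x) +
        (-1) * (cut a b κ R x * G (GF.mdot a x) * (eta n * (2 * (eta m * a m) * x n
        - 2 * (eta m * x m) * a n))) := by
      intro m n x
      rw [dr_cut hκ.1 hG.1, hP]
      simp only [Fm, Fg, ctf, sub_zero]
      have c1 : cK a x n = 2 * GF.mdot a x * Xw a b x n - 2 * (GF.mdot a x * GF.mdot a x) * b n +
          sq a b x * a n := by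
        simp only [cK, Xw, H15.sq, Pi.add_apply, Pi.sub_apply, Pi.smul_apply, smul_eq_mul]
        ring
      have c2 : ∀ z : ℝ, eta n * (z * (if n = m then 1 else 0)) = z * (if n = m then eta n else 0) := by
        intro z; split_ifs <;> ring
      have c3 := c2 (2 * GF.mdot a x)
      linear_combination (-(eta m * a m * eta n * cut a b κ R x * deriv G (GF.mdot a x))) * c1 -
        (cut a b κ R x * G (GF.mdot a x)) * c3
    have hd : ∀ m n, Tst fun x => dr m (fun x => cut a b κ R x * G (GF.mdot a x) *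
        (eta n * cK a x n)) x := fun m n => tst_dr (t6 n) m
    have s1 : ∀ m n, Tst fun x => dr m (fun x => cut a b κ R x * G (GF.mdot a x) *
        (eta n * cK a x n)) x + (-1) * Fm a b κ 0 (deriv G) R m n x :=
      fun m n => tst_add' (hd m n) _ (t1 m n)
    have s2 : ∀ m n, Tst fun x => dr m (fun x => cut a b κ R x * G (GF.mdot a x) *
        (eta n * cK a x n)) x + (-1) * Fm a b κ 0 (deriv G) R m n x +
        (-2) * Fg a b κ 0 (fun u => u * deriv G u) R (Xw a b) m n x :=
      fun m n => tst_add' (s1 m n) _ (t2 m n)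
    have s3 : ∀ m n, Tst fun x => dr m (fun x => cut a b κ R x * G (GF.mdot a x) *
        (eta n * cK a x n)) x + (-1) * Fm a b κ 0 (deriv G) R m n x +
        (-2) * Fg a b κ 0 (fun u => u * deriv G u) R (Xw a b) m n x +
        2 * Fg a b κ 0 (fun u => u * (u * deriv G u)) R (fun _ => b) m n x :=
      fun m n => tst_add' (s2 m n) _ (t3 m n)
    have s4 : ∀ m n, Tst fun x => dr m (fun x => cut a b κ R x * G (GF.mdot a x) *
        (eta n * cK a x n)) x + (-1) * Fm a b κ 0 (deriv G) R m n x +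
        (-2) * Fg a b κ 0 (fun u => u * deriv G u) R (Xw a b) m n x +
        2 * Fg a b κ 0 (fun u => u * (u * deriv G u)) R (fun _ => b) m n x +
        (-2) * ((if n = m then eta n else 0) * ctf a b κ 0 (fun u => u * G u) R x) :=
      fun m n => tst_add' (s3 m n) _ (t4' m n)
    have e' : P = fun m n x => dr m (fun x => cut a b κ R x * G (GF.mdot a x) *
        (eta n * cK a x n)) x + (-1) * Fm a b κ 0 (deriv G) R m n x +
        (-2) * Fg a b κ 0 (fun u => u * deriv G u) R (Xw a b) m n x +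
        2 * Fg a b κ 0 (fun u => u * (u * deriv G u)) R (fun _ => b) m n x +
        (-2) * ((if n = m then eta n else 0) * ctf a b κ 0 (fun u => u * G u) R x) +
        (-1) * (cut a b κ R x * G (GF.mdot a x) * (eta n * (2 * (eta m * a m) * x n
        - 2 * (eta m * x m) * a n))) := by
      funext m n x
      exact e m n x
    rw [e', mt_add hT s4 t7, mt_add hT s3 t4', mt_add hT s2 t3, mt_add hT s1 t2, mt_add hT hd t1,
      z1, z2, mt_tr hT t4]
    push_cast
    ring
  have l8 := tendsto_nhds_unique tendsto_const_nhds (l6.congr' l7.symm)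
  have hc : Continuous (Kh Q K a b w v) := h.cont a b v w ha hb
  have j1 : Integrable fun u => ((deriv G u : ℝ) : ℂ) * Kh Q K a b w v u :=
    tst_intR hA1.2.2.2.2.2 hc
  have j2 : Integrable fun u => ((deriv G u : ℝ) : ℂ) *
      (2 * (u : ℂ) * inner ℂ w (A (Xw a b) v)) := tst_intR hA1.2.2.2.2.2 (by fun_prop)
  have j3 : Integrable fun u => ((deriv G u : ℝ) : ℂ) *
      (2 * ((u : ℂ) * u) * inner ℂ w (A (fun _ => b) v)) := tst_intR hA1.2.2.2.2.2 (by fun_prop)
  have e : (fun u => ((deriv G u : ℝ) : ℂ) * (Kh Q K a b w v u +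
      2 * (u : ℂ) * inner ℂ w (A (Xw a b) v) - 2 * ((u : ℂ) * u) * inner ℂ w (A (fun _ => b) v))) =
      fun u => (((deriv G u : ℝ) : ℂ) * Kh Q K a b w v u +
      ((deriv G u : ℝ) : ℂ) * (2 * (u : ℂ) * inner ℂ w (A (Xw a b) v))) -
      ((deriv G u : ℝ) : ℂ) * (2 * ((u : ℂ) * u) * inner ℂ w (A (fun _ => b) v)) := by
    funext u; ring
  have j4 : Integrable fun u => ((deriv G u : ℝ) : ℂ) * Kh Q K a b w v u +
      ((deriv G u : ℝ) : ℂ) * (2 * (u : ℂ) * inner ℂ w (A (Xw a b) v)) := j1.add j2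
  rw [e, integral_sub j4 j3, integral_add j1 j2]
  have k2 : ∫ u, ((deriv G u : ℝ) : ℂ) * (2 * (u : ℂ) * inner ℂ w (A (Xw a b) v)) =
      2 * ((∫ u, ((u * deriv G u : ℝ) : ℂ)) * inner ℂ w (A (Xw a b) v)) := by
    rw [← integral_mul_const, ← integral_const_mul]
    refine integral_congr_ae (Eventually.of_forall fun u => ?_)
    simp only
    push_cast
    ring
  have k3 : ∫ u, ((deriv G u : ℝ) : ℂ) * (2 * ((u : ℂ) * u) * inner ℂ w (A (fun _ => b) v)) =
      2 * ((∫ u, ((u * (u * deriv G u) : ℝ) : ℂ)) * inner ℂ w (A (fun _ => b) v)) := by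
    rw [← integral_mul_const, ← integral_const_mul]
    refine integral_congr_ae (Eventually.of_forall fun u => ?_)
    simp only
    push_cast
    ring
  rw [k2, k3]
  linear_combination -l8

end Vale.Agent.P352.H755
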