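import Vale.Agent.P352.H755.R7a

/-!
# Symmetry of the second null moments
-/

set_option linter.all false

noncomputable section

open MeasureTheory Filter Topology Set
open scoped ContDiff ComplexConjugate

namespace Vale.Agent.P352.H755

open GF (Ix V Fn bas eta pd bar sim o)
open H246 H496 H15

variable {D : Type*} [NormedAddCommGroup D] [InnerProductSpace ℂ D] {Q : GF.Theory D}
  {T : Ix → Ix → GF.Fld D} {J : Ix → GF.Fld D} {A : (V → V) → D → D} {K : V → D → D}

lemma exists_dual {a : V} (ha : IsNull a) : ∃ b, IsNull b ∧ GF.mdot a b = 1 := by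
  obtain ⟨h1, h2⟩ := ha
  have h0 : (0:ℝ) < a 0 := h2
  simp only [GF.mdot, Fin.sum_univ_four, eta, o] at h1
  refine ⟨fun m => eta m * a m * (2 * a 0 ^ 2)⁻¹, ⟨?_, ?_⟩, ?_⟩
  · simp only [GF.mdot, Fin.sum_univ_four, eta, o]
    simp only [↓reduceIte, Fin.isValue, one_ne_zero, Fin.reduceEq] at h1 ⊢
    linear_combination ((2 * a 0 ^ 2)⁻¹) ^ 2 * h1
  · simp only [eta, o, ↓reduceIte]
    positivity
  · simp only [GF.mdot, Fin.sum_univ_four, eta, o]
    simp only [↓reduceIte, Fin.isValue, one_ne_zero, Fin.reduceEq] at h1 ⊢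
    field_simp
    linear_combination -h1

lemma exists_kp : ∃ κ : V → ℝ, Tst κ ∧ ∀ᶠ x in 𝓝 (0 : V), κ x = 1 := by
  let f : ContDiffBump (0 : V) := ⟨1, 2, one_pos, one_lt_two⟩
  exact ⟨f, ⟨f.contDiff, f.hasCompactSupport⟩, f.eventuallyEq_one⟩

/-- smooth functions times test functions -/
lemma tst_smul {f g : V → ℝ} (hf : ContDiff ℝ ∞ f) (hg : Tst g) : Tst fun x => f x * g x :=
  ⟨hf.mul hg.1, hg.2.mul_left⟩

lemma contDiff_sq (a b : V) : ContDiff ℝ ∞ (sq a b) := by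
  have e : sq a b = fun x => 2 * GF.mdot a x * GF.mdot b x - ∑ m, eta m * x m * x m := rfl
  rw [e]
  have h1 := H846.contDiff_mdot a
  have h2 := H846.contDiff_mdot b
  simp only [Fin.sum_univ_four]
  fun_prop

/-- the sources of the second moments -/
def Fm (a b : V) (κ : V → ℝ) (y : V) (ψ : ℝ → ℝ) (R : ℝ) : Ix → Ix → V → ℝ := fun m n x =>
  eta m * a m * (eta n * a n) * sq a b x * ctf a b κ y ψ R x

lemma Fm_tst {a b : V} {κ : V → ℝ} {ψ : ℝ → ℝ} (h : Adm a b κ ψ) (y : V) {R : ℝ} (hR : 1 ≤ R)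
    (m n : Ix) : Tst (Fm a b κ y ψ R m n) := by
  have h2 := contDiff_sq a b
  exact tst_smul (f := fun x => eta m * a m * (eta n * a n) * sq a b x)
    (contDiff_const.mul h2) (ctf_tst h y hR)

/-- the second moment in the plane `a·x = u` -/
def Kh (Q : GF.Theory D) (K : V → D → D) (a b : V) (w v : D) (u : ℝ) : ℂ :=
  inner ℂ w (Q.U 1 GF.one (u • b) (K a (Q.U 1 GF.one (-(u • b)) v)))

lemma Mom.tt (h : Mom Q T K) {a b : V} {κ : V → ℝ} {ψ : ℝ → ℝ} (hA : Adm a b κ ψ) (y : V) (v w : D) :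
    Tendsto (fun R => mt T w v (Fm a b κ y ψ R)) atTop (𝓝 (∫ u, (ψ u : ℂ) * Kh Q K a b w v u)) :=
  h a b κ y ψ v w hA

lemma Uone (v : D) : Q.U 1 GF.one (0 : V) v = v := U1_zero_all (Q := Q) v

lemma Uadd1 (x y : V) (v : D) : Q.U 1 GF.one x (Q.U 1 GF.one y v) = Q.U 1 GF.one (x + y) v :=
  U1_U1_all (Q := Q) (WithLp.toLp 2 x) (WithLp.toLp 2 y) v

lemma Kh_zero (a b : V) (w v : D) : Kh Q K a b w v 0 = inner ℂ w (K a v) := by
  unfold Kh
  rw [zero_smul, neg_zero, Uone, Uone]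

theorem nc_symm (hT : Q.IsStress T) (h : NullCharges Q T J A K) {a : V} (ha : IsNull a) (v w : D) :
    inner ℂ (K a v) w = inner ℂ v (K a w) := by
  obtain ⟨b, hb, hab⟩ := exists_dual ha
  obtain ⟨κ, hκ, hκ1⟩ := exists_kp
  have key : (fun u => Kh Q K a b v w u) = fun u => conj (Kh Q K a b w v u) := by
    refine fun_uniqueR (h.cont a b w v ha hb)
      (Complex.continuous_conj.comp (h.cont a b v w ha hb)) fun ψ hψ => ?_
    have hA : Adm a b κ ψ := ⟨ha, hb, hab, hκ, hκ1, hψ⟩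
    have h1 := Mom.tt h.mom hA 0 w v
    have h2 := (Complex.continuous_conj.tendsto _).comp (Mom.tt h.mom hA 0 v w)
    have h3 : (fun R => mt T v w (Fm a b κ 0 ψ R)) =ᶠ[atTop]
        (fun z => conj z) ∘ fun R => mt T w v (Fm a b κ 0 ψ R) := by
      filter_upwards [eventually_ge_atTop 1] with R hR
      exact mt_herm hT (fun m n => Fm_tst hA 0 hR m n) v w
    have h4 := tendsto_nhds_unique h1 (h2.congr' h3.symm)
    rw [h4, ← integral_conj]
    refine integral_congr_ae (Eventually.of_forall fun u => ?_)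
    simp
  have h0 := congrFun key 0
  simp only [Kh_zero] at h0
  rw [h0, inner_conj_symm]

end Vale.Agent.P352.H755
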