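import Vale.Agent.P352.H755.Pf

set_option linter.all false

noncomputable section

open MeasureTheory SchwartzMap Filter Topology
open Complex hiding eta
open scoped SchwartzMap ComplexConjugate ENNReal NNReal LineDeriv ContDiff

namespace Vale.Agent.P352.H755

open GF (Ix V Fn Sch ev pd bar sim bas o eta)
open H246 H496 H746
open UniformSpace (Completion)

variable {D : Type*} [NormedAddCommGroup D] [InnerProductSpace ℂ D]
variable {Q : GF.Theory D}
variable {H : D → D} {alg : Set V → Set (D → D)} {S : V → ℝ → D → D}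

lemma Cd.pot {T : Ix → Ix → GF.Fld D} {l : Fn → Completion D} (hl : IsPot Q T l) :
    ∃ κ, Cd Q l κ := by
  obtain ⟨κ, hκ⟩ := hl.exists_clm
  refine ⟨κ, fun F => (hκ F).symm, fun g a z => ?_⟩
  have h1 := hl.cov 1 GF.one a.ofLp (fl (tauS a g)) z one_pos isLor_one (isTest_fl _)
  have h2 : (fun x => fl (tauS a g) (sim 1 GF.one a.ofLp x)) = fl g := by
    funext x
    have h3 : sim 1 GF.one a.ofLp x = a.ofLp + x := by
      funext n
      simp [sim, GF.one, bas]
    rw [h3]
    simp only [fl, tauS_apply]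
    congr 1
    ext n
    simp
  rw [h2] at h1
  rw [hκ, hκ]
  have h4 : ((U1 Q a z : D) : Completion D) = ((Q.U 1 GF.one a.ofLp z : D) : Completion D) := rfl
  rw [h4, h1]
  simp

lemma pd_real {g : V → ℝ} (hg : Tst g) (m : Ix) :
    pd m (fun x => (g x : ℂ)) = fun x => (dr m g x : ℂ) := by
  funext x
  unfold pd dr
  have h1 : HasDerivAt (fun t : ℝ => g (x + bas m t)) (fderiv ℝ g x (bas m 1)) 0 := by
    have h2 : (fun t : ℝ => g (x + bas m t)) = fun t : ℝ => g (x + t • bas m 1) := by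
      funext t
      rw [bas_smul]
    rw [h2]
    exact (hg.diff x).hasFDerivAt.hasLineDerivAt (bas m 1)
  have h3 := h1.ofReal_comp
  rw [h1.deriv]
  exact h3.deriv

lemma box_real {g : V → ℝ} (hg : Tst g) :
    box (fun x => (g x : ℂ)) = fun x => ((∑ i, eta i * dr i (dr i g) x : ℝ) : ℂ) := by
  funext x
  unfold box
  rw [ofReal_sum]
  refine Finset.sum_congr rfl fun i _ => ?_
  rw [pd_real hg, pd_real (hg.dr i)]
  push_cast
  rfl

lemma Tst.add {f g : V → ℝ} (hf : Tst f) (hg : Tst g) : Tst fun x => f x + g x :=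
  ⟨hf.1.add hg.1, hf.2.add hg.2⟩

lemma Tst.cmul {f : V → ℝ} (hf : Tst f) (c : ℝ) : Tst fun x => c * f x :=
  ⟨contDiff_const.mul hf.1, hf.2.mul_left⟩

lemma Tst.sum {f : Ix → V → ℝ} (hf : ∀ i, Tst (f i)) : Tst fun x => ∑ i, f i x := by
  simp only [Fin.sum_univ_four]
  exact (((hf 0).add (hf 1)).add (hf 2)).add (hf 3)

/-- integrability of the product of a test function and a continuous function -/
lemma Tst.int {g : V → ℝ} (hg : Tst g) {f : V → ℂ} (hf : Continuous f) :
    Integrable fun x => (g x : ℂ) * f x := by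
  have hgc : HasCompactSupport fun y => (g y : ℂ) :=
    hg.2.comp_left (g := fun r : ℝ => (r : ℂ)) (by simp)
  exact ((Complex.continuous_ofReal.comp hg.cont).mul hf).integrable_of_hasCompactSupport
      hgc.mul_right

/-- linearity of derivatives -/
lemma ld_lin {L : V → ℂ} {L' : V → V → ℂ} (hL : ∀ c, LD c L (L' c)) (a y : V) :
    L' a y = ∑ i, (a i : ℂ) * L' (bas i 1) y := by
  have key : L' a = fun y => ∑ i, (a i : ℂ) * L' (bas i 1) y := ?_
  · exact congrFun key y
  refine fun_uniqueV (hL a).cont' (continuous_finset_sum _ fun i _ =>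
    continuous_const.mul (hL (bas i 1)).cont') fun g hg => ?_
  rw [(hL a).parts hg]
  have e1 : ∀ x, (g x : ℂ) * ∑ i, (a i : ℂ) * L' (bas i 1) x =
      ∑ i, (a i : ℂ) * ((g x : ℂ) * L' (bas i 1) x) := by
    intro x
    rw [Finset.mul_sum]
    refine Finset.sum_congr rfl fun i _ => by ring
  simp only [e1]
  rw [integral_finset_sum _ fun i _ => (hg.int (hL (bas i 1)).cont').const_mul _]
  simp only [integral_const_mul]
  have e2 : ∀ i, ∫ x, (g x : ℂ) * L' (bas i 1) x =
      -∫ x, ((fderiv ℝ g x (bas i 1) : ℝ) : ℂ) * L x := fun i => (hL (bas i 1)).parts hg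
  simp only [e2]
  have e3 : ∀ x, ((fderiv ℝ g x a : ℝ) : ℂ) * L x =
      ∑ i, (a i : ℂ) * (((fderiv ℝ g x (bas i 1) : ℝ) : ℂ) * L x) := by
    intro x
    have : a = ∑ i, a i • (bas i 1 : V) := by
      funext n
      simp [bas, Finset.sum_apply]
    conv_lhs => rw [this, map_sum]
    simp only [map_smul, smul_eq_mul]
    push_cast
    rw [Finset.sum_mul]
    refine Finset.sum_congr rfl fun i _ => by ring
  simp only [e3]
  rw [integral_finset_sum _ fun i _ => ((hg.fd (bas i 1)).int (hL 0).cont).const_mul _]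
  simp only [integral_const_mul, mul_neg, Finset.sum_neg_distrib]

/-- the relation between the divergence of `J` and the potential -/
theorem hrel (N : Net Q H alg S) {T : Ix → Ix → GF.Fld D} {J : Ix → GF.Fld D}
    {l : Fn → Completion D} (hJ : IsVirial Q T J) (hl : IsPot Q T l) (Ψ : D)
    {F' L'' : Ix → V → V → ℂ} {L' : V → V → ℂ}
    (hF : ∀ i c, LD c (fun y => vj Q J i (Q.U 1 GF.one (-y) Ψ)) (F' i c))
    (hL : ∀ c, LD c (fun y => vk l (Q.U 1 GF.one (-y) Ψ)) (L' c))
    (hL' : ∀ i c, LD c (L' (bas i 1)) (L'' i c)) (y : V) :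
    ∑ i, F' i (bas i 1) y = 3 * ∑ i, (eta i : ℂ) * L'' i (bas i 1) y := by
  obtain ⟨κ, hκ⟩ := Cd.pot hl
  have key : (fun y => ∑ i, F' i (bas i 1) y) =
      fun y => 3 * ∑ i, (eta i : ℂ) * L'' i (bas i 1) y := ?_
  · exact congrFun key y
  refine fun_uniqueV (continuous_finset_sum _ fun i _ => (hF i (bas i 1)).cont')
    (continuous_const.mul (continuous_finset_sum _ fun i _ =>
      continuous_const.mul (hL' i (bas i 1)).cont')) fun g hg => ?_
  have hdr : ∀ i x, fderiv ℝ g x (bas i 1) = dr i g x := fun i x => (dr_eq hg.diff i x).symm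
  -- left hand side
  have e1 : ∫ x, (g x : ℂ) * ∑ i, F' i (bas i 1) x =
      -∑ i, ∫ x, (dr i g x : ℂ) * vj Q J i (Q.U 1 GF.one (-x) Ψ) := by
    simp only [Finset.mul_sum]
    rw [integral_finset_sum _ fun i _ => hg.int (hF i (bas i 1)).cont', ← Finset.sum_neg_distrib]
    refine Finset.sum_congr rfl fun i _ => ?_
    rw [(hF i (bas i 1)).parts hg]
    simp only [hdr]
  have hfld : ∀ m, Q.fld (J m) := fun m => Q.bose_fld _ (hJ.bose m)
  have e2 : ∀ i, ∫ x, (dr i g x : ℂ) * vj Q J i (Q.U 1 GF.one (-x) Ψ) =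
      inner ℂ ((J i (fun x => (dr i g x : ℂ)) Q.vac : D) : Completion D) (Ψ : Completion D) := by
    intro i
    exact ((Cd.field hfld i).rep N (hg.dr i) Ψ).symm
  simp only [e1, e2]
  have e3 : -∑ i, inner ℂ ((J i (fun x => (dr i g x : ℂ)) Q.vac : D) : Completion D)
      (Ψ : Completion D) =
      inner ℂ ((GF.tr T (fun x => (g x : ℂ)) Q.vac : D) : Completion D) (Ψ : Completion D) := by
    rw [hJ.div _ _ hg.isTest]
    simp only [pd_real hg, Completion.inner_coe, inner_neg_left, sum_inner]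
  rw [e3, ← hl.trace _ hg.isTest, inner_smul_left, box_real hg]
  have hbx : Tst fun x => ∑ i, eta i * dr i (dr i g) x :=
    Tst.sum fun i => ((hg.dr i).dr i).cmul _
  rw [hκ.rep N hbx]
  -- right hand side
  have e4 : ∀ x, (g x : ℂ) * (3 * ∑ i, (eta i : ℂ) * L'' i (bas i 1) x) =
      ∑ i, (3 * (eta i : ℂ)) * ((g x : ℂ) * L'' i (bas i 1) x) := by
    intro x
    rw [Finset.mul_sum, Finset.mul_sum]
    refine Finset.sum_congr rfl fun i _ => by ring
  simp only [e4]
  rw [integral_finset_sum _ fun i _ => (hg.int (hL' i (bas i 1)).cont').const_mul _]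
  simp only [integral_const_mul]
  have e5 : ∀ i, ∫ x, (g x : ℂ) * L'' i (bas i 1) x =
      ∫ x, (dr i (dr i g) x : ℂ) * vk l (Q.U 1 GF.one (-x) Ψ) := by
    intro i
    rw [(hL' i (bas i 1)).parts hg]
    simp only [hdr]
    rw [(hL (bas i 1)).parts (hg.dr i), neg_neg]
    refine integral_congr_ae (Eventually.of_forall fun x => ?_)
    simp only
    rw [← dr_eq (hg.dr i).diff i x]
  simp only [e5]
  have e6 : ∀ x, ((∑ i, eta i * dr i (dr i g) x : ℝ) : ℂ) * vk l (Q.U 1 GF.one (-x) Ψ) =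
      ∑ i, (eta i : ℂ) * ((dr i (dr i g) x : ℂ) * vk l (Q.U 1 GF.one (-x) Ψ)) := by
    intro x
    push_cast
    rw [Finset.sum_mul]
    refine Finset.sum_congr rfl fun i _ => by ring
  simp only [e6]
  rw [integral_finset_sum _ fun i _ => (((hg.dr i).dr i).int (hL 0).cont).const_mul _]
  simp only [integral_const_mul]
  rw [Finset.mul_sum]
  refine Finset.sum_congr rfl fun i _ => ?_
  simp only [map_ofNat]
  ring

end Vale.Agent.P352.H755
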