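import Vale.Agent.P352.H755.Gu
import Vale.Agent.P352.H746.Glue
import Vale.Agent.P352.H846.ValL2

set_option linter.all false

noncomputable section

open MeasureTheory SchwartzMap Filter Topology Set
open Complex hiding eta
open scoped SchwartzMap ComplexConjugate ENNReal NNReal LineDeriv ContDiff

namespace Vale.Agent.P352.H755

open GF (Ix V Fn Sch ev pd bar sim bas o eta)
open H246 H496 H746
open UniformSpace (Completion)

variable {D : Type*} [NormedAddCommGroup D] [InnerProductSpace ℂ D]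
variable {Q : GF.Theory D}
variable {H : D → D} {alg : Set V → Set (D → D)} {S : V → ℝ → D → D}

lemma vl_eq_vk (l : Fn → Completion D) (v : D) : vl l v = vk l v := rfl

/-- the vector on the plane `u` -/
def Ps (Q : GF.Theory D) (G : V → D → D) (a b : V) (X : D) (u : ℝ) : D :=
  Q.U 1 GF.one (u • b) (G a (Q.U 1 GF.one (-(u • b)) X))

lemma pl_ps (G : V → D → D) (a b : V) (X : D) (y : V) :
    pl Q G a b X y = Q.U 1 GF.one (-y) (Ps Q G a b X (GF.mdot a y)) := rfl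

section

variable (N : CNet Q H alg S) {G : V → D → D}
include N

theorem IsPf.cont_ps {lm : D → ℂ} (h : IsPf Q H lm) {a b : V} (hG : G a ∈ alg Set.univ) (X : D) :
    Continuous fun p : ℝ × V => lm (Q.U 1 GF.one (-p.2) (Ps Q G a b X p.1)) := by
  have h1 := (h.cont2 N.toNet hG X).comp
    (by fun_prop : Continuous fun p : ℝ × V => (-p.2 + p.1 • b, -(p.1 • b)))
  refine h1.congr fun p => ?_
  simp only [Function.comp_apply, Ps, UU]

theorem ps_G1D {T : Ix → Ix → GF.Fld D} {J : Ix → GF.Fld D} (hJ : IsVirial Q T J)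
    {l : Fn → Completion D} (hl : IsPot Q T l) (a : V) (Ψ : D) :
    G1D a (fun i y => vj Q J i (Q.U 1 GF.one (-y) Ψ)) (fun y => vl l (Q.U 1 GF.one (-y) Ψ)) := by
  have hfld : ∀ m, Q.fld (J m) := fun m => Q.bose_fld _ (hJ.bose m)
  obtain ⟨κ, hκ⟩ := Cd.pot hl
  have hvj : ∀ i, IsPf Q H (vj Q J i) := fun i => ((Cd.field hfld i).pf N.toNet).1
  have hvl : IsPf Q H (vl l) := (hκ.pf N.toNet).1
  choose dj hdj hdj' using fun i c => (hvj i).deriv N.toNet c
  choose dl hdl hdl' using fun c => hvl.deriv N.toNet c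
  choose ddl hddl hddl' using fun (i : Ix) c => (hdl (bas i 1)).deriv N.toNet c
  have h1 : ∀ c, LD c (fun y => vl l (Q.U 1 GF.one (-y) Ψ))
    (fun y => dl c (Q.U 1 GF.one (-y) Ψ)) := fun c => hdl' c Ψ
  refine ⟨fun i c y => dj i c (Q.U 1 GF.one (-y) Ψ), fun c y => dl c (Q.U 1 GF.one (-y) Ψ),
    fun i c y => ddl i c (Q.U 1 GF.one (-y) Ψ), fun i c => hdj' i c Ψ, h1,
    fun i c => hddl' i c Ψ, fun y => ?_, fun y => ?_⟩
  · exact ld_lin (L' := fun c y => dl c (Q.U 1 GF.one (-y) Ψ)) h1 a y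
  · exact hrel N.toNet hJ hl Ψ (F' := fun i c y => dj i c (Q.U 1 GF.one (-y) Ψ))
      (L' := fun c y => dl c (Q.U 1 GF.one (-y) Ψ))
      (L'' := fun i c y => ddl i c (Q.U 1 GF.one (-y) Ψ)) (fun i c => hdj' i c Ψ) h1
      (fun i c => hddl' i c Ψ) y

/-- the light front form against a divergence -/
theorem app1 {T : Ix → Ix → GF.Fld D} {J : Ix → GF.Fld D} (hJ : IsVirial Q T J)
    {l : Fn → Completion D} (hl : IsPot Q T l) {a b : V} (haa : GF.mdot a a = 0)
    (hab : GF.mdot a b = 1) (hG : G a ∈ alg Set.univ) (X : D)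
    {Sg : V → ℝ} (hS : Tst Sg) {ψ : ℝ → ℂ} (hψ : Continuous ψ) (hψc : HasCompactSupport ψ) :
    ∫ u, ψ u * ∫ y in {y | GF.mdot a y < u}, ∑ i, (dr i Sg y : ℂ) * vj Q J i
        (Q.U 1 GF.one (-y) (Ps Q G a b X u)) =
      (∫ y : V, ψ (GF.mdot a y) * ((Sg y : ℂ) * vc Q J a (pl Q G a b X y) +
        6 * ((fderiv ℝ Sg y a : ℝ) : ℂ) * vl l (pl Q G a b X y))) -
      3 * ∫ u, ψ u * ∫ y in Hs (ml a) u, (∑ i, (eta i : ℂ) * (dr i (dr i Sg) y : ℂ)) *
        vl l (Q.U 1 GF.one (-y) (Ps Q G a b X u)) := by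
  have hfld : ∀ m, Q.fld (J m) := fun m => Q.bose_fld _ (hJ.bose m)
  obtain ⟨κ, hκ⟩ := Cd.pot hl
  have hvj : ∀ i, IsPf Q H (vj Q J i) := fun i => ((Cd.field hfld i).pf N.toNet).1
  have hvl : IsPf Q H (vl l) := (hκ.pf N.toNet).1
  have h := G1u haa hab hS hψ hψc
    (F := fun u i y => vj Q J i (Q.U 1 GF.one (-y) (Ps Q G a b X u)))
    (L := fun u y => vl l (Q.U 1 GF.one (-y) (Ps Q G a b X u)))
    (fun i => (hvj i).cont_ps N hG X) (hvl.cont_ps N hG X)
    (fun u => ps_G1D N hJ hl a _)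
  have hset : ∀ u, Hs (ml a) u = {y | GF.mdot a y < u} := by
    intro u
    ext y
    simp [Hs, ml_apply]
  simp only [hset] at h ⊢
  exact h

omit N in
lemma integrable_V {f : Mink → ℝ} (hf : Integrable f) : Integrable fun y : V => f (WithLp.toLp 2 y) := by
  exact ((EuclideanSpace.volume_preserving_symm_measurableEquiv_toLp Ix).symm.integrable_comp_emb
    (MeasurableEquiv.measurableEmbedding _)).2 hf

omit N in
lemma integral_VR (g : V → ℝ) : ∫ x : V, g x = ∫ x : Mink, g x.ofLp :=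
  ((PiLp.volume_preserving_ofLp Ix).integral_comp
    (MeasurableEquiv.toLp 2 (Ix → ℝ)).symm.measurableEmbedding g).symm

/-- uniform square integrability on the planes -/
theorem ps_L2 {T : Ix → Ix → GF.Fld D} {l : Fn → Completion D} (hl : IsPot Q T l) {a b : V}
    (hG : G a ∈ alg Set.univ) (X : D) {K : Set ℝ} (hK : IsCompact K) : ∃ C : ℝ, ∀ u ∈ K,
    Integrable (fun y => ‖vl l (Q.U 1 GF.one (-y) (Ps Q G a b X u))‖ ^ 2) ∧
      ∫ y, ‖vl l (Q.U 1 GF.one (-y) (Ps Q G a b X u))‖ ^ 2 ≤ C := by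
  obtain ⟨C, hC, hb⟩ := H846.val_L2 hl
  obtain ⟨κ, hκ⟩ := Cd.pot hl
  have hvl : IsPf Q H (vl l) := (hκ.pf N.toNet).1
  have hc : Continuous fun u : ℝ => ‖Ps Q G a b X u‖ := by
    have h1 := (cont_all N.toNet hG X).comp (by fun_prop : Continuous fun u : ℝ => -(u • b))
    have h2 : (fun u : ℝ => ‖Ps Q G a b X u‖) =
        fun u : ℝ => ‖G a (Q.U 1 GF.one (-(u • b)) X)‖ := by
      funext u
      rw [Ps, nU]
    rw [h2]
    exact h1.norm
  obtain ⟨M, hM⟩ := hK.exists_bound_of_continuousOn (f := fun u : ℝ => ‖Ps Q G a b X u‖)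
    hc.continuousOn
  refine ⟨C * M ^ 2, fun u hu => ?_⟩
  have h1 := hb (Ps Q G a b X u) (fun x : Mink => vl l (Q.U 1 GF.one (-x.ofLp) (Ps Q G a b X u)))
    (((hvl.deriv N.toNet 0).choose_spec.2 (Ps Q G a b X u)).cont.comp
      (by fun_prop : Continuous fun x : Mink => x.ofLp))
    (fun F hF => by
      rw [(hκ.pf N.toNet).2.2 F, integral_V]
      rfl)
  constructor
  · exact integrable_V h1.1
  · have h2 : ∫ y : V, ‖vl l (Q.U 1 GF.one (-y) (Ps Q G a b X u))‖ ^ 2 =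
        ∫ x : Mink, ‖vl l (Q.U 1 GF.one (-x.ofLp) (Ps Q G a b X u))‖ ^ 2 := by
      exact integral_VR (fun y : V => ‖vl l (Q.U 1 GF.one (-y) (Ps Q G a b X u))‖ ^ 2)
    rw [h2]
    refine h1.2.trans ?_
    have h3 := hM u hu
    rw [norm_norm] at h3
    gcongr

end

end Vale.Agent.P352.H755
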