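import Vale.Agent.P352.H755.R7e

/-!
# Translations off the null plane: the Ward identity of the conformal current
-/

set_option linter.all false

noncomputable section

open MeasureTheory Filter Topology Set
open scoped ContDiff ComplexConjugate

namespace Vale.Agent.P352.H755

open GF (Ix V Fn bas eta pd bar sim o)
open H246 H496 H15

variable {D : Type*} [NormedAddCommGroup D] [InnerProductSpace ℂ D] {Q : GF.Theory D}
  {T : Ix → Ix → GF.Fld D} {J : Ix → GF.Fld D} {A : (V → V) → D → D} {K : V → D → D}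

lemma bas_t (m : Ix) (t : ℝ) : bas m t = t • bas m 1 := by
  funext n; simp [bas]

lemma md_bas (a : V) (m : Ix) : GF.mdot a (bas m 1) = eta m * a m := by
  simp [GF.mdot, bas]

lemma hasDeriv_poly (a0 a1 a2 : ℝ) : HasDerivAt (fun t : ℝ => a0 + t * a1 + t ^ 2 * a2) a1 0 := by
  have h1 : HasDerivAt (fun t : ℝ => t) 1 0 := hasDerivAt_id (0:ℝ)
  have h2 : HasDerivAt (fun t : ℝ => t ^ 2) 0 0 := by
    have := hasDerivAt_pow 2 (0:ℝ)
    simpa using this
  have h : HasDerivAt (fun t : ℝ => a0 + t * a1 + t ^ 2 * a2) (1 * a1 + 0 * a2) 0 :=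
    ((h1.mul_const a1).const_add a0).add (h2.mul_const a2)
  have e : 1 * a1 + 0 * a2 = a1 := by ring
  rwa [e] at h

lemma diff_line {f : V → ℝ} (hf : ContDiff ℝ ∞ f) (m : Ix) (x : V) :
    HasDerivAt (fun t => f (x + bas m t)) (dr m f x) 0 := by
  have h1 : DifferentiableAt ℝ (fun t : ℝ => f (x + bas m t)) 0 := by
    have h2 : (fun t : ℝ => f (x + bas m t)) = fun t : ℝ => f (x + t • bas m 1) := by
      funext t; rw [bas_t]
    rw [h2]
    have h3 : ContDiff ℝ ∞ fun t : ℝ => f (x + t • bas m 1) :=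
      hf.comp (contDiff_const.add (contDiff_id.smul contDiff_const))
    exact (h3.differentiable (by simp)).differentiableAt
  exact h1.hasDerivAt

lemma dr_fd {f : V → ℝ} (hf : ContDiff ℝ ∞ f) (m : Ix) (x : V) :
    dr m f x = fderiv ℝ f x (bas m 1) := by
  have h1 := diff_line hf m x
  have h2 : HasFDerivAt f (fderiv ℝ f x) x := ((hf.differentiable (by simp)) x).hasFDerivAt
  have h3 : HasDerivAt (fun t : ℝ => x + t • bas m 1) (bas m 1) 0 := by
    simpa using ((hasDerivAt_id (0:ℝ)).smul_const (bas m 1)).const_add x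
  have h4 : HasDerivAt (fun t : ℝ => f (x + t • bas m 1)) (fderiv ℝ f x (bas m 1)) 0 := by
    have h5 : HasFDerivAt f (fderiv ℝ f x) (x + (0:ℝ) • bas m 1) := by simpa using h2
    exact h5.comp_hasDerivAt (0:ℝ) h3
  have e : (fun t : ℝ => f (x + bas m t)) = fun t : ℝ => f (x + t • bas m 1) := by
    funext t; rw [bas_t]
  rw [e] at h1
  exact h1.unique h4

lemma tst_dr {f : V → ℝ} (hf : Tst f) (m : Ix) : Tst (dr m f) := by
  have e : dr m f = fun x => fderiv ℝ f x (bas m 1) := funext fun x => dr_fd hf.1 m x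
  rw [e]
  have h1 := hf.1.fderiv_right (m := (∞ : WithTop ℕ∞)) (by simp)
  exact ⟨h1.clm_apply contDiff_const, hf.2.fderiv_apply (𝕜 := ℝ) _⟩

lemma pd_tst {g : V → ℝ} (hg : ContDiff ℝ ∞ g) (m : Ix) :
    pd m (fun x => (g x : ℂ)) = fun x => (dr m g x : ℂ) := by
  funext x
  have h := (diff_line hg m x).ofReal_comp
  exact h.deriv

lemma contDiff_cK (a : V) (n : Ix) : ContDiff ℝ ∞ fun x => cK a x n := by
  have e : (fun x => cK a x n) = fun x => (2 * GF.mdot a x) * x n -
      (∑ m, eta m * x m * x m) * a n := rfl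
  rw [e]
  have h1 := H846.contDiff_mdot a
  have h2 : ContDiff ℝ ∞ fun x : V => x n := contDiff_apply ℝ ℝ n
  simp only [Fin.sum_univ_four]
  fun_prop

lemma cK_line (a x : V) (m n : Ix) (t : ℝ) : cK a (x + bas m t) n = cK a x n +
    t * (2 * (eta m * a m) * x n + 2 * GF.mdot a x * (if n = m then 1 else 0) -
      2 * (eta m * x m) * a n) +
    t ^ 2 * (2 * (eta m * a m) * (if n = m then 1 else 0) - eta m * a n) := by
  rw [bas_t]
  unfold cK
  have h1 : GF.mdot (bas m 1) (bas m 1) = eta m := by rw [md_bas]; simp [bas]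
  have h2 : (bas m 1 : V) n = if n = m then 1 else 0 := rfl
  have h3 : (bas m 1 : V) m = 1 := by simp [bas]
  simp only [md_add, md_smul, md_add_l, md_smul_l, md_bas, h1, Pi.add_apply, Pi.sub_apply,
    Pi.smul_apply, smul_eq_mul, h2, h3]
  rw [md_comm (bas m 1) x, md_bas]
  ring

/-- the product rule for the cut off conformal current -/
lemma dr_cut {a b : V} {κ : V → ℝ} {G : ℝ → ℝ} (hκ : ContDiff ℝ ∞ κ) (hG : ContDiff ℝ ∞ G) (R : ℝ)
    (m n : Ix) (x : V) :
    dr m (fun x => cut a b κ R x * G (GF.mdot a x) * (eta n * cK a x n)) x =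
      dr m (cut a b κ R) x * G (GF.mdot a x) * (eta n * cK a x n) +
      eta m * a m * (eta n * cK a x n) * (cut a b κ R x * deriv G (GF.mdot a x)) +
      cut a b κ R x * G (GF.mdot a x) * (eta n * (2 * (eta m * a m) * x n +
        2 * GF.mdot a x * (if n = m then 1 else 0) - 2 * (eta m * x m) * a n)) := by
  have hc : ContDiff ℝ ∞ (cut a b κ R) := hκ.comp (H846.contDiff_cv a b R)
  have h1 := diff_line hc m x
  have h2 : HasDerivAt (fun t => G (GF.mdot a (x + bas m t)))
      (deriv G (GF.mdot a x) * (eta m * a m)) 0 := by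
    have e : (fun t => G (GF.mdot a (x + bas m t))) =
        fun t : ℝ => G (GF.mdot a x + t * (eta m * a m) + t ^ 2 * 0) := by
      funext t
      rw [bas_t, md_add, md_smul, md_bas, mul_zero, add_zero]
    rw [e]
    have h3 : HasDerivAt G (deriv G (GF.mdot a x))
        (GF.mdot a x + 0 * (eta m * a m) + 0 ^ 2 * 0) := by
      have := ((hG.differentiable (by simp)) (GF.mdot a x)).hasDerivAt
      simpa using this
    exact h3.comp (0:ℝ) (hasDeriv_poly (GF.mdot a x) (eta m * a m) 0)
  have h4 : HasDerivAt (fun t => cK a (x + bas m t) n) (2 * (eta m * a m) * x n +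
      2 * GF.mdot a x * (if n = m then 1 else 0) - 2 * (eta m * x m) * a n) 0 := by
    simp only [cK_line]
    exact hasDeriv_poly _ _ _
  have h5 := (h1.mul h2).mul (h4.const_mul (eta n))
  have h6 := h5.deriv
  have e0 : x + bas m 0 = x := by rw [bas_t, zero_smul, add_zero]
  unfold dr
  rw [show (fun t => cut a b κ R (x + bas m t) * G (GF.mdot a (x + bas m t)) *
      (eta n * cK a (x + bas m t) n)) = _ from rfl]
  refine h6.trans ?_
  simp only [e0, Pi.mul_apply]
  unfold dr
  ring

lemma mt_anti (hT : Q.IsStress T) {F : Ix → Ix → V → ℝ} (hF : ∀ m n, Tst (F m n))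
    (ha : ∀ m n x, F m n x = -F n m x) (w v : D) : mt T w v F = 0 := by
  have h1 : mt T w v F = mt T w v (fun m n x => -1 * F m n x) := by
    rw [mt_eq, mt_eq, Finset.sum_comm]
    refine Finset.sum_congr rfl fun m _ => Finset.sum_congr rfl fun n _ => ?_
    rw [hT.symm n m _ v (tstIs (hF n m))]
    refine congrArg (fun f => inner ℂ w (T m n f v)) ?_
    funext x
    rw [ha n m x, neg_one_mul]
  rw [mt_smul hT hF] at h1
  push_cast at h1
  linear_combination (1 / 2 : ℂ) * h1

lemma mt_cons (hT : Q.IsStress T) {f : Ix → V → ℝ} (hf : ∀ n, Tst (f n)) (w v : D) :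
    mt T w v (fun m n x => dr m (f n) x) = 0 := by
  rw [mt_eq, Finset.sum_comm]
  refine Finset.sum_eq_zero fun n _ => ?_
  rw [← inner_sum]
  have h := hT.conserved n (fun x => (f n x : ℂ)) v (tstIs (hf n))
  simp only [pd_tst (hf n).1] at h
  rw [h, inner_zero_right]

end Vale.Agent.P352.H755
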