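import Vale.Agent.P352.H755.ChInt
import Vale.Agent.P352.H755.R7f

/-!
# Commutators with cut off conformal charges: linearity, conservation
-/

set_option linter.all false

noncomputable section

open MeasureTheory Filter Topology Set
open scoped ContDiff ComplexConjugate SchwartzMap

namespace Vale.Agent.P352.H755

open GF (Ix V Fn bas eta pd bar sim o)
open H246 H496 H15
open SubConf (IsKil IsAdj)

variable {D : Type*} [NormedAddCommGroup D] [InnerProductSpace ℂ D] {Q : GF.Theory D}
  {t : Ix → Ix → GF.Fld D} {A B : GF.Fld D} {X X' : Ix → V → ℝ}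

lemma contDiff_kil (hX : IsKil X) (n : Ix) : ContDiff ℝ ∞ (X n) := by
  obtain ⟨a, b, r, w, -, h⟩ := hX
  have e : X n = fun x => a n + r * x n + ∑ m, x m * w m n + 2 * GF.mdot b x * x n -
      (∑ m, eta m * x m * x m) * b n := funext fun x => h n x
  rw [e]
  have h1 := H846.contDiff_mdot b
  have cx : ∀ m : Ix, ContDiff ℝ ∞ fun x : V => x m := fun m => contDiff_apply ℝ ℝ m
  have h2 := cx n
  have h3 := cx 0
  have h4 := cx 1
  have h5 := cx 2
  have h6 := cx 3
  simp only [Fin.sum_univ_four]
  fun_prop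

lemma t_lin (ht : IsT Q t) {F G : V → ℝ} (hF : Tst F) (hG : Tst G) (c : ℝ) (m n : Ix) (v : D) :
    t m n (fun x => ((F x + c * G x : ℝ) : ℂ)) v =
      t m n (fun x => (F x : ℂ)) v + (c : ℂ) • t m n (fun x => (G x : ℂ)) v := by
  have h := ht.lin m n (fun x => (F x : ℂ)) (fun x => (G x : ℂ)) c v (tstIs hF) (tstIs hG)
  have e : (fun x => ((F x + c * G x : ℝ) : ℂ)) =
      fun x => (F x : ℂ) + (c : ℂ) * (G x : ℂ) := by
    funext x; push_cast; ring
  rw [e, h]

lemma t_zero (ht : IsT Q t) (m n : Ix) (v : D) : t m n (fun _ => ((0 : ℝ) : ℂ)) v = 0 := by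
  have h := t_lin ht (F := fun _ => 0) (G := fun _ => 0) tst_zero tst_zero 1 m n v
  simp only [mul_zero, add_zero, Complex.ofReal_one, one_smul] at h
  simpa using h

/-- smeared tensor fields -/
def smt (t : Ix → Ix → GF.Fld D) (F : Ix → Ix → V → ℝ) (v : D) : D :=
  ∑ m, ∑ n, t m n (fun x => (F m n x : ℂ)) v

lemma smt_add (ht : IsT Q t) {F G : Ix → Ix → V → ℝ} (hF : ∀ m n, Tst (F m n))
    (hG : ∀ m n, Tst (G m n)) (c : ℝ) (v : D) :
    smt t (fun m n x => F m n x + c * G m n x) v = smt t F v + (c : ℂ) • smt t G v := by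
  unfold smt
  rw [Finset.smul_sum, ← Finset.sum_add_distrib]
  refine Finset.sum_congr rfl fun m _ => ?_
  rw [Finset.smul_sum, ← Finset.sum_add_distrib]
  exact Finset.sum_congr rfl fun n _ => t_lin ht (hF m n) (hG m n) c m n v

lemma smt_anti (ht : IsT Q t) {F : Ix → Ix → V → ℝ} (hF : ∀ m n, Tst (F m n))
    (ha : ∀ m n x, F m n x = -F n m x) (v : D) : smt t F v = 0 := by
  have h1 : smt t F v = smt t (fun m n x => (0 : ℝ) + (-1) * F m n x) v := by
    unfold smt
    rw [Finset.sum_comm]
    refine Finset.sum_congr rfl fun m _ => Finset.sum_congr rfl fun n _ => ?_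
    rw [ht.symm n m _ v (tstIs (hF n m))]
    refine congrArg (fun f => t m n f v) ?_
    funext x
    rw [ha n m x]
    push_cast
    ring
  have h2 : smt t (fun m n x => (0 : ℝ) + (-1) * F m n x) v = -smt t F v := by
    rw [smt_add ht (F := fun _ _ _ => 0) (fun _ _ => tst_zero) hF]
    have h3 : smt t (fun _ _ _ => (0 : ℝ)) v = 0 := by
      unfold smt
      exact Finset.sum_eq_zero fun m _ => Finset.sum_eq_zero fun n _ => t_zero ht m n v
    rw [h3]
    simp
  rw [h2] at h1
  have h4 : (2 : ℂ) • smt t F v = 0 := by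
    rw [two_smul]
    nth_rewrite 1 [h1]
    exact neg_add_cancel _
  exact (smul_eq_zero.1 h4).resolve_left two_ne_zero

lemma smt_tr (ht : IsT Q t) {g : V → ℝ} (hg : Tst g) (v : D) :
    smt t (fun m n x => (if n = m then eta n else 0) * g x) v = 0 := by
  rw [← ht.traceless (fun x => (g x : ℂ)) v (tstIs hg)]
  unfold smt
  refine Finset.sum_congr rfl fun m _ => ?_
  rw [Finset.sum_eq_single m]
  · have h := t_lin ht (F := fun _ => 0) tst_zero hg (eta m) m m v
    rw [t_zero ht, zero_add] at h
    rw [← h]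
    refine congrArg (fun f => t m m f v) ?_
    funext x
    simp
  · intro n _ hn
    have e : (fun x => (((if n = m then eta n else 0) * g x : ℝ) : ℂ)) =
        fun _ => ((0 : ℝ) : ℂ) := by
      funext x; simp [hn]
    rw [e, t_zero ht]
  · intro hm; exact absurd (Finset.mem_univ m) hm

lemma smt_cons (ht : IsT Q t) {f : Ix → V → ℝ} (hf : ∀ n, Tst (f n)) (v : D) :
    smt t (fun m n x => dr m (f n) x) v = 0 := by
  unfold smt
  rw [Finset.sum_comm]
  refine Finset.sum_eq_zero fun n _ => ?_
  have h := ht.conserved n (fun x => (f n x : ℂ)) v (tstIs (hf n))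
  simp only [pd_tst (hf n).1] at h
  exact h

/-- the derivatives of a conformal Killing field -/
lemma kil_line {a b : V} {r : ℝ} {w : Ix → V} (h : ∀ n x, X n x = a n + r * x n +
    ∑ m, x m * w m n + 2 * GF.mdot b x * x n - GF.mdot x x * b n) (m n : Ix) (x : V) (s : ℝ) :
    X n (x + bas m s) = X n x + s * (r * (if n = m then 1 else 0) + w m n +
      2 * (eta m * b m) * x n + 2 * GF.mdot b x * (if n = m then 1 else 0) -
      2 * (eta m * x m) * b n) +
      s ^ 2 * (2 * (eta m * b m) * (if n = m then 1 else 0) - eta m * b n) := by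
  rw [h, h, bas_t]
  have h1 : GF.mdot (bas m 1) (bas m 1) = eta m := by rw [md_bas]; simp [bas]
  have h2 : (bas m 1 : V) n = if n = m then 1 else 0 := rfl
  have h3 : (bas m 1 : V) m = 1 := by simp [bas]
  have h4 : ∑ k, (x + s • bas m 1) k * w k n = ∑ k, x k * w k n + s * w m n := by
    simp only [Pi.add_apply, Pi.smul_apply, smul_eq_mul, add_mul, Finset.sum_add_distrib]
    congr 1
    rw [Finset.sum_eq_single m]
    · rw [h3]; ring
    · intro k _ hk
      simp [bas, hk]
    · intro hm; exact absurd (Finset.mem_univ m) hm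
  rw [h4]
  simp only [md_add, md_smul, md_add_l, md_smul_l, md_bas, h1, Pi.add_apply, Pi.sub_apply,
    Pi.smul_apply, smul_eq_mul, h2, h3]
  rw [md_comm (bas m 1) x, md_bas]
  ring

lemma kil_dr {a b : V} {r : ℝ} {w : Ix → V} (h : ∀ n x, X n x = a n + r * x n +
    ∑ m, x m * w m n + 2 * GF.mdot b x * x n - GF.mdot x x * b n) (m n : Ix) (x : V) :
    HasDerivAt (fun s => X n (x + bas m s)) (r * (if n = m then 1 else 0) + w m n +
      2 * (eta m * b m) * x n + 2 * GF.mdot b x * (if n = m then 1 else 0) -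
      2 * (eta m * x m) * b n) 0 := by
  simp only [kil_line h]
  exact hasDeriv_poly _ _ _

/-- conservation of the current `X^n t_mn` -/
lemma kil_cons (ht : IsT Q t) (hX : IsKil X) {g : V → ℝ} (hg : Tst g) (v : D) :
    smt t (fun m n x => eta n * X n x * dr m g x) v = 0 := by
  have hXc := contDiff_kil hX
  obtain ⟨a, b, r, w, hw, h⟩ := hX
  have cx : ∀ m : Ix, ContDiff ℝ ∞ fun x : V => x m := fun m => contDiff_apply ℝ ℝ m
  have cb := H846.contDiff_mdot b
  have t0 : ∀ n, Tst fun x => eta n * X n x * g x := fun n =>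
    tst_smul (contDiff_const.mul (hXc n)) hg
  have z0 := smt_cons ht t0 v
  have t1 : Tst fun x => (r + 2 * GF.mdot b x) * g x :=
    tst_smul (by fun_prop) hg
  have z1 := smt_tr ht t1 v
  have t2 : ∀ m n, Tst fun x => (eta n * w m n + 2 * (eta m * eta n) * (b m * x n - x m * b n)) *
      g x := fun m n => by
    have c1 := cx m
    have c2 := cx n
    exact tst_smul (by fun_prop) hg
  have z2 := smt_anti ht t2 (fun m n x => by
    have := hw m n
    linear_combination (g x) * this) v
  have t1' : ∀ m n : Ix, Tst fun x => (if n = m then eta n else 0) *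
      ((r + 2 * GF.mdot b x) * g x) := fun m n => tst_smul contDiff_const t1
  have e : (fun m n x => eta n * X n x * dr m g x) = fun m n x =>
      dr m (fun x => eta n * X n x * g x) x + (-1) * ((if n = m then eta n else 0) *
      ((r + 2 * GF.mdot b x) * g x)) + (-1) * ((eta n * w m n + 2 * (eta m * eta n) *
      (b m * x n - x m * b n)) * g x) := by
    funext m n x
    have h1 := kil_dr h m n x
    have h2 := diff_line hg.1 m x
    have h3 := ((h1.const_mul (eta n)).mul h2).deriv
    have e0 : x + bas m 0 = x := by rw [bas_t, zero_smul, add_zero]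
    have h4 : dr m (fun x => eta n * X n x * g x) x = _ := h3
    rw [h4]
    simp only [e0]
    have h5 : dr m g x = deriv (fun s => g (x + bas m s)) 0 := rfl
    split_ifs with hnm
    · subst hnm
      ring
    · ring
  have hd : ∀ m n, Tst fun x => dr m (fun x => eta n * X n x * g x) x := fun m n => tst_dr (t0 n) m
  have s1 : ∀ m n, Tst fun x => dr m (fun x => eta n * X n x * g x) x + (-1) *
      ((if n = m then eta n else 0) * ((r + 2 * GF.mdot b x) * g x)) := fun m n =>
    ⟨(hd m n).1.add (contDiff_const.mul (t1' m n).1), (hd m n).2.add (t1' m n).2.mul_left⟩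
  rw [e, smt_add ht s1 t2, smt_add ht hd t1', z0, z1, z2]
  simp

end Vale.Agent.P352.H755
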