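import Vale.Agent.P352.H755.ChB

/-!
# Commutators with cut off conformal charges: independence of the cutoff
-/

set_option linter.all false

noncomputable section

open MeasureTheory Filter Topology Set
open scoped ContDiff ComplexConjugate SchwartzMap

namespace Vale.Agent.P352.H755

open GF (Ix V Fn bas eta pd bar sim o)
open H246 H496 H15
open SubConf (IsKil IsAdj)

variable {D : Type*} [NormedAddCommGroup D] [InnerProductSpace ℂ D] {Q : GF.Theory D}
  {t : Ix → Ix → GF.Fld D} {A B : GF.Fld D} {X X' : Ix → V → ℝ}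

lemma kil_tst (hX : IsKil X) {g : V → ℝ} (hg : Tst g) (n : Ix) :
    Tst fun x => eta n * X n x * g x :=
  tst_smul (contDiff_const.mul (contDiff_kil hX n)) hg

lemma fadd (hA : Q.fld A) {f : Fn} (hf : GF.IsTest f) (v w : D) : A f (v + w) = A f v + A f w := by
  obtain ⟨F, rfl⟩ := exists_fl hf
  exact fld_add hA F v w

lemma fsmul (hA : Q.fld A) {f : Fn} (hf : GF.IsTest f) (c : ℂ) (v : D) :
    A f (c • v) = c • A f v := by
  obtain ⟨F, rfl⟩ := exists_fl hf
  exact fld_smul hA F c v

lemma fzero (hA : Q.fld A) {f : Fn} (hf : GF.IsTest f) : A f (0 : D) = 0 := by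
  have h := fsmul hA hf 0 (0 : D)
  simpa using h

lemma fneg (hA : Q.fld A) {f : Fn} (hf : GF.IsTest f) (v : D) : A f (-v) = -A f v := by
  have h := fsmul hA hf (-1) v
  simpa using h

lemma fsum (hA : Q.fld A) {f : Fn} (hf : GF.IsTest f) {ι : Type*} (s : Finset ι) (v : ι → D) :
    A f (∑ i ∈ s, v i) = ∑ i ∈ s, A f (v i) := by
  classical
  induction s using Finset.induction_on with
  | empty => simpa using fzero hA hf
  | insert a s ha ih => rw [Finset.sum_insert ha, Finset.sum_insert ha, fadd hA hf, ih]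

/-- the commutator is additive in the cutoff -/
lemma com_add (ht : IsT Q t) (hA : Q.fld A) (hX : IsKil X) {f : Fn} (hf : GF.IsTest f)
    {g g' : V → ℝ} (hg : Tst g) (hg' : Tst g') (c : ℝ) (v : D) :
    com t X (fun x => g x + c * g' x) A f v = com t X g A f v + (c : ℂ) • com t X g' A f v := by
  have h : ∀ n (v : D), t o n (fun x => (eta n * X n x * (g x + c * g' x) : ℝ)) v =
      t o n (fun x => (eta n * X n x * g x : ℝ)) v +
        (c : ℂ) • t o n (fun x => (eta n * X n x * g' x : ℝ)) v := by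
    intro n v
    rw [← t_lin ht (kil_tst hX hg n) (kil_tst hX hg' n)]
    refine congrArg (fun f => t o n f v) ?_
    funext x
    congr 1
    ring
  unfold com
  simp only [h, Finset.sum_add_distrib, ← Finset.smul_sum]
  rw [fadd hA hf, fsmul hA hf, smul_sub]
  abel

/-- the commutator vanishes for cutoffs at spacelike distance -/
lemma com_sep (ht : IsT Q t) (hA : Q.fld A) (hX : IsKil X) {f : Fn} (hf : GF.IsTest f)
    {g : V → ℝ} (hg : Tst g)
    (hs : ∀ x ∈ tsupport g, ∀ y ∈ tsupport f,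
      GF.mdot (fun m => x m - y m) (fun m => x m - y m) < 0) (v : D) :
    com t X g A f v = 0 := by
  unfold com
  rw [fsum hA hf, ← Finset.sum_sub_distrib]
  refine Finset.sum_eq_zero fun n _ => ?_
  rw [ht.loc o n A _ f v hA (tstIs (kil_tst hX hg n)) hf, sub_self]
  intro x hx y hy
  refine hs x ?_ y hy
  have h1 : tsupport (fun x => ((eta n * X n x * g x : ℝ) : ℂ)) ⊆ tsupport g := by
    refine closure_mono fun z hz => ?_
    rw [Function.mem_support] at hz ⊢
    intro h
    exact hz (by rw [h]; simp)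
  exact h1 hx

/-- the spatial part -/
def sp (x : V) : V := fun n => if n = o then 0 else x n

/-- spatial distance -/
lemma sp_far {M R : ℝ} (hM : 0 ≤ M) (hR : 3 * M + 1 ≤ R) {x y : V} (hx0 : |x o| ≤ M)
    (hx : R ≤ ‖sp x‖) (hy : ∀ i, |y i| ≤ M) :
    GF.mdot (fun m => x m - y m) (fun m => x m - y m) < 0 := by
  obtain ⟨i, hi⟩ : ∃ i, R ≤ ‖sp x i‖ := by
    by_contra hne
    push Not at hne
    have hR0 : 0 < R := by linarith
    have := (pi_norm_lt_iff hR0).2 hne
    linarith
  have hio : i ≠ o := by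
    rintro rfl
    simp [sp] at hi
    linarith
  have hi' : R ≤ |x i| := by simpa [sp, hio] using hi
  have h1 : 2 * M + 1 ≤ |x i - y i| := by
    have := abs_sub_abs_le_abs_sub (x i) (y i)
    have := hy i
    linarith
  have h2 : |x o - y o| ≤ 2 * M := by
    have := abs_sub (x o) (y o)
    have := hy o
    linarith [abs_sub_abs_le_abs_sub (x o) (y o), abs_sub_le (x o) 0 (y o),
      abs_neg (y o), (by simp : |x o - 0| = |x o|), (by simp : |0 - y o| = |y o|)]
  have h3 : (x o - y o) ^ 2 ≤ (2 * M) ^ 2 := by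
    rw [← sq_abs]
    exact pow_le_pow_left₀ (abs_nonneg _) h2 2
  have h4 : (2 * M + 1) ^ 2 ≤ (x i - y i) ^ 2 := by
    rw [← sq_abs (x i - y i)]
    exact pow_le_pow_left₀ (by linarith) h1 2
  have h5 : (2 * M) ^ 2 < (2 * M + 1) ^ 2 := by nlinarith
  have h0 : (x o - y o) ^ 2 = (x 0 - y 0) ^ 2 := rfl
  simp only [GF.mdot, Fin.sum_univ_four, eta, o, ↓reduceIte, Fin.isValue, one_ne_zero,
    Fin.reduceEq]
  rw [h0] at h3
  fin_cases i
  · exact absurd rfl hio
  · simp only [Fin.isValue, Fin.mk_one, Fin.reduceFinMk] at h4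
    nlinarith [sq_nonneg (x 2 - y 2), sq_nonneg (x 3 - y 3)]
  · simp only [Fin.isValue, Fin.mk_one, Fin.reduceFinMk] at h4
    nlinarith [sq_nonneg (x 1 - y 1), sq_nonneg (x 3 - y 3)]
  · simp only [Fin.isValue, Fin.mk_one, Fin.reduceFinMk] at h4
    nlinarith [sq_nonneg (x 1 - y 1), sq_nonneg (x 2 - y 2)]

end Vale.Agent.P352.H755
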