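import Vale.Agent.P352.H755.ChE
import Vale.Agent.P352.H246.Dil
import Mathlib.Analysis.Calculus.Deriv.Star

/-!
# Operations on local fields defined on test functions with compact support
-/

set_option linter.all false

noncomputable section

open MeasureTheory Filter Topology Set
open scoped ContDiff ComplexConjugate SchwartzMap LineDeriv

namespace Vale.Agent.P352.H755

open GF (Ix V Fn bas eta pd bar sim o)
open H246 H496 H15
open SubConf (IsKil IsAdj)

variable {D : Type*} [NormedAddCommGroup D] [InnerProductSpace ℂ D] {Q : GF.Theory D}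
  {t : Ix → Ix → GF.Fld D} {A B : GF.Fld D} {X X' : Ix → V → ℝ}

/-- real functions that act on Schwartz space by multiplication -/
def Mq (q : V → ℝ) : Prop := ContDiff ℝ ∞ q ∧ ∃ M : 𝓢(Mink, ℂ) →L[ℂ] 𝓢(Mink, ℂ), ∀ F,
  fl (M F) = fun x => (q x : ℂ) * fl F x

lemma Mq.const (c : ℝ) : Mq fun _ => c := by
  refine ⟨contDiff_const, (c : ℂ) • ContinuousLinearMap.id ℂ _, fun F => ?_⟩
  funext x
  simp [fl_apply]

lemma Mq.coord (m : Ix) : Mq fun x => x m := by
  refine ⟨contDiff_apply ℝ ℝ m, Xm m, fun F => ?_⟩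
  funext x
  simp [fl_apply]

lemma Mq.add {q q' : V → ℝ} (h : Mq q) (h' : Mq q') : Mq fun x => q x + q' x := by
  obtain ⟨h1, M, hM⟩ := h
  obtain ⟨h1', M', hM'⟩ := h'
  refine ⟨h1.add h1', M + M', fun F => ?_⟩
  funext x
  have e1 := congrFun (hM F) x
  have e2 := congrFun (hM' F) x
  simp only [fl_apply] at e1 e2 ⊢
  rw [ContinuousLinearMap.add_apply, SchwartzMap.add_apply, e1, e2]
  push_cast
  ring

lemma Mq.mul {q q' : V → ℝ} (h : Mq q) (h' : Mq q') : Mq fun x => q x * q' x := by
  obtain ⟨h1, M, hM⟩ := h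
  obtain ⟨h1', M', hM'⟩ := h'
  refine ⟨h1.mul h1', M.comp M', fun F => ?_⟩
  funext x
  have e1 := congrFun (hM (M' F)) x
  have e2 := congrFun (hM' F) x
  simp only [fl_apply] at e1 e2 ⊢
  rw [ContinuousLinearMap.comp_apply, e1, e2]
  push_cast
  ring

lemma Mq.congr {q q' : V → ℝ} (h : Mq q) (e : ∀ x, q' x = q x) : Mq q' := by
  have : q' = q := funext e
  rw [this]; exact h

lemma Mq.sum {q : Ix → V → ℝ} (h : ∀ m, Mq (q m)) : Mq fun x => ∑ m, q m x := by
  simp only [Fin.sum_univ_four]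
  exact (((h 0).add (h 1)).add (h 2)).add (h 3)

lemma Mq.mdot (b : V) : Mq fun x => GF.mdot b x :=
  Mq.sum fun m => (Mq.const (eta m * b m)).mul (Mq.coord m)

lemma Mq.mdots : Mq fun x => GF.mdot x x :=
  Mq.sum fun m => ((Mq.const (eta m)).mul (Mq.coord m)).mul (Mq.coord m)

lemma Mq.kil (hX : IsKil X) (n : Ix) : Mq (X n) := by
  obtain ⟨a, b, r, w, -, h⟩ := hX
  have h1 : Mq fun x => a n + r * x n + ∑ m, x m * w m n + (2 * GF.mdot b x) * x n +
      (-1) * GF.mdot x x * b n :=
    ((((Mq.const (a n)).add ((Mq.const r).mul (Mq.coord n))).add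
      (Mq.sum fun m => (Mq.coord m).mul (Mq.const (w m n)))).add
      (((Mq.const 2).mul (Mq.mdot b)).mul (Mq.coord n))).add
      (((Mq.const (-1)).mul Mq.mdots).mul (Mq.const (b n)))
  refine h1.congr fun x => ?_
  rw [h]; ring

lemma cs_mul {f : Fn} (hf : CS f) {q : V → ℝ} (hq : Mq q) : CS fun x => (q x : ℂ) * f x := by
  obtain ⟨-, M, hM⟩ := hq
  constructor
  · obtain ⟨F, rfl⟩ := exists_fl hf.1
    rw [← hM]
    exact isTest_fl _
  · exact hf.2.mul_left

lemma tsupport_mul {f : Fn} (q : V → ℝ) : tsupport (fun x => (q x : ℂ) * f x) ⊆ tsupport f := by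
  refine closure_mono fun x hx => ?_
  rw [Function.mem_support] at hx ⊢
  intro h
  exact hx (by rw [h, mul_zero])

lemma tsupport_pd {f : Fn} (n : Ix) : tsupport (pd n f) ⊆ tsupport f := by
  refine closure_minimal ?_ (isClosed_tsupport f)
  intro x hx
  by_contra hne
  apply hx
  have h1 : f =ᶠ[𝓝 x] fun _ => 0 := notMem_tsupport_iff_eventuallyEq.1 hne
  have h2 : ∀ᶠ s in 𝓝 (0:ℝ), f (fun k => x k + bas n s k) = 0 := by
    have hc : Tendsto (fun s : ℝ => (fun k => x k + bas n s k : V)) (𝓝 0) (𝓝 x) := by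
      have h3 : Continuous fun s : ℝ => (fun k => x k + bas n s k : V) := by
        refine continuous_pi fun k => ?_
        unfold bas
        by_cases hk : k = n
        · simp only [hk, if_true]; fun_prop
        · simp only [hk, if_false]; fun_prop
      have h4 := h3.tendsto 0
      have h5 : (fun k => x k + bas n 0 k : V) = x := by
        funext k; simp [bas]
      rwa [h5] at h4
    exact hc.eventually h1
  unfold pd
  have h6 : (fun s : ℝ => f (fun k => x k + bas n s k)) =ᶠ[𝓝 0] fun _ => 0 := h2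
  rw [h6.deriv_eq]
  simp

lemma cs_pd {f : Fn} (hf : CS f) (n : Ix) : CS (pd n f) := by
  constructor
  · obtain ⟨F, rfl⟩ := exists_fl hf.1
    rw [pd_fl]
    exact isTest_fl _
  · exact hf.2.of_isClosed_subset (isClosed_tsupport _) (tsupport_pd n)

lemma cs_add {f f' : Fn} (hf : CS f) (hf' : CS f') (c : ℂ) : CS fun x => f x + c * f' x := by
  constructor
  · obtain ⟨F, rfl⟩ := exists_fl hf.1
    obtain ⟨F', rfl⟩ := exists_fl hf'.1
    rw [fl_add_smul]
    exact isTest_fl _
  · exact hf.2.add hf'.2.mul_left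

lemma bar_mul (q : V → ℝ) (f : Fn) : bar (fun x => (q x : ℂ) * f x) = fun x => (q x : ℂ) * bar f x := by
  funext x; simp [bar]

lemma bar_pd {f : Fn} (hf : GF.IsTest f) (n : Ix) : bar (pd n f) = pd n (bar f) := by
  obtain ⟨F, rfl⟩ := exists_fl hf
  have h1 : HasDerivAt (fun s : ℝ => (1 : ℂ)) 0 0 := hasDerivAt_const _ _
  funext x
  unfold bar pd
  have h2 : ∀ g : ℝ → ℂ, star (deriv g 0) = deriv (fun s => star (g s)) 0 := fun g =>
    (deriv.star (f := g) (x := (0:ℝ))).symm
  exact h2 _

/-- the field `A` itself -/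
theorem CField.base (hA : Q.fld A) (hB : Q.fld B) (hAB : IsAdj A B) : CField Q A A B where
  linf f g c v hf hg := Q.lin A f g c v hA hf.1 hg.1
  linv f c v w hf := by rw [fadd hA hf.1, fsmul hA hf.1]
  bdd v := by
    let L : 𝓢(Mink, ℂ) →L[ℂ] D :=
      { toFun := fun F => A (fl F) v
        map_add' := fun F G => by
          have := fld_lin hA F G 1 v
          simpa using this
        map_smul' := fun c F => by
          have h0 := fld_lin hA 0 F c v
          have h1 : A (fl (0 : 𝓢(Mink, ℂ))) v = 0 := by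
            have := fld_lin hA 0 0 (-1) v
            simpa using this
          simpa [h1] using h0
        cont := fld_cont hA v }
    refine ⟨(normSeminorm ℂ D).comp L.toLinearMap, ?_, fun F _ => le_rfl⟩
    exact (continuous_norm.comp L.continuous)
  adj f v w hf := hAB f v w hf.1
  loc C f g v hC h hf hg hs := by
    rcases h with h | h
    · exact Q.loc A C f g v h hC hf.1 hg.1 hs
    · refine (Q.loc C A g f v h hA hg.1 hf.1 fun x hx y hy => ?_).symm
      have := hs y hy x hx
      have e : GF.mdot (fun m => x m - y m) (fun m => x m - y m) =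
          GF.mdot (fun m => y m - x m) (fun m => y m - x m) := by
        unfold GF.mdot
        exact Finset.sum_congr rfl fun m _ => by ring
      rw [e]; exact this

theorem CField.add {P P' R R' : GF.Fld D} (h : CField Q A P P') (h' : CField Q A R R') (c : ℝ)
    (hlin : ∀ C f v w, Q.fld C → GF.IsTest f → C f (v + w) = C f v + C f w := fun _ _ _ _ hC hf =>
      fadd hC hf _ _) :
    CField Q A (fun f v => P f v + (c : ℂ) • R f v) (fun f v => P' f v + (c : ℂ) • R' f v) where
  linf f g d v hf hg := by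
    rw [h.linf f g d v hf hg, h'.linf f g d v hf hg, smul_add, smul_add, smul_comm (c : ℂ) d]
    abel
  linv f d v w hf := by
    rw [h.linv f d v w hf, h'.linv f d v w hf, smul_add, smul_add, smul_comm (c : ℂ) d]
    abel
  bdd v := by
    obtain ⟨p, hp, hp'⟩ := h.bdd v
    obtain ⟨r, hr, hr'⟩ := h'.bdd v
    refine ⟨p + (Real.toNNReal |c|) • r, ?_, fun F hF => ?_⟩
    · exact hp.add (hr.const_smul _)
    · refine (norm_add_le _ _).trans (add_le_add (hp' F hF) ?_)
      rw [norm_smul, Complex.norm_real, Real.norm_eq_abs]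
      refine (mul_le_mul_of_nonneg_left (hr' F hF) (abs_nonneg c)).trans (le_of_eq ?_)
      rw [Seminorm.smul_apply, NNReal.smul_def, Real.coe_toNNReal _ (abs_nonneg c), smul_eq_mul]
  adj f v w hf := by
    rw [inner_add_left, inner_add_right, inner_smul_left, inner_smul_right, h.adj f v w hf,
      h'.adj f v w hf, Complex.conj_ofReal]
  loc C f g v hC hb hf hg hs := by
    rw [h.loc C f g v hC hb hf hg hs, h'.loc C f g v hC hb hf hg hs, fadd hC hg.1, fsmul hC hg.1]

theorem CField.mul {P P' : GF.Fld D} (h : CField Q A P P') {q : V → ℝ} (hq : Mq q) :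
    CField Q A (fun f => P fun x => (q x : ℂ) * f x) (fun f => P' fun x => (q x : ℂ) * f x) where
  linf f g d v hf hg := by
    rw [← h.linf _ _ d v (cs_mul hf hq) (cs_mul hg hq)]
    congr 1
    funext x
    ring
  linv f d v w hf := h.linv _ d v w (cs_mul hf hq)
  bdd v := by
    obtain ⟨p, hp, hp'⟩ := h.bdd v
    obtain ⟨-, M, hM⟩ := hq
    refine ⟨p.comp M.toLinearMap, hp.comp M.continuous, fun F hF => ?_⟩
    have h1 := hp' (M F) (by rw [hM]; exact hF.mul_left)
    rw [hM] at h1
    exact h1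
  adj f v w hf := by
    rw [h.adj _ v w (cs_mul hf hq), bar_mul]
  loc C f g v hC hb hf hg hs :=
    h.loc C _ g v hC hb (cs_mul hf hq) hg fun x hx y hy => hs x (tsupport_mul q hx) y hy

theorem CField.pd {P P' : GF.Fld D} (h : CField Q A P P') (n : Ix) :
    CField Q A (fun f => P (pd n f)) (fun f => P' (pd n f)) where
  linf f g d v hf hg := by
    rw [← h.linf _ _ d v (cs_pd hf n) (cs_pd hg n)]
    congr 1
    obtain ⟨F, rfl⟩ := exists_fl hf.1
    obtain ⟨G, rfl⟩ := exists_fl hg.1
    rw [fl_add_smul, pd_fl, pd_fl, pd_fl, fl_add_smul]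
    congr 1
    rw [LineDeriv.lineDerivOp_add, LineDeriv.lineDerivOp_smul]
  linv f d v w hf := h.linv _ d v w (cs_pd hf n)
  bdd v := by
    obtain ⟨p, hp, hp'⟩ := h.bdd v
    refine ⟨p.comp (LineDeriv.lineDerivOpCLM ℂ 𝓢(Mink, ℂ) (eb n)).toLinearMap,
      hp.comp (LineDeriv.lineDerivOpCLM ℂ 𝓢(Mink, ℂ) (eb n)).continuous, fun F hF => ?_⟩
    have h0 : CS (fl F) := ⟨isTest_fl F, hF⟩
    have h1 := hp' (∂_{eb n} F) (by rw [← pd_fl]; exact (cs_pd h0 n).2)
    rw [← pd_fl] at h1
    exact h1
  adj f v w hf := by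
    rw [h.adj _ v w (cs_pd hf n), bar_pd hf.1]
  loc C f g v hC hb hf hg hs :=
    h.loc C _ g v hC hb (cs_pd hf n) hg fun x hx y hy => hs x (tsupport_pd n hx) y hy

end Vale.Agent.P352.H755
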