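import Vale.Agent.P352.H755.ChF

/-!
# The fields `S_mn A` and `K_m A` on test functions with compact support
-/

set_option linter.all false

noncomputable section

open MeasureTheory Filter Topology Set
open scoped ContDiff ComplexConjugate SchwartzMap LineDeriv

namespace Vale.Agent.P352.H755

open GF (Ix V Fn bas eta pd bar sim o)
open H246 H496 H15
open SubConf (IsKil IsAdj)

variable {D : Type*} [NormedAddCommGroup D] [InnerProductSpace ℂ D] {Q : GF.Theory D}
  {t : Ix → Ix → GF.Fld D} {A B : GF.Fld D} {X X' : Ix → V → ℝ}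

/-- the remaining rows -/
structure Rows (Q : GF.Theory D) (t : Ix → Ix → GF.Fld D) : Prop where
  bdd : ∀ A X v, Q.fld A → IsKil X → ∃ p : Seminorm ℂ 𝓢(Mink, ℂ), Continuous p ∧
    ∀ F : 𝓢(Mink, ℂ), HasCompactSupport (fl F) → ‖Phi t X A (fl F) v‖ ≤ p F
  loc : ∀ A X C f g v, Q.fld A → IsKil X → Q.fld C → (Q.bose A ∨ Q.bose C) → CS f → CS g →
    GF.Sep f g → Phi t X A f (C g v) = C g (Phi t X A f v)

lemma CField.congr {P P' R R' : GF.Fld D} (h : CField Q A P P') (e : ∀ f v, R f v = P f v)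
    (e' : ∀ f v, R' f v = P' f v) : CField Q A R R' := by
  have h1 : R = P := funext fun f => funext fun v => e f v
  have h2 : R' = P' := funext fun f => funext fun v => e' f v
  rw [h1, h2]; exact h

lemma CField.sum {P P' : Ix → GF.Fld D} (h : ∀ n, CField Q A (P n) (P' n)) :
    CField Q A (fun f v => ∑ n, P n f v) (fun f v => ∑ n, P' n f v) := by
  refine ((((h 0).add (h 1) 1).add (h 2) 1).add (h 3) 1).congr (fun f v => ?_) (fun f v => ?_) <;>
  simp [Fin.sum_univ_four]

lemma CField.zero' (hA : Q.fld A) (hB : Q.fld B) (hAB : IsAdj A B) :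
    CField Q A (fun _ _ => 0) (fun _ _ => 0) :=
  ((CField.base hA hB hAB).add (CField.base hA hB hAB) (-1)).congr (fun f v => by simp)
    (fun f v => by simp)

lemma CField.smul {P P' : GF.Fld D} (h : CField Q A P P') (hA : Q.fld A) (hB : Q.fld B)
    (hAB : IsAdj A B) (c : ℝ) :
    CField Q A (fun f v => (c : ℂ) • P f v) (fun f v => (c : ℂ) • P' f v) :=
  ((CField.zero' hA hB hAB).add h c).congr (fun f v => by simp) (fun f v => by simp)

lemma phi_cf (ht : IsT Q t) (hR : Rows Q t) (hA : Q.fld A) (hB : Q.fld B) (hAB : IsAdj A B)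
    (hX : IsKil X) : CField Q A (fun f v => Complex.I • Phi t X A f v)
      (fun f v => Complex.I • Phi t X B f v) where
  linf f g c v hf hg := by
    rw [phi_linf ht hA hX hf hg, smul_add, smul_comm Complex.I c]
  linv f c v w hf := by
    rw [phi_linv ht hA hX hf, smul_add, smul_comm Complex.I c]
  bdd v := by
    obtain ⟨p, hp, hp'⟩ := hR.bdd A X v hA hX
    refine ⟨p, hp, fun F hF => ?_⟩
    rw [norm_smul, Complex.norm_I, one_mul]
    exact hp' F hF
  adj f v w hf := by
    rw [inner_smul_left, inner_smul_right, phi_adj ht hA hB hAB hX hf, Complex.conj_I]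
    ring
  loc C f g v hC hb hf hg hs := by
    rw [hR.loc A X C f g v hA hX hC hb hf hg hs, fsmul hC hg.1]

/-- `i[Q_X, A] + ∂_n(X^n A)` -/
def Sg (t : Ix → Ix → GF.Fld D) (X : Ix → V → ℝ) (A : GF.Fld D) : GF.Fld D := fun f v =>
  ∑ n, A (pd n fun x => (X n x : ℂ) * f x) v + Complex.I • Phi t X A f v

lemma sg_cf (ht : IsT Q t) (hR : Rows Q t) (hA : Q.fld A) (hB : Q.fld B) (hAB : IsAdj A B)
    (hX : IsKil X) : CField Q A (Sg t X A) (Sg t X B) :=
  ((CField.sum fun n => ((CField.base hA hB hAB).pd n).mul (Mq.kil hX n)).add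
    (phi_cf ht hR hA hB hAB hX) 1).congr (fun f v => by simp [Sg]) (fun f v => by simp [Sg])

lemma a_lin (hA : Q.fld A) {f g : Fn} (hf : CS f) (hg : CS g) (c : ℂ) (n : Ix) (v : D) :
    A (pd n fun x => f x + c * g x) v = A (pd n f) v + c • A (pd n g) v := by
  rw [← Q.lin A _ _ c v hA (cs_pd hf n).1 (cs_pd hg n).1]
  congr 1
  obtain ⟨F, rfl⟩ := exists_fl hf.1
  obtain ⟨G, rfl⟩ := exists_fl hg.1
  rw [fl_add_smul, pd_fl, pd_fl, pd_fl, fl_add_smul]
  congr 1
  rw [LineDeriv.lineDerivOp_add, LineDeriv.lineDerivOp_smul]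

/-- linearity in the vector field -/
lemma sg_linX (ht : IsT Q t) (hA : Q.fld A) (hX : IsKil X) (hX' : IsKil X') {f : Fn} (hf : CS f)
    (c : ℝ) (v : D) : Sg t (fun n x => X n x + c * X' n x) A f v =
      Sg t X A f v + (c : ℂ) • Sg t X' A f v := by
  unfold Sg
  rw [phi_linX ht hA hX hX' hf]
  have h : ∀ n, A (pd n fun x => ((X n x + c * X' n x : ℝ) : ℂ) * f x) v =
      A (pd n fun x => (X n x : ℂ) * f x) v + (c : ℂ) • A (pd n fun x => (X' n x : ℂ) * f x) v := by
    intro n
    rw [← a_lin hA (cs_mul hf (Mq.kil hX n)) (cs_mul hf (Mq.kil hX' n))]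
    congr 2
    funext x
    push_cast
    ring
  simp only [h, Finset.sum_add_distrib, ← Finset.smul_sum, smul_add]
  rw [smul_comm Complex.I (c : ℂ)]
  abel

lemma kil_zero : IsKil (fun _ _ => 0) :=
  ⟨0, 0, 0, fun _ _ => 0, by simp, by simp [GF.mdot]⟩

lemma sg_zero (ht : IsT Q t) (hA : Q.fld A) {f : Fn} (hf : CS f) (v : D) :
    Sg t (fun _ _ => 0) A f v = 0 := by
  have h := sg_linX ht hA kil_zero kil_zero hf 1 v
  simp only [mul_zero, add_zero, Complex.ofReal_one, one_smul] at h
  simpa using h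

lemma sg_smulX (ht : IsT Q t) (hA : Q.fld A) (hX : IsKil X) {f : Fn} (hf : CS f) (c : ℝ) (v : D) :
    Sg t (fun n x => c * X n x) A f v = (c : ℂ) • Sg t X A f v := by
  have h := sg_linX ht hA kil_zero hX hf c v
  simp only [zero_add, sg_zero ht hA hf] at h
  exact h

lemma sg_sumX (ht : IsT Q t) (hA : Q.fld A) {ι : Type*} (s : Finset ι) (c : ι → ℝ)
    {Y : ι → Ix → V → ℝ} (hY : ∀ i, IsKil (Y i)) {f : Fn} (hf : CS f) (v : D) :
    IsKil (fun n x => ∑ i ∈ s, c i * Y i n x) ∧
    Sg t (fun n x => ∑ i ∈ s, c i * Y i n x) A f v = ∑ i ∈ s, (c i : ℂ) • Sg t (Y i) A f v := by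
  classical
  induction s using Finset.induction_on with
  | empty =>
    simp only [Finset.sum_empty]
    exact ⟨kil_zero, sg_zero ht hA hf v⟩
  | insert a s ha ih =>
    have e : (fun n x => ∑ i ∈ insert a s, c i * Y i n x) =
        fun n x => (fun n x => ∑ i ∈ s, c i * Y i n x) n x + c a * Y a n x := by
      funext n x
      rw [Finset.sum_insert ha]
      ring
    rw [e]
    refine ⟨kil_add ih.1 (hY a) (c a), ?_⟩
    rw [sg_linX ht hA ih.1 (hY a) hf, ih.2, Finset.sum_insert ha, add_comm]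

/-- the translation charge -/
lemma phi_const (ht : IsT Q t) (hA : Q.fld A) {f : Fn} (hf : CS f) (n : Ix) (v : D)
    (hF : ∃ F, GF.IsCutoff F ∧ ∀ᶠ R in atTop, ∃ g, Ok (tsupport f) g ∧
      F R = fun x => (g x : ℂ)) :
    Phi t (fun k _ => if k = n then 1 else 0) A f v = Complex.I • A (pd n f) v := by
  have hX : IsKil (fun (k : Ix) (_ : V) => if k = n then (1:ℝ) else 0) :=
    ⟨fun k => if k = n then 1 else 0, 0, 0, fun _ _ => 0, by simp, by simp [GF.mdot]⟩
  obtain ⟨F, hF, hg⟩ := hF
  refine ext_inner_left ℂ fun w => ?_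
  have h1 := ht.charge F n A f v w hF hA hf.1 hf.2
  have h2 : ∀ᶠ R in atTop, inner ℂ w (t o n (F R) (A f v) - A f (t o n (F R) v)) =
      (eta n : ℂ) * inner ℂ w (Phi t (fun k _ => if k = n then 1 else 0) A f v) := by
    filter_upwards [hg] with R hR
    obtain ⟨g, hg, hgF⟩ := hR
    rw [phi_eq ht hA hX hf subset_rfl hg, hgF]
    unfold com
    have h3 : ∀ (k : Ix) (u : D), t o k (fun x => ((eta k * (if k = n then (1:ℝ) else 0) * g x : ℝ) : ℂ)) u
        = if k = n then (eta n : ℂ) • t o n (fun x => (g x : ℂ)) u else 0 := by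
      intro k u
      split_ifs with hk
      · subst hk
        have := t_lin ht (F := fun _ => 0) tst_zero hg.1 (eta k) o k u
        rw [t_zero ht, zero_add] at this
        rw [← this]
        refine congrArg (fun f => t o k f u) ?_
        funext x
        congr 1
        ring
      · have e : (fun x => ((eta k * (0:ℝ) * g x : ℝ) : ℂ)) = fun _ => ((0 : ℝ) : ℂ) := by
          funext x; simp
        rw [e, t_zero ht]
    simp only [h3, Finset.sum_ite_eq', Finset.mem_univ, if_true]
    rw [fsmul hA hf.1, ← smul_sub, inner_smul_right, ← mul_assoc]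
    have e : (eta n : ℂ) * eta n = 1 := by
      have := eta_sq n
      exact_mod_cast this
    rw [e, one_mul]
  have h4 := tendsto_nhds_unique (tendsto_const_nhds.congr' (h2.mono fun R hR => hR.symm)) h1
  have e : (eta n : ℂ) * eta n = 1 := by
    have := eta_sq n
    exact_mod_cast this
  have h5 : (eta n : ℂ) * ((eta n : ℂ) *
      inner ℂ w (Phi t (fun k _ => if k = n then 1 else 0) A f v)) =
      (eta n : ℂ) * inner ℂ w ((Complex.I * eta n) • A (pd n f) v) := by rw [h4]
  rw [← mul_assoc, e, one_mul] at h5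
  rw [h5, inner_smul_right, inner_smul_right]
  linear_combination (Complex.I * inner ℂ w (A (pd n f) v)) * e

end Vale.Agent.P352.H755
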