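import Vale.Agent.P352.H755.ChG

/-!
# The fields `S_mn A` and `K_m A`: translation covariance and the decomposition
-/

set_option linter.all false

noncomputable section

open MeasureTheory Filter Topology Set
open scoped ContDiff ComplexConjugate SchwartzMap LineDeriv

namespace Vale.Agent.P352.H755

open GF (Ix V Fn bas eta pd bar sim o)
open H246 H496 H15
open SubConf (IsKil IsAdj)

variable {D : Type*} [NormedAddCommGroup D] [InnerProductSpace ℂ D] {Q : GF.Theory D}
  {t : Ix → Ix → GF.Fld D} {A B : GF.Fld D} {X X' : Ix → V → ℝ}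

/-- the property that cutoffs in the sense of `IsCutoff` exist and are admissible -/
def HasCut : Prop := ∀ S : Set V, IsCompact S → ∃ F, GF.IsCutoff F ∧ ∀ᶠ R in atTop, ∃ g, Ok S g ∧
  F R = fun x => (g x : ℂ)

lemma pd_sim (n : Ix) (F : Fn) (y : V) : (fun x => pd n F (sim 1 GF.one y x)) =
    pd n (fun x => F (sim 1 GF.one y x)) := by
  funext x
  unfold pd
  congr 1
  funext s
  congr 1
  rw [sim_one', sim_one']
  funext k
  simp only [Pi.add_apply]
  ring

lemma U_sum' (y : V) (v : Ix → D) : Q.U 1 GF.one y (∑ n, v n) = ∑ n, Q.U 1 GF.one y (v n) := by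
  simp only [Fin.sum_univ_four, U_add (Q := Q) one_pos isLor_one]

lemma sg_transl (ht : IsT Q t) (hA : Q.fld A) (hX : IsKil X) {f : Fn} (hf : CS f) (y : V) (v : D) :
    Sg t X A f (Q.U 1 GF.one y v) = Q.U 1 GF.one y
      (Sg t (fun n x => X n (x + y)) A (fun x => f (sim 1 GF.one y x)) v) := by
  unfold Sg
  rw [U_add one_pos isLor_one, U_smul one_pos isLor_one, U_sum', phi_transl ht hA hX hf]
  congr 1
  refine Finset.sum_congr rfl fun n _ => ?_
  rw [Q.transl A y _ v hA (cs_pd (cs_mul hf (Mq.kil hX n)) n).1, pd_sim]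
  simp only [sim_one']

lemma kil_e (n : Ix) : IsKil (fun (k : Ix) (_ : V) => if k = n then (1:ℝ) else 0) :=
  ⟨fun k => if k = n then 1 else 0, 0, 0, fun _ _ => 0, by simp, by simp [GF.mdot]⟩

lemma kil_c (c : V) : IsKil (fun (k : Ix) (_ : V) => c k) :=
  ⟨c, 0, 0, fun _ _ => 0, by simp, by simp [GF.mdot]⟩

lemma sg_e (ht : IsT Q t) (hc : HasCut) (hA : Q.fld A) {f : Fn} (hf : CS f) (n : Ix) (v : D) :
    Sg t (fun k _ => if k = n then 1 else 0) A f v = 0 := by
  unfold Sg
  rw [phi_const ht hA hf n v (hc _ hf.2.isCompact), smul_smul, Complex.I_mul_I, neg_one_smul,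
    Finset.sum_eq_single n]
  · have e : (fun x => (((if n = n then (1:ℝ) else 0 : ℝ)) : ℂ) * f x) = f := by
      funext x; simp
    rw [e, add_neg_cancel]
  · intro k _ hk
    have e : (pd k fun x => (((if k = n then (1:ℝ) else 0 : ℝ)) : ℂ) * f x) = fun _ => 0 := by
      funext x
      unfold pd
      simp [hk]
    rw [e]
    have h0 := Q.lin A f f (-1) v hA hf.1 hf.1
    have e2 : (fun x => f x + (-1) * f x) = fun _ => 0 := by funext x; ring
    rw [e2] at h0
    rw [h0]
    simp
  · intro h; exact absurd (Finset.mem_univ n) h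

lemma sg_c (ht : IsT Q t) (hc : HasCut) (hA : Q.fld A) {f : Fn} (hf : CS f) (c : V) (v : D) :
    Sg t (fun k _ => c k) A f v = 0 := by
  have h := (sg_sumX ht hA Finset.univ c (Y := fun n k _ => if k = n then 1 else 0)
    kil_e hf v).2
  have e : (fun (k : Ix) (x : V) => ∑ i, c i * (if k = i then (1:ℝ) else 0)) = fun k _ => c k := by
    funext k x
    simp
  rw [e] at h
  rw [h]
  exact Finset.sum_eq_zero fun n _ => by rw [sg_e ht hc hA hf, smul_zero]

/-- linear vector fields give translation covariant fields -/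
lemma sg_transl_lin (ht : IsT Q t) (hc : HasCut) (hA : Q.fld A) (hX : IsKil X)
    (hl : ∀ n x y, X n (x + y) = X n x + X n y) {f : Fn} (hf : CS f) (y : V) (v : D) :
    Sg t X A f (Q.U 1 GF.one y v) = Q.U 1 GF.one y (Sg t X A (fun x => f (sim 1 GF.one y x)) v) := by
  rw [sg_transl ht hA hX hf]
  have e : (fun n x => X n (x + y)) = fun n x => X n x + 1 * (fun k _ => X k y) n x := by
    funext n x
    rw [hl]; ring
  rw [e, sg_linX ht hA hX (kil_c fun k => X k y) (cs_transl hf y),
    sg_c ht hc hA (cs_transl hf y) (fun k => X k y), smul_zero, add_zero]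

/-- the dilation field -/
def Xd : Ix → V → ℝ := fun n x => x n

/-- the Lorentz fields -/
def Xs (m n : Ix) : Ix → V → ℝ := fun k x =>
  x m * (if k = n then 1 else 0) - eta m * eta n * x n * (if k = m then 1 else 0)

lemma kil_d : IsKil Xd := ⟨0, 0, 1, fun _ _ => 0, by simp, by simp [Xd, GF.mdot]⟩

lemma kil_s (m n : Ix) : IsKil (Xs m n) := by
  refine ⟨0, 0, 0, fun j k => (if j = m then 1 else 0) * (if k = n then 1 else 0) -
    eta m * eta n * (if j = n then 1 else 0) * (if k = m then 1 else 0), fun j k => ?_,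
    fun k x => ?_⟩
  · have h1 := eta_sq m
    have hd : ∀ i l : Ix, eta i * (if i = l then (1:ℝ) else 0) =
        eta l * (if i = l then (1:ℝ) else 0) := by
      intro i l
      by_cases h : i = l
      · simp [h]
      · simp [h]
    linear_combination (if j = m then (1:ℝ) else 0) * hd k n -
      eta m * eta n * (if j = n then (1:ℝ) else 0) * hd k m +
      (if k = m then (1:ℝ) else 0) * hd j n -
      eta m * eta n * (if k = n then (1:ℝ) else 0) * hd j m -
      eta n * ((if k = n then (1:ℝ) else 0) * (if j = m then (1:ℝ) else 0) +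
        (if j = n then (1:ℝ) else 0) * (if k = m then (1:ℝ) else 0)) * h1
  · simp only [Xs, Pi.zero_apply, zero_mul, zero_add, add_zero]
    have : ∑ j, x j * ((if j = m then 1 else 0) * (if k = n then 1 else 0) -
        eta m * eta n * (if j = n then 1 else 0) * (if k = m then 1 else 0)) =
        x m * (if k = n then 1 else 0) - eta m * eta n * x n * (if k = m then 1 else 0) := by
      simp only [mul_sub, Finset.sum_sub_distrib]
      congr 1
      · simp
      · rw [Finset.sum_eq_single n]
        · simp; ring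
        · intro b _ hb; simp [hb]
        · intro h; exact absurd (Finset.mem_univ n) h
    rw [this]
    simp [GF.mdot]

/-- the field `S_mn A` -/
def SS (t : Ix → Ix → GF.Fld D) (m n : Ix) (A : GF.Fld D) : GF.Fld D := fun f v =>
  ((1 / 2 : ℝ) : ℂ) • Sg t (Xs m n) A f v +
    ((if n = m then 1 / 4 else 0 : ℝ) : ℂ) • Sg t Xd A f v

lemma ss_cf (ht : IsT Q t) (hR : Rows Q t) (hA : Q.fld A) (hB : Q.fld B) (hAB : IsAdj A B)
    (m n : Ix) : CField Q A (SS t m n A) (SS t m n B) :=
  (((sg_cf ht hR hA hB hAB (kil_s m n)).smul hA hB hAB (1 / 2)).add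
    (sg_cf ht hR hA hB hAB kil_d) (if n = m then 1 / 4 else 0)).congr (fun _ _ => rfl)
    (fun _ _ => rfl)

lemma ss_transl (ht : IsT Q t) (hc : HasCut) (hA : Q.fld A) (m n : Ix) {f : Fn} (hf : CS f)
    (y : V) (v : D) : SS t m n A f (Q.U 1 GF.one y v) =
      Q.U 1 GF.one y (SS t m n A (fun x => f (sim 1 GF.one y x)) v) := by
  unfold SS
  rw [U_add one_pos isLor_one, U_smul one_pos isLor_one, U_smul one_pos isLor_one,
    sg_transl_lin ht hc hA (kil_s m n) (fun k x y => by
      simp only [Xs, Pi.add_apply]; ring) hf,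
    sg_transl_lin ht hc hA kil_d (fun k x y => by simp [Xd]) hf]

/-- decomposition for the generators of the similitudes -/
lemma lin_dec (ht : IsT Q t) (hc : HasCut) (hA : Q.fld A) {f : Fn} (hf : CS f) (r : ℝ)
    {w : Ix → V} (hw : ∀ m n, eta n * w m n = -(eta m * w n m)) (v : D) :
    Sg t (fun k x => r * x k + ∑ m, x m * w m k) A f v =
      ∑ m, ∑ n, ((r * (if n = m then 1 else 0) + w m n : ℝ) : ℂ) • SS t m n A f v := by
  have h0 := (sg_sumX ht hA (Finset.univ : Finset (Ix × Ix)) (fun p => w p.1 p.2 / 2)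
    (Y := fun p => Xs p.1 p.2) (fun p => kil_s p.1 p.2) hf v)
  have h1 : (fun (k : Ix) (x : V) => r * x k + ∑ m, x m * w m k) = fun k x =>
      (fun k x => ∑ p : Ix × Ix, w p.1 p.2 / 2 * Xs p.1 p.2 k x) k x + r * Xd k x := by
    funext k x
    have e1 : ∑ p : Ix × Ix, w p.1 p.2 / 2 * Xs p.1 p.2 k x = ∑ m, x m * w m k := by
      rw [Fintype.sum_prod_type]
      have e2 : ∀ m n, w m n / 2 * Xs m n k x = (x m * w m k) / 2 * (if k = n then 1 else 0) +
          (-(eta k * eta n * w k n * x n) / 2) * (if k = m then 1 else 0) := by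
        intro m n
        have f1 : w m n * (if k = n then (1:ℝ) else 0) = w m k * (if k = n then (1:ℝ) else 0) := by
          by_cases h : k = n
          · subst h; rfl
          · simp [h]
        have f2 : w m n * eta m * (if k = m then (1:ℝ) else 0) =
            w k n * eta k * (if k = m then (1:ℝ) else 0) := by
          by_cases h : k = m
          · subst h; rfl
          · simp [h]
        unfold Xs
        linear_combination (x m / 2) * f1 - (eta n * x n / 2) * f2
      simp only [e2, Finset.sum_add_distrib]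
      have e3 : ∀ m, ∑ n, (x m * w m k) / 2 * (if k = n then (1:ℝ) else 0) = (x m * w m k) / 2 := by
        intro m; simp
      have e4 : ∑ m, ∑ n, (-(eta k * eta n * w k n * x n) / 2) * (if k = m then (1:ℝ) else 0) =
          ∑ n, (-(eta k * eta n * w k n * x n) / 2) := by
        rw [Finset.sum_comm]
        simp
      simp only [e3]
      rw [e4, ← Finset.sum_add_distrib]
      refine Finset.sum_congr rfl fun m _ => ?_
      have h1 := hw m k
      have h2 := eta_sq k
      linear_combination (-(x m / 2) * eta k) * h1 + (x m * w m k / 2) * h2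
    simp only [e1, Xd]
    ring
  rw [h1, sg_linX ht hA h0.1 kil_d hf, h0.2, Fintype.sum_prod_type]
  have hmm : ∀ m, w m m = 0 := by
    intro m
    have h1 := hw m m
    have h2 : eta m ≠ 0 := by unfold eta; split_ifs <;> norm_num
    have h3 : eta m * w m m = 0 := by linarith
    exact (mul_eq_zero.1 h3).resolve_left h2
  have hs : ∀ m, Sg t (Xs m m) A f v = 0 := by
    intro m
    have e : Xs m m = fun _ _ => 0 := by
      funext k x
      have := eta_sq m
      unfold Xs
      linear_combination (-(x m * if k = m then 1 else 0)) * this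
    rw [e]
    exact sg_zero ht hA hf v
  have key : ∀ m n, ((r * (if n = m then 1 else 0) + w m n : ℝ) : ℂ) • SS t m n A f v =
      ((w m n / 2 : ℝ) : ℂ) • Sg t (Xs m n) A f v +
        (if n = m then ((r / 4 : ℝ) : ℂ) • Sg t Xd A f v else 0) := by
    intro m n
    unfold SS
    by_cases h : n = m
    · subst h
      rw [hs, hmm]
      simp only [if_true, smul_zero, zero_add, smul_smul]
      congr 1
      push_cast
      ring
    · simp only [h, if_false, mul_zero, zero_add, Complex.ofReal_zero, zero_smul, add_zero,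
        smul_smul]
      congr 1
      push_cast
      ring
  simp only [key, Finset.sum_add_distrib]
  congr 1
  simp only [Finset.sum_ite_eq', Finset.mem_univ, if_true, Finset.sum_const, Finset.card_univ]
  rw [← Nat.cast_smul_eq_nsmul ℂ, smul_smul]
  congr 1
  simp
  ring

end Vale.Agent.P352.H755
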