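import Vale.Agent.P352.H755.ChH

/-!
# The fields `K_m A` on test functions with compact support
-/

set_option linter.all false

noncomputable section

open MeasureTheory Filter Topology Set
open scoped ContDiff ComplexConjugate SchwartzMap LineDeriv

namespace Vale.Agent.P352.H755

open GF (Ix V Fn bas eta pd bar sim o)
open H246 H496 H15
open SubConf (IsKil IsAdj)

variable {D : Type*} [NormedAddCommGroup D] [InnerProductSpace ℂ D] {Q : GF.Theory D}
  {t : Ix → Ix → GF.Fld D} {A B : GF.Fld D} {X X' : Ix → V → ℝ}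

lemma sg_linf (ht : IsT Q t) (hA : Q.fld A) (hX : IsKil X) {f g : Fn} (hf : CS f) (hg : CS g)
    (c : ℂ) (v : D) : Sg t X A (fun x => f x + c * g x) v = Sg t X A f v + c • Sg t X A g v := by
  unfold Sg
  rw [phi_linf ht hA hX hf hg]
  have h : ∀ n, A (pd n fun x => (X n x : ℂ) * (f x + c * g x)) v =
      A (pd n fun x => (X n x : ℂ) * f x) v + c • A (pd n fun x => (X n x : ℂ) * g x) v := by
    intro n
    rw [← a_lin hA (cs_mul hf (Mq.kil hX n)) (cs_mul hg (Mq.kil hX n))]
    congr 2
    funext x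
    ring
  simp only [h, Finset.sum_add_distrib, ← Finset.smul_sum, smul_add]
  rw [smul_comm Complex.I c]
  abel

lemma ss_linf (ht : IsT Q t) (hA : Q.fld A) (m n : Ix) {f g : Fn} (hf : CS f) (hg : CS g)
    (c : ℂ) (v : D) : SS t m n A (fun x => f x + c * g x) v =
      SS t m n A f v + c • SS t m n A g v := by
  unfold SS
  rw [sg_linf ht hA (kil_s m n) hf hg, sg_linf ht hA kil_d hf hg, smul_add, smul_add, smul_add,
    smul_comm c, smul_comm c]
  abel

lemma cs_zero : CS (fun _ : V => (0 : ℂ)) := ⟨⟨0, rfl⟩, HasCompactSupport.zero⟩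

lemma ss_zero (ht : IsT Q t) (hA : Q.fld A) (m n : Ix) (v : D) :
    SS t m n A (fun _ => 0) v = 0 := by
  have h := ss_linf ht hA m n cs_zero cs_zero 1 v
  simp only [mul_zero, add_zero, one_smul] at h
  simpa using h

lemma ss_smulf (ht : IsT Q t) (hA : Q.fld A) (m n : Ix) {f : Fn} (hf : CS f) (c : ℂ) (v : D) :
    SS t m n A (fun x => c * f x) v = c • SS t m n A f v := by
  have h := ss_linf ht hA m n cs_zero hf c v
  simp only [zero_add, ss_zero ht hA] at h
  exact h

lemma ss_addf (ht : IsT Q t) (hA : Q.fld A) (m n : Ix) {f g : Fn} (hf : CS f) (hg : CS g)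
    (v : D) : SS t m n A (fun x => f x + g x) v = SS t m n A f v + SS t m n A g v := by
  have h := ss_linf ht hA m n hf hg 1 v
  simp only [one_mul, one_smul] at h
  exact h

lemma ss_sumf (ht : IsT Q t) (hA : Q.fld A) (m n : Ix) (c : Ix → ℂ) {f : Ix → Fn}
    (hf : ∀ j, CS (f j)) (v : D) :
    SS t m n A (fun x => ∑ j, c j * f j x) v = ∑ j, c j • SS t m n A (f j) v := by
  have h1 : ∀ j, CS fun x => c j * f j x := by
    intro j
    have := cs_add cs_zero (hf j) (c j)
    simpa using this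
  have h2 : CS fun x => c 0 * f 0 x + c 1 * f 1 x := by
    simpa using cs_add (h1 0) (h1 1) 1
  have h3 : CS fun x => c 0 * f 0 x + c 1 * f 1 x + c 2 * f 2 x := by
    simpa using cs_add h2 (h1 2) 1
  simp only [Fin.sum_univ_four]
  rw [ss_addf ht hA m n h3 (h1 3), ss_addf ht hA m n h2 (h1 2), ss_addf ht hA m n (h1 0) (h1 1),
    ss_smulf ht hA m n (hf 0), ss_smulf ht hA m n (hf 1), ss_smulf ht hA m n (hf 2),
    ss_smulf ht hA m n (hf 3)]

/-- the special conformal fields -/
def Xb (b : V) : Ix → V → ℝ := fun k x => 2 * GF.mdot b x * x k - GF.mdot x x * b k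

lemma kil_b (b : V) : IsKil (Xb b) := ⟨0, b, 0, fun _ _ => 0, by simp, by simp [Xb]⟩

/-- their derivatives -/
def qb (b : V) (m n : Ix) (x : V) : ℝ :=
  2 * (eta m * b m) * x n + 2 * GF.mdot b x * (if n = m then 1 else 0) - 2 * (eta m * x m) * b n

lemma Mq_qb (b : V) (m n : Ix) : Mq (qb b m n) := by
  have h : Mq fun x => (2 * (eta m * b m)) * x n + (2 * GF.mdot b x) * (if n = m then 1 else 0) +
      (-2 * eta m * b n) * x m :=
    (((Mq.const (2 * (eta m * b m))).mul (Mq.coord n)).add
      (((Mq.const 2).mul (Mq.mdot b)).mul (Mq.const (if n = m then 1 else 0)))).add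
      ((Mq.const (-2 * eta m * b n)).mul (Mq.coord m))
  exact h.congr fun x => by unfold qb; ring

/-- `8 b^m K_m A` -/
def Tau (t : Ix → Ix → GF.Fld D) (b : V) (A : GF.Fld D) : GF.Fld D := fun f v =>
  Sg t (Xb b) A f v + ((-1 : ℝ) : ℂ) • ∑ m, ∑ n, SS t m n A (fun x => (qb b m n x : ℂ) * f x) v

lemma tau_cf (ht : IsT Q t) (hR : Rows Q t) (hA : Q.fld A) (hB : Q.fld B) (hAB : IsAdj A B)
    (b : V) : CField Q A (Tau t b A) (Tau t b B) :=
  ((sg_cf ht hR hA hB hAB (kil_b b)).add (CField.sum fun m => CField.sum fun n =>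
    (ss_cf ht hR hA hB hAB m n).mul (Mq_qb b m n)) (-1)).congr (fun _ _ => rfl) (fun _ _ => rfl)

lemma tau_transl (ht : IsT Q t) (hc : HasCut) (hA : Q.fld A) (b : V) {f : Fn} (hf : CS f)
    (y : V) (v : D) : Tau t b A f (Q.U 1 GF.one y v) =
      Q.U 1 GF.one y (Tau t b A (fun x => f (sim 1 GF.one y x)) v) := by
  have hw : ∀ m n, eta n * (2 * (eta m * b m) * y n - 2 * (eta m * y m) * b n) =
      -(eta m * (2 * (eta n * b n) * y m - 2 * (eta n * y n) * b m)) := by
    intro m n; ring
  set w : Ix → V := fun m n => 2 * (eta m * b m) * y n - 2 * (eta m * y m) * b n with hwdef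
  have hf' := cs_transl hf y
  set f' : Fn := fun x => f (sim 1 GF.one y x) with hf'def
  -- the Killing part
  have e1 : (fun n x => Xb b n (x + y)) = fun n x => (fun n x => Xb b n x + 1 *
      (fun k x => (2 * GF.mdot b y) * x k + ∑ m, x m * w m k) n x) n x + 1 *
      (fun k _ => Xb b k y) n x := by
    funext n x
    simp only [Xb, hwdef, md_add, md_add_l, Pi.add_apply]
    rw [md_comm y x]
    simp only [GF.mdot, Fin.sum_univ_four]
    ring
  have hlin : IsKil fun (k : Ix) (x : V) => (2 * GF.mdot b y) * x k + ∑ m, x m * w m k :=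
    ⟨0, 0, 2 * GF.mdot b y, w, hw, by simp [GF.mdot]⟩
  have h1 : Sg t (Xb b) A f (Q.U 1 GF.one y v) = Q.U 1 GF.one y (Sg t (Xb b) A f' v +
      ∑ m, ∑ n, ((2 * GF.mdot b y * (if n = m then 1 else 0) + w m n : ℝ) : ℂ) •
        SS t m n A f' v) := by
    rw [sg_transl ht hA (kil_b b) hf, e1, sg_linX ht hA (kil_add (kil_b b) hlin 1)
      (kil_c fun k => Xb b k y) hf', sg_linX ht hA (kil_b b) hlin hf',
      sg_c ht hc hA hf' (fun k => Xb b k y), lin_dec ht hc hA hf' (2 * GF.mdot b y) hw]
    simp only [Complex.ofReal_one, one_smul, smul_zero, add_zero]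
    rfl
  have h2 : ∀ m n, SS t m n A (fun x => (qb b m n x : ℂ) * f x) (Q.U 1 GF.one y v) =
      Q.U 1 GF.one y (SS t m n A (fun x => (qb b m n x : ℂ) * f' x) v +
        ((2 * GF.mdot b y * (if n = m then 1 else 0) + w m n : ℝ) : ℂ) • SS t m n A f' v) := by
    intro m n
    rw [ss_transl ht hc hA m n (cs_mul hf (Mq_qb b m n)),
      ← ss_linf ht hA m n (cs_mul hf' (Mq_qb b m n)) hf']
    congr 2
    funext x
    have e2 : qb b m n (sim 1 GF.one y x) = qb b m n x +
        (2 * GF.mdot b y * (if n = m then 1 else 0) + w m n) := by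
      rw [sim_one', hwdef]
      simp only [qb, md_add, Pi.add_apply]
      ring
    rw [e2, hf'def]
    push_cast
    ring
  unfold Tau
  rw [h1]
  simp only [h2]
  rw [U_add (Q := Q) one_pos isLor_one, U_add (Q := Q) one_pos isLor_one,
    U_smul (Q := Q) one_pos isLor_one, U_sum']
  simp only [U_add (Q := Q) one_pos isLor_one, U_sum', Finset.sum_add_distrib, smul_add,
    Complex.ofReal_neg, Complex.ofReal_one, neg_one_smul]
  abel

/-- the field `K_m A` -/
def KK (t : Ix → Ix → GF.Fld D) (m : Ix) (A : GF.Fld D) : GF.Fld D := fun f v =>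
  ((1 / 8 : ℝ) : ℂ) • Tau t (bas m (eta m)) A f v

lemma kk_cf (ht : IsT Q t) (hR : Rows Q t) (hA : Q.fld A) (hB : Q.fld B) (hAB : IsAdj A B)
    (m : Ix) : CField Q A (KK t m A) (KK t m B) :=
  ((tau_cf ht hR hA hB hAB (bas m (eta m))).smul hA hB hAB (1 / 8)).congr (fun _ _ => rfl)
    (fun _ _ => rfl)

lemma kk_transl (ht : IsT Q t) (hc : HasCut) (hA : Q.fld A) (m : Ix) {f : Fn} (hf : CS f)
    (y : V) (v : D) : KK t m A f (Q.U 1 GF.one y v) =
      Q.U 1 GF.one y (KK t m A (fun x => f (sim 1 GF.one y x)) v) := by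
  unfold KK
  rw [U_smul (Q := Q) one_pos isLor_one, tau_transl ht hc hA _ hf]

lemma md_e (m : Ix) (x : V) : GF.mdot (bas m (eta m)) x = x m := by
  have h := eta_sq m
  simp only [GF.mdot, bas]
  rw [Finset.sum_eq_single m]
  · simp only [if_true]
    linear_combination (x m) * h
  · intro k _ hk
    simp [hk]
  · intro hm; exact absurd (Finset.mem_univ m) hm

lemma tau_dec (ht : IsT Q t) (hA : Q.fld A) (b : V) {f : Fn} (hf : CS f) (v : D) :
    Tau t b A f v = ∑ j, ((eta j * b j : ℝ) : ℂ) • Tau t (bas j (eta j)) A f v := by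
  have hj : ∀ k, ∑ j, eta j * b j * (if k = j then eta j else 0) = b k := by
    intro k
    have := eta_sq k
    simp only [mul_ite, mul_zero, Finset.sum_ite_eq, Finset.mem_univ, if_true]
    linear_combination (b k) * this
  have e1 : Xb b = fun k x => ∑ j, (eta j * b j) * Xb (bas j (eta j)) k x := by
    funext k x
    have h1 : ∀ j, (eta j * b j) * Xb (bas j (eta j)) k x = (eta j * b j * x j) * (2 * x k) -
        (eta j * b j * (if k = j then eta j else 0)) * GF.mdot x x := by
      intro j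
      simp only [Xb, md_e]
      simp only [bas]
      ring
    simp only [h1, Finset.sum_sub_distrib, ← Finset.sum_mul, hj]
    simp only [Xb]
    have h2 : ∑ j, eta j * b j * x j = GF.mdot b x := rfl
    rw [h2]
    ring
  have e2 : ∀ m n x, qb b m n x = ∑ j, (eta j * b j) * qb (bas j (eta j)) m n x := by
    intro m n x
    have h1 : ∀ j, (eta j * b j) * qb (bas j (eta j)) m n x =
        (eta j * b j * (if m = j then eta j else 0)) * (2 * eta m * x n) +
        (eta j * b j * x j) * (2 * (if n = m then 1 else 0)) -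
        (eta j * b j * (if n = j then eta j else 0)) * (2 * (eta m * x m)) := by
      intro j
      simp only [qb, md_e]
      simp only [bas]
      ring
    simp only [h1, Finset.sum_sub_distrib, Finset.sum_add_distrib, ← Finset.sum_mul, hj]
    have h2 : ∑ j, eta j * b j * x j = GF.mdot b x := rfl
    rw [h2]
    unfold qb
    ring
  have h1 := (sg_sumX ht hA Finset.univ (fun j => eta j * b j)
    (Y := fun j => Xb (bas j (eta j))) (fun j => kil_b _) hf v).2
  rw [← e1] at h1
  have h2 : ∀ m n, SS t m n A (fun x => (qb b m n x : ℂ) * f x) v =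
      ∑ j, ((eta j * b j : ℝ) : ℂ) • SS t m n A
        (fun x => (qb (bas j (eta j)) m n x : ℂ) * f x) v := by
    intro m n
    rw [← ss_sumf ht hA m n (fun j => ((eta j * b j : ℝ) : ℂ))
      (fun j => cs_mul hf (Mq_qb (bas j (eta j)) m n))]
    congr 1
    funext x
    rw [e2 m n x]
    push_cast
    rw [Finset.sum_mul]
    exact Finset.sum_congr rfl fun j _ => by ring
  unfold Tau
  rw [h1]
  have h3 : ∑ m, ∑ n, ∑ j, ((eta j * b j : ℝ) : ℂ) • SS t m n A
      (fun x => (qb (bas j (eta j)) m n x : ℂ) * f x) v = ∑ j, ((eta j * b j : ℝ) : ℂ) •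
      ∑ m, ∑ n, SS t m n A (fun x => (qb (bas j (eta j)) m n x : ℂ) * f x) v := by
    simp only [Finset.smul_sum]
    exact (Finset.sum_congr rfl fun m _ => Finset.sum_comm).trans Finset.sum_comm
  simp only [h2]
  rw [h3]
  simp only [smul_add, Finset.sum_add_distrib, Finset.smul_sum (s := Finset.univ)
    (r := ((-1 : ℝ) : ℂ)) (f := fun j => ((eta j * b j : ℝ) : ℂ) •
      ∑ m, ∑ n, SS t m n A (fun x => (qb (bas j (eta j)) m n x : ℂ) * f x) v)]
  congr 1
  exact Finset.sum_congr rfl fun j _ => smul_comm _ _ _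

end Vale.Agent.P352.H755
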