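import Vale.Agent.P352.H755.Rel
import Mathlib.Analysis.Calculus.BumpFunction.Normed

set_option linter.all false

noncomputable section

open MeasureTheory Filter Topology Set
open scoped ContDiff

namespace Vale.Agent.P352.H755

open GF (Ix V Fn bas eta)

/-- integrability of the family of hyperplane integrals -/
lemma Su_fam {E : Type*} [NormedAddCommGroup E] [NormedSpace ℝ E] [FiniteDimensional ℝ E]
    [MeasurableSpace E] [BorelSpace E] {μ : Measure E} [μ.IsAddHaarMeasure] {α : E →L[ℝ] ℝ} {b : E}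
    {ρ : ℝ → ℝ} (hρ : Continuous ρ) (hρc : HasCompactSupport ρ) {G : ℝ → E → ℂ}
    (hG : Continuous (Function.uncurry G)) (hGc : HasCompactSupport (Function.uncurry G)) :
    Integrable fun u => Su μ α b ρ u (G u) := by
  obtain ⟨c1, s1⟩ := comp_G (α := α) (b := b) hρ hρc hG hGc
  have i1 : Integrable (fun p : ℝ × E => (ρ (α p.2) : ℂ) * G p.1 (p.2 + (p.1 - α p.2) • b))
      ((volume : Measure ℝ).prod μ) := c1.integrable_of_hasCompactSupport s1
  exact i1.integral_prod_left

/-- integrability of the family of half space integrals -/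
lemma Hs_fam {K : ℝ → V → ℂ} (hK : Integrable (Function.uncurry K)
    ((volume : Measure ℝ).prod (volume : Measure V))) (α : V →L[ℝ] ℝ) :
    Integrable fun u => ∫ y in Hs α u, K u y := by
  have hm : MeasurableSet {p : ℝ × V | α p.2 < p.1} :=
    measurableSet_lt (α.continuous.measurable.comp measurable_snd) measurable_fst
  have h1 := (hK.indicator hm).integral_prod_left
  refine h1.congr (Eventually.of_forall fun u => ?_)
  simp only
  rw [← integral_indicator (measurableSet_Hs (α := α) u)]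
  rfl

/-- the relations between the values of a current and of a potential along an orbit -/
def G1D (a : V) (F : Ix → V → ℂ) (L : V → ℂ) : Prop :=
  ∃ (F' : Ix → V → V → ℂ) (L' : V → V → ℂ) (L'' : Ix → V → V → ℂ), (∀ i c, LD c (F i) (F' i c)) ∧
    (∀ c, LD c L (L' c)) ∧ (∀ i c, LD c (L' (bas i 1)) (L'' i c)) ∧
    (∀ y, L' a y = ∑ i, (a i : ℂ) * L' (bas i 1) y) ∧
    ∀ y, ∑ i, F' i (bas i 1) y = 3 * ∑ i, (eta i : ℂ) * L'' i (bas i 1) y

/-- (G1), integrated over the family of hyperplanes -/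
theorem G1u {a b : V} (haa : GF.mdot a a = 0) (hab : GF.mdot a b = 1) {Sg : V → ℝ} (hS : Tst Sg)
    {ψ : ℝ → ℂ} (hψ : Continuous ψ) (hψc : HasCompactSupport ψ)
    {F : ℝ → Ix → V → ℂ} {L : ℝ → V → ℂ} (hF : ∀ i, Continuous fun p : ℝ × V => F p.1 i p.2)
    (hL : Continuous fun p : ℝ × V => L p.1 p.2) (h : ∀ u, G1D a (F u) (L u)) :
    ∫ u, ψ u * ∫ y in Hs (ml a) u, ∑ i, (dr i Sg y : ℂ) * F u i y =
      (∫ y : V, ψ (GF.mdot a y) * ((Sg y : ℂ) * (∑ i, ((eta i * a i : ℝ) : ℂ) *
        F (GF.mdot a y) i y) + 6 * ((fderiv ℝ Sg y a : ℝ) : ℂ) * L (GF.mdot a y) y)) -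
      3 * ∫ u, ψ u * ∫ y in Hs (ml a) u, (∑ i, (eta i : ℂ) * (dr i (dr i Sg) y : ℂ)) * L u y := by
  have hb : ml a b = 1 := by rw [ml_apply, hab]
  obtain ⟨ρ, hρ, hρc, hρ1⟩ : ∃ ρ : ℝ → ℝ, Continuous ρ ∧ HasCompactSupport ρ ∧ ∫ t, ρ t = 1 := by
    let f : ContDiffBump (0 : ℝ) := ⟨1, 2, one_pos, one_lt_two⟩
    exact ⟨f.normed volume, f.continuous_normed, f.hasCompactSupport_normed, f.integral_normed⟩
  have hGu : ∀ u, ∫ y in Hs (ml a) u, ∑ i, (dr i Sg y : ℂ) * F u i y =
      Su volume (ml a) b ρ u (fun y => (Sg y : ℂ) * (∑ i, ((eta i * a i : ℝ) : ℂ) * F u i y) +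
        6 * ((fderiv ℝ Sg y a : ℝ) : ℂ) * L u y) -
      3 * ∫ y in Hs (ml a) u, (∑ i, (eta i : ℂ) * (dr i (dr i Sg) y : ℂ)) * L u y := by
    intro u
    obtain ⟨F', L', L'', h1, h2, h3, h4, h5⟩ := h u
    exact G1 haa hab hρ hρc hρ1 hS h1 h2 h3 h4 h5 u
  set Gf : ℝ → V → ℂ := fun u y => ψ u * ((Sg y : ℂ) * (∑ i, ((eta i * a i : ℝ) : ℂ) * F u i y) +
        6 * ((fderiv ℝ Sg y a : ℝ) : ℂ) * L u y) with hGf
  have hSc : HasCompactSupport fun y => (Sg y : ℂ) :=
    hS.2.comp_left (g := fun r : ℝ => (r : ℂ)) (by simp)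
  have hS2 : Continuous fun y => ((fderiv ℝ Sg y a : ℝ) : ℂ) :=
    Complex.continuous_ofReal.comp (hS.fd a).cont
  have hS1 : Continuous fun y => (Sg y : ℂ) := Complex.continuous_ofReal.comp hS.cont
  have hGc : Continuous (Function.uncurry Gf) := by
    have e : Function.uncurry Gf = fun p : ℝ × V => ψ p.1 * ((Sg p.2 : ℂ) *
        (∑ i, ((eta i * a i : ℝ) : ℂ) * F p.1 i p.2) +
        6 * ((fderiv ℝ Sg p.2 a : ℝ) : ℂ) * L p.1 p.2) := by
      funext p
      rfl
    rw [e]
    refine (hψ.comp continuous_fst).mul (((hS1.comp continuous_snd).mul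
      (continuous_finset_sum _ fun i _ => continuous_const.mul (hF i))).add
      ((continuous_const.mul (hS2.comp continuous_snd)).mul hL))
  have hGs : HasCompactSupport (Function.uncurry Gf) := by
    refine HasCompactSupport.of_support_subset_isCompact (hψc.prod (show IsCompact (tsupport Sg)
      from hS.2)) ?_
    rintro ⟨u, y⟩ hp
    have h1 : ψ u ≠ 0 := fun h0 => hp (by simp [Function.uncurry, hGf, h0])
    refine ⟨subset_tsupport _ h1, ?_⟩
    by_contra h2
    have h3 : Sg y = 0 := image_eq_zero_of_notMem_tsupport h2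
    have h4 : fderiv ℝ Sg y = 0 := by
      have : y ∉ tsupport (fderiv ℝ Sg) := fun h' => h2 (tsupport_fderiv_subset ℝ h')
      exact image_eq_zero_of_notMem_tsupport this
    exact hp (by simp [Function.uncurry, hGf, h3, h4])
  have hst := Su_star (μ := (volume : Measure V)) hb hρ hρc hρ1 hGc hGs
  have hi1 := Su_fam (μ := (volume : Measure V)) (α := ml a) (b := b) hρ hρc hGc hGs
  have e1 : ∀ u, Su volume (ml a) b ρ u (Gf u) = ψ u * Su volume (ml a) b ρ u
      (fun y => (Sg y : ℂ) * (∑ i, ((eta i * a i : ℝ) : ℂ) * F u i y) +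
        6 * ((fderiv ℝ Sg y a : ℝ) : ℂ) * L u y) := by
    intro u
    unfold Su
    rw [← integral_const_mul]
    refine integral_congr_ae (Eventually.of_forall fun y => ?_)
    simp only [hGf]
    ring
  set K : ℝ → V → ℂ := fun u y => ψ u * ((∑ i, (eta i : ℂ) * (dr i (dr i Sg) y : ℂ)) * L u y)
    with hK
  have hB : Tst fun y => ∑ i, eta i * dr i (dr i Sg) y := Tst.sum fun i => ((hS.dr i).dr i).cmul _
  have eB : ∀ y, (∑ i, (eta i : ℂ) * (dr i (dr i Sg) y : ℂ)) =
      ((∑ i, eta i * dr i (dr i Sg) y : ℝ) : ℂ) := by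
    intro y
    push_cast
    rfl
  have hKc : Continuous (Function.uncurry K) := by
    have e : Function.uncurry K = fun p : ℝ × V => ψ p.1 *
        (((∑ i, eta i * dr i (dr i Sg) p.2 : ℝ) : ℂ) * L p.1 p.2) := by
      funext p
      simp only [Function.uncurry, hK, eB]
    rw [e]
    exact (hψ.comp continuous_fst).mul (((Complex.continuous_ofReal.comp hB.cont).comp
      continuous_snd).mul hL)
  have hKs : HasCompactSupport (Function.uncurry K) := by
    refine HasCompactSupport.of_support_subset_isCompact (hψc.prod (show IsCompact (tsupport _)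
      from hB.2)) ?_
    rintro ⟨u, y⟩ hp
    have h1 : ψ u ≠ 0 := fun h0 => hp (by simp [Function.uncurry, hK, h0])
    refine ⟨subset_tsupport _ h1, ?_⟩
    refine subset_tsupport _ fun h0 => hp ?_
    simp only [Function.uncurry, hK, eB]
    rw [h0]
    simp
  have hi2 := Hs_fam (K := K) (hKc.integrable_of_hasCompactSupport hKs) (ml a)
  have e2 : ∀ u, ∫ y in Hs (ml a) u, K u y = ψ u * ∫ y in Hs (ml a) u,
      (∑ i, (eta i : ℂ) * (dr i (dr i Sg) y : ℂ)) * L u y := by
    intro u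
    rw [← integral_const_mul]
  simp only [e1] at hi1 hst
  simp only [e2] at hi2
  have e3 : ∀ u, ψ u * ∫ y in Hs (ml a) u, ∑ i, (dr i Sg y : ℂ) * F u i y =
      ψ u * Su volume (ml a) b ρ u (fun y => (Sg y : ℂ) * (∑ i, ((eta i * a i : ℝ) : ℂ) * F u i y) +
        6 * ((fderiv ℝ Sg y a : ℝ) : ℂ) * L u y) -
      3 * (ψ u * ∫ y in Hs (ml a) u, (∑ i, (eta i : ℂ) * (dr i (dr i Sg) y : ℂ)) * L u y) := by
    intro u
    rw [hGu u]
    ring
  simp only [e3]
  rw [integral_sub hi1 (hi2.const_mul 3), hst, integral_const_mul]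
  simp only [hGf, ml_apply]

end Vale.Agent.P352.H755
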