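import Mathlib.Analysis.Calculus.LineDeriv.IntegrationByParts
import Mathlib.Analysis.Calculus.ParametricIntegral
import Mathlib.MeasureTheory.Integral.IntegralEqImproper
import Mathlib.Analysis.Normed.Module.FiniteDimension
import Mathlib.MeasureTheory.Group.LIntegral
import Mathlib.MeasureTheory.Integral.Prod

set_option linter.all false

noncomputable section

open MeasureTheory Filter Topology Set

namespace Vale.Agent.P352.H755

variable {E : Type*} [NormedAddCommGroup E] [NormedSpace ℝ E] [FiniteDimensional ℝ E]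
  [MeasurableSpace E] [BorelSpace E] {μ : Measure E} [μ.IsAddHaarMeasure]

/-- The integral of `G` over the hyperplane `α y = u`, written as an integral over the space. -/
def Su (μ : Measure E) (α : E →L[ℝ] ℝ) (b : E) (ρ : ℝ → ℝ) (u : ℝ) (G : E → ℂ) : ℂ :=
  ∫ y, (ρ (α y) : ℂ) * G (y + (u - α y) • b) ∂μ

variable {α : E →L[ℝ] ℝ} {b : E} (hb : α b = 1) {ρ : ℝ → ℝ} (hρ : Continuous ρ)
  (hρc : HasCompactSupport ρ) (hρ1 : ∫ t, ρ t = 1)

/-- the injective linear map used for compactness of supports -/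
def Tm (α : E →L[ℝ] ℝ) (b : E) : ℝ × E →L[ℝ] ℝ × (ℝ × E) :=
  ((α.comp (ContinuousLinearMap.snd ℝ ℝ E))).prod
    ((ContinuousLinearMap.fst ℝ ℝ E).prod
      (ContinuousLinearMap.snd ℝ ℝ E + ((ContinuousLinearMap.fst ℝ ℝ E).smulRight b -
        (α.comp (ContinuousLinearMap.snd ℝ ℝ E)).smulRight b)))

lemma Tm_apply (u : ℝ) (y : E) : Tm α b (u, y) = (α y, u, y + (u - α y) • b) := by
  simp [Tm, sub_smul]

lemma Tm_closed : IsClosedEmbedding (Tm α b) := by
  have h : Function.Injective (Tm α b) := by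
    rintro ⟨u, y⟩ ⟨u', y'⟩ h
    rw [Tm_apply, Tm_apply] at h
    simp only [Prod.mk.injEq] at h
    obtain ⟨h1, h2, h3⟩ := h
    subst h2
    rw [h1] at h3
    have := add_right_cancel h3
    rw [this]
  exact LinearMap.isClosedEmbedding_of_injective (f := (Tm α b : ℝ × E →ₗ[ℝ] ℝ × (ℝ × E)))
    (LinearMap.ker_eq_bot.2 h)

include hρ hρc in
lemma comp_G {G : ℝ → E → ℂ} (hG : Continuous (Function.uncurry G))
    (hGc : HasCompactSupport (Function.uncurry G)) :
    Continuous (fun p : ℝ × E => (ρ (α p.2) : ℂ) * G p.1 (p.2 + (p.1 - α p.2) • b)) ∧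
    HasCompactSupport (fun p : ℝ × E => (ρ (α p.2) : ℂ) * G p.1 (p.2 + (p.1 - α p.2) • b)) := by
  set f : ℝ × (ℝ × E) → ℂ := fun p => (ρ p.1 : ℂ) * Function.uncurry G p.2 with hf
  have hfc : Continuous f := by
    rw [hf]
    exact (Complex.continuous_ofReal.comp (hρ.comp continuous_fst)).mul (hG.comp continuous_snd)
  have hfs : HasCompactSupport f := by
    have hK : IsCompact (tsupport ρ ×ˢ tsupport (Function.uncurry G)) := hρc.prod hGc
    refine HasCompactSupport.of_support_subset_isCompact hK ?_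
    rintro ⟨v, q⟩ hp
    have h1 : ρ v ≠ 0 := fun h0 => hp (by simp [hf, h0])
    have h2 : Function.uncurry G q ≠ 0 := fun h0 => hp (by simp [hf, h0])
    exact ⟨subset_tsupport _ h1, subset_tsupport _ h2⟩
  have e : (fun p : ℝ × E => (ρ (α p.2) : ℂ) * G p.1 (p.2 + (p.1 - α p.2) • b)) =
      f ∘ (Tm α b) := by
    funext p
    obtain ⟨u, y⟩ := p
    rw [Function.comp_apply, Tm_apply]
    rfl
  rw [e]
  exact ⟨hfc.comp (Tm α b).continuous, hfs.comp_isClosedEmbedding Tm_closed⟩

include hb hρ hρc hρ1 in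
/-- the family of hyperplane integrals -/
theorem Su_star {G : ℝ → E → ℂ} (hG : Continuous (Function.uncurry G))
    (hGc : HasCompactSupport (Function.uncurry G)) :
    ∫ u, Su μ α b ρ u (G u) = ∫ y, G (α y) y ∂μ := by
  obtain ⟨c1, s1⟩ := comp_G (α := α) (b := b) hρ hρc hG hGc
  have i1 : Integrable (fun p : ℝ × E => (ρ (α p.2) : ℂ) * G p.1 (p.2 + (p.1 - α p.2) • b))
      ((volume : Measure ℝ).prod μ) := c1.integrable_of_hasCompactSupport s1
  unfold Su
  rw [integral_integral_swap i1]
  have e1 : ∀ y : E, ∫ u, (ρ (α y) : ℂ) * G u (y + (u - α y) • b) =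
      ∫ τ, (ρ (α y) : ℂ) * G (α y + τ) (y + τ • b) := by
    intro y
    rw [← integral_add_left_eq_self (μ := (volume : Measure ℝ)) (fun u =>
      (ρ (α y) : ℂ) * G u (y + (u - α y) • b)) (α y)]
    simp only [add_sub_cancel_left]
  simp_rw [e1]
  -- second compact support
  set f2 : E × ℝ → ℂ := fun p => (ρ (α p.1) : ℂ) * G (α p.1 + p.2) (p.1 + p.2 • b) with hf2
  have e2 : f2 = (fun p : ℝ × E => (ρ (α p.2) : ℂ) * G p.1 (p.2 + (p.1 - α p.2) • b)) ∘
      (fun p : E × ℝ => (α p.1 + p.2, p.1)) := by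
    funext p
    simp only [hf2, Function.comp_apply, add_sub_cancel_left]
  have c2 : Continuous f2 := by
    rw [e2]
    exact c1.comp (by fun_prop)
  have s2 : HasCompactSupport f2 := by
    rw [e2]
    refine s1.comp_isClosedEmbedding ?_
    have h : (fun p : E × ℝ => (α p.1 + p.2, p.1)) =
        ((((α.comp (ContinuousLinearMap.fst ℝ E ℝ)) + ContinuousLinearMap.snd ℝ E ℝ).prod
          (ContinuousLinearMap.fst ℝ E ℝ) : E × ℝ →L[ℝ] ℝ × E) : E × ℝ → ℝ × E) := by
      funext p; simp
    rw [h]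
    refine LinearMap.isClosedEmbedding_of_injective
      (f := ((((α.comp (ContinuousLinearMap.fst ℝ E ℝ)) + ContinuousLinearMap.snd ℝ E ℝ).prod
          (ContinuousLinearMap.fst ℝ E ℝ) : E × ℝ →L[ℝ] ℝ × E) : E × ℝ →ₗ[ℝ] ℝ × E))
      (LinearMap.ker_eq_bot.2 ?_)
    rintro ⟨y, t⟩ ⟨y', t'⟩ h'
    simp only [ContinuousLinearMap.coe_coe, ContinuousLinearMap.prod_apply,
      ContinuousLinearMap.add_apply, ContinuousLinearMap.comp_apply,
      ContinuousLinearMap.coe_fst', ContinuousLinearMap.coe_snd', Prod.mk.injEq] at h'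
    obtain ⟨h1, h2⟩ := h'
    subst h2
    rw [add_left_cancel h1]
  have i2 : Integrable f2 (μ.prod (volume : Measure ℝ)) := c2.integrable_of_hasCompactSupport s2
  rw [integral_integral_swap i2]
  have e3 : ∀ τ : ℝ, ∫ y, (ρ (α y) : ℂ) * G (α y + τ) (y + τ • b) ∂μ =
      ∫ y, (ρ (α y - τ) : ℂ) * G (α y) y ∂μ := by
    intro τ
    rw [← integral_sub_right_eq_self (μ := μ) (fun y =>
      (ρ (α y) : ℂ) * G (α y + τ) (y + τ • b)) (τ • b)]
    congr 1
    funext y
    simp only [map_sub, map_smul, hb, smul_eq_mul, mul_one, sub_add_cancel]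
  simp_rw [e3]
  set f3 : ℝ × E → ℂ := fun p => (ρ (α p.2 - p.1) : ℂ) * G (α p.2) p.2 with hf3
  have e4 : f3 = f2 ∘ (fun p : ℝ × E => (p.2 - p.1 • b, p.1)) := by
    funext p
    simp only [hf3, hf2, Function.comp_apply, map_sub, map_smul, hb, smul_eq_mul, mul_one,
      sub_add_cancel]
  have c3 : Continuous f3 := by
    rw [e4]
    exact c2.comp (by fun_prop)
  have s3 : HasCompactSupport f3 := by
    rw [e4]
    refine s2.comp_isClosedEmbedding ?_
    have h : (fun p : ℝ × E => (p.2 - p.1 • b, p.1)) =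
        (((ContinuousLinearMap.snd ℝ ℝ E - (ContinuousLinearMap.fst ℝ ℝ E).smulRight b).prod
          (ContinuousLinearMap.fst ℝ ℝ E) : ℝ × E →L[ℝ] E × ℝ) : ℝ × E → E × ℝ) := by
      funext p; simp
    rw [h]
    refine LinearMap.isClosedEmbedding_of_injective
      (f := (((ContinuousLinearMap.snd ℝ ℝ E - (ContinuousLinearMap.fst ℝ ℝ E).smulRight b).prod
          (ContinuousLinearMap.fst ℝ ℝ E) : ℝ × E →L[ℝ] E × ℝ) : ℝ × E →ₗ[ℝ] E × ℝ))
      (LinearMap.ker_eq_bot.2 ?_)
    rintro ⟨t, y⟩ ⟨t', y'⟩ h'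
    simp only [ContinuousLinearMap.coe_coe, ContinuousLinearMap.prod_apply,
      ContinuousLinearMap.sub_apply, ContinuousLinearMap.smulRight_apply,
      ContinuousLinearMap.coe_fst', ContinuousLinearMap.coe_snd', Prod.mk.injEq] at h'
    obtain ⟨h1, h2⟩ := h'
    subst h2
    rw [sub_left_inj] at h1
    rw [h1]
  have i3 : Integrable f3 ((volume : Measure ℝ).prod μ) := c3.integrable_of_hasCompactSupport s3
  rw [integral_integral_swap i3]
  congr 1
  funext y
  rw [integral_mul_const]
  have e5 : ∫ τ, (ρ (α y - τ) : ℂ) = 1 := by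
    rw [integral_sub_left_eq_self (fun t => (ρ t : ℂ)) volume (α y)]
    rw [integral_complex_ofReal, hρ1]
    simp
  rw [e5, one_mul]

/-- the half space -/
abbrev Hs (α : E →L[ℝ] ℝ) (u : ℝ) : Set E := {y | α y < u}

omit [FiniteDimensional ℝ E] in
lemma measurableSet_Hs (u : ℝ) : MeasurableSet (Hs α u) :=
  measurableSet_lt α.continuous.measurable measurable_const

lemma sh_closed : IsClosedEmbedding (fun p : E × ℝ => (p.1 + p.2 • b, p.2)) := by
  have h : (fun p : E × ℝ => (p.1 + p.2 • b, p.2)) =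
      (((ContinuousLinearMap.fst ℝ E ℝ + (ContinuousLinearMap.snd ℝ E ℝ).smulRight b).prod
        (ContinuousLinearMap.snd ℝ E ℝ) : E × ℝ →L[ℝ] E × ℝ) : E × ℝ → E × ℝ) := by
    funext p; simp
  rw [h]
  refine LinearMap.isClosedEmbedding_of_injective
    (f := (((ContinuousLinearMap.fst ℝ E ℝ + (ContinuousLinearMap.snd ℝ E ℝ).smulRight b).prod
        (ContinuousLinearMap.snd ℝ E ℝ) : E × ℝ →L[ℝ] E × ℝ) : E × ℝ →ₗ[ℝ] E × ℝ))
    (LinearMap.ker_eq_bot.2 ?_)
  rintro ⟨y, t⟩ ⟨y', t'⟩ h'
  simp only [ContinuousLinearMap.coe_coe, ContinuousLinearMap.prod_apply,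
    ContinuousLinearMap.add_apply, ContinuousLinearMap.smulRight_apply,
    ContinuousLinearMap.coe_fst', ContinuousLinearMap.coe_snd', Prod.mk.injEq] at h'
  obtain ⟨h1, h2⟩ := h'
  subst h2
  rw [add_right_cancel h1]

include hb hρ hρc hρ1 in
/-- the half space divergence theorem, transversal direction -/
theorem half_b {A A' : E → ℂ} (hA : Continuous A) (hAc : HasCompactSupport A)
    (hA' : Continuous A') (hAc' : HasCompactSupport A')
    (hd : ∀ x, HasLineDerivAt ℝ A (A' x) x b) (u : ℝ) :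
    ∫ y in Hs α u, A' y ∂μ = Su μ α b ρ u A := by
  classical
  -- the function on `E × ℝ`
  set f : E × ℝ → ℂ := fun p => (ρ (α p.1 - p.2) : ℂ) * A' p.1 with hf
  have cf : Continuous f := by
    rw [hf]; fun_prop
  have sf : HasCompactSupport f := by
    set g : ℝ × E → ℂ := fun p => (ρ p.1 : ℂ) * A' p.2 with hg
    have hgs : HasCompactSupport g := by
      refine HasCompactSupport.of_support_subset_isCompact (hρc.prod hAc') ?_
      rintro ⟨v, q⟩ hp
      have h1 : ρ v ≠ 0 := fun h0 => hp (by simp [hg, h0])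
      have h2 : A' q ≠ 0 := fun h0 => hp (by simp [hg, h0])
      exact ⟨subset_tsupport _ h1, subset_tsupport _ h2⟩
    have e : f = g ∘ (fun p : E × ℝ => (α p.1 - p.2, p.1)) := by
      funext p; rfl
    rw [e]
    refine hgs.comp_isClosedEmbedding ?_
    have h : (fun p : E × ℝ => (α p.1 - p.2, p.1)) =
        ((((α.comp (ContinuousLinearMap.fst ℝ E ℝ)) - ContinuousLinearMap.snd ℝ E ℝ).prod
          (ContinuousLinearMap.fst ℝ E ℝ) : E × ℝ →L[ℝ] ℝ × E) : E × ℝ → ℝ × E) := by
      funext p; simp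
    rw [h]
    refine LinearMap.isClosedEmbedding_of_injective
      (f := ((((α.comp (ContinuousLinearMap.fst ℝ E ℝ)) - ContinuousLinearMap.snd ℝ E ℝ).prod
          (ContinuousLinearMap.fst ℝ E ℝ) : E × ℝ →L[ℝ] ℝ × E) : E × ℝ →ₗ[ℝ] ℝ × E))
      (LinearMap.ker_eq_bot.2 ?_)
    rintro ⟨y, t⟩ ⟨y', t'⟩ h'
    simp only [ContinuousLinearMap.coe_coe, ContinuousLinearMap.prod_apply,
      ContinuousLinearMap.sub_apply, ContinuousLinearMap.comp_apply,
      ContinuousLinearMap.coe_fst', ContinuousLinearMap.coe_snd', Prod.mk.injEq] at h'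
    obtain ⟨h1, h2⟩ := h'
    subst h2
    rw [sub_right_inj] at h1
    rw [h1]
  have hi : Integrable f (μ.prod (volume : Measure ℝ)) := cf.integrable_of_hasCompactSupport sf
  -- step 1
  have e0 : ∀ y : E, A' y = ∫ τ, (ρ (α y - τ) : ℂ) * A' y := by
    intro y
    rw [integral_mul_const, integral_sub_left_eq_self (fun t => (ρ t : ℂ)) volume (α y),
      integral_complex_ofReal, hρ1]
    simp
  have hS : MeasurableSet {p : E × ℝ | α p.1 < u} :=
    measurableSet_lt (α.continuous.measurable.comp measurable_fst) measurable_const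
  set g : E × ℝ → ℂ := fun p => {p : E × ℝ | α p.1 < u}.indicator f p with hg
  have hgi : Integrable g (μ.prod (volume : Measure ℝ)) := hi.indicator hS
  have e1 : ∫ y in Hs α u, A' y ∂μ = ∫ y, (∫ τ, g (y, τ)) ∂μ := by
    rw [← integral_indicator (measurableSet_Hs u)]
    congr 1
    funext y
    by_cases hy : α y < u
    · have h1 : (Hs α u).indicator A' y = A' y := indicator_of_mem (s := Hs α u) hy _
      have h2 : ∀ τ, g (y, τ) = f (y, τ) := fun τ =>
        indicator_of_mem (s := {p : E × ℝ | α p.1 < u}) (a := (y, τ)) hy _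
      rw [h1]
      simp_rw [h2]
      exact e0 y
    · have h1 : (Hs α u).indicator A' y = 0 := indicator_of_notMem (s := Hs α u) hy _
      have h2 : ∀ τ, g (y, τ) = 0 := fun τ =>
        indicator_of_notMem (s := {p : E × ℝ | α p.1 < u}) (a := (y, τ)) hy _
      rw [h1]
      simp_rw [h2]
      simp
  rw [e1, integral_integral_swap hgi]
  have e2 : ∀ τ : ℝ, ∫ y, g (y, τ) ∂μ = ∫ y, g (y + τ • b, τ) ∂μ := fun τ =>
    (integral_add_right_eq_self (fun y => g (y, τ)) (τ • b)).symm
  simp_rw [e2]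
  have hgi2 : Integrable (fun p : E × ℝ => g (p.1 + p.2 • b, p.2)) (μ.prod (volume : Measure ℝ)) := by
    have c3 : Continuous fun p : E × ℝ => f (p.1 + p.2 • b, p.2) := cf.comp (by fun_prop)
    have s3 : HasCompactSupport fun p : E × ℝ => f (p.1 + p.2 • b, p.2) :=
      sf.comp_isClosedEmbedding sh_closed
    have i3 := c3.integrable_of_hasCompactSupport s3 (μ := μ.prod (volume : Measure ℝ))
    have hS' : MeasurableSet {p : E × ℝ | α (p.1 + p.2 • b) < u} :=
      measurableSet_lt (α.continuous.measurable.comp (by fun_prop)) measurable_const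
    have e4 : (fun p : E × ℝ => g (p.1 + p.2 • b, p.2)) =
        {p : E × ℝ | α (p.1 + p.2 • b) < u}.indicator fun p : E × ℝ => f (p.1 + p.2 • b, p.2) := by
      funext p
      simp only [hg, indicator_apply, mem_setOf_eq]
    rw [e4]
    exact i3.indicator hS'
  rw [integral_integral_swap (f := fun (τ : ℝ) (y : E) => g (y + τ • b, τ)) (μ := volume)
    (ν := μ) hgi2.swap]
  unfold Su
  congr 1
  funext y
  -- inner integral
  have e5 : (fun τ : ℝ => g (y + τ • b, τ)) =
      (Iio (u - α y)).indicator fun τ => (ρ (α y) : ℂ) * A' (y + τ • b) := by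
    funext τ
    have e6 : α y + τ - τ = α y := add_sub_cancel_right _ _
    have e7 : (α y + τ < u) = (τ < u - α y) := by
      rw [lt_sub_iff_add_lt, add_comm]
    simp only [hg, hf, indicator_apply, mem_setOf_eq, map_add, map_smul, hb, smul_eq_mul, mul_one,
      e6, mem_Iio, e7]
  show ∫ τ, g (y + τ • b, τ) = _
  rw [e5, integral_indicator measurableSet_Iio, integral_const_mul]
  congr 1
  rw [← integral_Iic_eq_integral_Iio]
  have hb0 : b ≠ 0 := by
    rintro rfl
    simp at hb
  have hemb : IsClosedEmbedding fun τ : ℝ => y + τ • b := by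
    have h1 : IsClosedEmbedding fun τ : ℝ => τ • b :=
      LinearMap.isClosedEmbedding_of_injective (f := (LinearMap.id.smulRight b : ℝ →ₗ[ℝ] E))
        (LinearMap.ker_eq_bot.2 (fun s t hst => by
          simpa [hb0] using hst))
    exact (Homeomorph.addLeft y).isClosedEmbedding.comp h1
  have hderiv : ∀ τ : ℝ, HasDerivAt (fun τ : ℝ => A (y + τ • b)) (A' (y + τ • b)) τ := by
    intro τ
    have h1 := hd (y + τ • b)
    unfold HasLineDerivAt at h1
    have h2 : (fun t : ℝ => A (y + τ • b + t • b)) = (fun t : ℝ => (fun s : ℝ => A (y + s • b)) (τ + t)) := by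
      funext t
      simp only [add_smul, add_assoc]
    rw [h2] at h1
    have h4 := HasDerivAt.scomp (𝕜 := ℝ) (x := τ) (h := fun t : ℝ => t - τ) (h' := (1 : ℝ))
      (g₁ := fun t : ℝ => (fun s : ℝ => A (y + s • b)) (τ + t)) (g₁' := A' (y + τ • b))
      (by simpa using h1) ((hasDerivAt_id τ).sub_const τ)
    simpa [Function.comp_def] using h4
  rw [integral_Iic_of_hasDerivAt_of_tendsto' (m := 0) (fun τ _ => hderiv τ)]
  · simp
  · exact ((hA'.comp (by fun_prop)).integrable_of_hasCompactSupport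
      (hAc'.comp_isClosedEmbedding hemb)).integrableOn
  · have h1 : HasCompactSupport fun τ : ℝ => A (y + τ • b) := hAc.comp_isClosedEmbedding hemb
    have h2 := h1.is_zero_at_infty
    exact h2.mono_left atBot_le_cocompact

lemma hasDerivAt_line {c : E} {A A' : E → ℂ} (hd : ∀ x, HasLineDerivAt ℝ A (A' x) x c) (y : E)
    (τ : ℝ) : HasDerivAt (fun τ : ℝ => A (y + τ • c)) (A' (y + τ • c)) τ := by
  have h1 := hd (y + τ • c)
  unfold HasLineDerivAt at h1
  have h2 : (fun t : ℝ => A (y + τ • c + t • c)) = (fun t : ℝ => (fun s : ℝ => A (y + s • c)) (τ + t)) := by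
    funext t
    simp only [add_smul, add_assoc]
  rw [h2] at h1
  have h4 := HasDerivAt.scomp (𝕜 := ℝ) (x := τ) (h := fun t : ℝ => t - τ) (h' := (1 : ℝ))
    (g₁ := fun t : ℝ => (fun s : ℝ => A (y + s • c)) (τ + t)) (g₁' := A' (y + τ • c))
    (by simpa using h1) ((hasDerivAt_id τ).sub_const τ)
  simpa [Function.comp_def] using h4

omit [FiniteDimensional ℝ E] in
lemma half_shift (c : E) (A : E → ℂ) (u t : ℝ) :
    ∫ y in Hs α (u + t * α c), A y ∂μ = ∫ y in Hs α u, A (y + t • c) ∂μ := by
  rw [← integral_indicator (measurableSet_Hs _), ← integral_indicator (measurableSet_Hs _),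
    ← integral_add_right_eq_self _ (t • c)]
  congr 1
  funext y
  simp only [indicator_apply, mem_setOf_eq, map_add, map_smul, smul_eq_mul, add_lt_add_iff_right]

/-- derivative of half space integrals -/
lemma half_deriv {c : E} {A A' : E → ℂ} (hA : Continuous A) (hAc : HasCompactSupport A)
    (hA' : Continuous A') (hAc' : HasCompactSupport A')
    (hd : ∀ x, HasLineDerivAt ℝ A (A' x) x c) (u : ℝ) :
    HasDerivAt (fun t : ℝ => ∫ y in Hs α (u + t * α c), A y ∂μ) (∫ y in Hs α u, A' y ∂μ) 0 := by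
  have e : (fun t : ℝ => ∫ y in Hs α (u + t * α c), A y ∂μ) =
      fun t : ℝ => ∫ y in Hs α u, A (y + t • c) ∂μ := funext fun t => half_shift c A u t
  rw [e]
  obtain ⟨C, hC⟩ := hAc'.exists_bound_of_continuous hA'
  set K : Set E := (fun p : E × ℝ => p.1 - p.2 • c) '' (tsupport A' ×ˢ Icc (-1) 1) with hK
  have hKc : IsCompact K := (IsCompact.prod hAc' isCompact_Icc).image (by fun_prop)
  have h := hasDerivAt_integral_of_dominated_loc_of_deriv_le (𝕜 := ℝ) (μ := μ.restrict (Hs α u))
    (F := fun (t : ℝ) (y : E) => A (y + t • c)) (F' := fun (t : ℝ) (y : E) => A' (y + t • c))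
    (x₀ := (0 : ℝ)) (s := Ioo (-1) 1) (bound := K.indicator fun _ => C)
    (Ioo_mem_nhds (by norm_num) (by norm_num))
    (Eventually.of_forall fun t => (hA.comp (by fun_prop)).aestronglyMeasurable)
    (by
      have h0 : IntegrableOn A (Hs α u) μ := (hA.integrable_of_hasCompactSupport hAc).integrableOn
      simpa [IntegrableOn] using h0)
    ((hA'.comp (by fun_prop)).aestronglyMeasurable) ?_ ?_ ?_
  · simpa using h.2
  · refine Eventually.of_forall fun y t ht => ?_
    by_cases hy : y ∈ K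
    · rw [indicator_of_mem hy]
      exact hC _
    · rw [indicator_of_notMem hy]
      have : A' (y + t • c) = 0 := by
        by_contra h0
        exact hy ⟨(y + t • c, t), ⟨subset_tsupport _ h0, Ioo_subset_Icc_self ht⟩, by simp⟩
      rw [this, norm_zero]
  · have h1 : IntegrableOn (fun _ : E => C) K μ := integrableOn_const hKc.measure_lt_top.ne
    exact ((integrable_indicator_iff hKc.measurableSet).2 h1).integrableOn
  · exact Eventually.of_forall fun y t _ => hasDerivAt_line hd y t

include hb hρ hρc hρ1 in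
/-- the half space divergence theorem -/
theorem half_c {c : E} {A A' B' : E → ℂ} (hA : Continuous A) (hAc : HasCompactSupport A)
    (hA' : Continuous A') (hAc' : HasCompactSupport A')
    (hd : ∀ x, HasLineDerivAt ℝ A (A' x) x c)
    (hB' : Continuous B') (hBc' : HasCompactSupport B')
    (hdb : ∀ x, HasLineDerivAt ℝ A (B' x) x b) (u : ℝ) :
    ∫ y in Hs α u, A' y ∂μ = (α c : ℂ) * Su μ α b ρ u A := by
  have h1 := half_deriv (μ := μ) (α := α) hA hAc hA' hAc' hd u
  have h2 := half_deriv (μ := μ) (α := α) hA hAc hB' hBc' hdb u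
  rw [half_b hb hρ hρc hρ1 hA hAc hB' hBc' hdb u] at h2
  simp only [hb, mul_one] at h2
  have h3 : HasDerivAt (fun t : ℝ => t * α c) (α c) 0 := by
    simpa using (hasDerivAt_id (0 : ℝ)).mul_const (α c)
  have h4 := HasDerivAt.scomp (𝕜 := ℝ) (x := (0 : ℝ)) (h := fun t : ℝ => t * α c) (h' := α c)
    (g₁ := fun t : ℝ => ∫ y in Hs α (u + t), A y ∂μ) (g₁' := Su μ α b ρ u A)
    (by simpa using h2) h3
  have h5 := h1.unique (by simpa [Function.comp_def] using h4)
  exact h5

/-- compactly supported functions with continuous line derivatives -/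
structure CD (c : E) (A A' : E → ℂ) : Prop where
  cont : Continuous A
  supp : HasCompactSupport A
  cont' : Continuous A'
  supp' : HasCompactSupport A'
  der : ∀ x, HasLineDerivAt ℝ A (A' x) x c

lemma pl_closed (u : ℝ) : IsClosedEmbedding fun y : E => (α y, y + (u - α y) • b) := by
  have h1 : IsClosedEmbedding fun y : E => (α y, y - (α y) • b) := by
    have h : (fun y : E => (α y, y - (α y) • b)) =
        ((α.prod (ContinuousLinearMap.id ℝ E - α.smulRight b) : E →L[ℝ] ℝ × E) : E → ℝ × E) := by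
      funext p; simp
    rw [h]
    refine LinearMap.isClosedEmbedding_of_injective
      (f := ((α.prod (ContinuousLinearMap.id ℝ E - α.smulRight b) : E →L[ℝ] ℝ × E) :
        E →ₗ[ℝ] ℝ × E)) (LinearMap.ker_eq_bot.2 ?_)
    intro y y' h'
    simp only [ContinuousLinearMap.coe_coe, ContinuousLinearMap.prod_apply,
      ContinuousLinearMap.sub_apply, ContinuousLinearMap.coe_id', id_eq,
      ContinuousLinearMap.smulRight_apply, Prod.mk.injEq] at h'
    obtain ⟨h1, h2⟩ := h'
    rw [h1] at h2
    exact sub_left_injective h2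
  have h2 : IsClosedEmbedding fun p : ℝ × E => (p.1, p.2 + u • b) :=
    ((Homeomorph.refl ℝ).prodCongr (Homeomorph.addRight (u • b))).isClosedEmbedding
  have h3 := h2.comp h1
  have e : (fun y : E => (α y, y + (u - α y) • b)) =
      (fun p : ℝ × E => (p.1, p.2 + u • b)) ∘ fun y : E => (α y, y - (α y) • b) := by
    funext y
    simp only [Function.comp_apply, sub_smul, Prod.mk.injEq, true_and]
    abel
  rw [e]
  exact h3

include hρ hρc in
lemma Su_int {G : E → ℂ} (hG : Continuous G) (hGc : HasCompactSupport G) (u : ℝ) :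
    Integrable (fun y : E => (ρ (α y) : ℂ) * G (y + (u - α y) • b)) μ := by
  set f : ℝ × E → ℂ := fun p => (ρ p.1 : ℂ) * G p.2 with hf
  have hfs : HasCompactSupport f := by
    refine HasCompactSupport.of_support_subset_isCompact (hρc.prod hGc) ?_
    rintro ⟨v, q⟩ hp
    have h1 : ρ v ≠ 0 := fun h0 => hp (by simp [hf, h0])
    have h2 : G q ≠ 0 := fun h0 => hp (by simp [hf, h0])
    exact ⟨subset_tsupport _ h1, subset_tsupport _ h2⟩
  have hfc : Continuous f := by
    rw [hf]
    exact (Complex.continuous_ofReal.comp (hρ.comp continuous_fst)).mul (hG.comp continuous_snd)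
  have e : (fun y : E => (ρ (α y) : ℂ) * G (y + (u - α y) • b)) =
      f ∘ (fun y : E => (α y, y + (u - α y) • b)) := by
    funext y; rfl
  rw [e]
  have hcl := pl_closed (α := α) (b := b) u
  exact (hfc.comp hcl.continuous).integrable_of_hasCompactSupport
    (hfs.comp_isClosedEmbedding hcl)

include hρ hρc in
/-- integration by parts along the hyperplane -/
theorem Su_tan {c : E} (hc : α c = 0) {A A' : E → ℂ} (h : CD c A A') (u : ℝ) :
    Su μ α b ρ u A' = 0 := by
  have d1 : ∀ x : E, HasLineDerivAt ℝ (fun y : E => (ρ (α y) : ℂ)) 0 x c := by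
    intro x
    unfold HasLineDerivAt
    simp only [map_add, map_smul, hc, smul_zero, add_zero]
    exact hasDerivAt_const _ _
  have d2 : ∀ x : E, HasLineDerivAt ℝ (fun y : E => A (y + (u - α y) • b))
      (A' (x + (u - α x) • b)) x c := by
    intro x
    have h1 := h.der (x + (u - α x) • b)
    unfold HasLineDerivAt at h1 ⊢
    simp only [map_add, map_smul, hc, smul_zero, add_zero]
    have e : (fun t : ℝ => A (x + t • c + (u - α x) • b)) =
        fun t : ℝ => A (x + (u - α x) • b + t • c) := by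
      funext t
      rw [add_right_comm]
    rw [e]
    exact h1
  have i1 := Su_int (μ := μ) (b := b) (α := α) hρ hρc h.cont h.supp u
  have i2 := Su_int (μ := μ) (b := b) (α := α) hρ hρc h.cont' h.supp' u
  have h0 := integral_bilinear_hasLineDerivAt_right_eq_neg_left_of_integrable (μ := μ)
    (f := fun y : E => (ρ (α y) : ℂ)) (f' := fun _ => (0 : ℂ))
    (g := fun y : E => A (y + (u - α y) • b)) (g' := fun y : E => A' (y + (u - α y) • b)) (v := c)
    (B := ContinuousLinearMap.mul ℝ ℂ)
    (by simp only [ContinuousLinearMap.mul_apply', zero_mul]; exact integrable_zero _ _ _)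
    (by simp only [ContinuousLinearMap.mul_apply']; exact i2)
    (by simp only [ContinuousLinearMap.mul_apply']; exact i1)
    (fun x _ => d1 x) (fun x _ => d2 x)
  simp only [ContinuousLinearMap.mul_apply', zero_mul, integral_zero, neg_zero] at h0
  exact h0

end Vale.Agent.P352.H755
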