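import Vale.Agent.P352.H755.App
import Vale.Agent.P352.H746.Loc
import Vale.Agent.P352.H846.BoxLim
import Vale.Agent.P352.H846.Lfw

set_option linter.all false

noncomputable section

open MeasureTheory SchwartzMap Filter Topology Set
open Complex hiding eta
open scoped SchwartzMap ComplexConjugate ENNReal NNReal LineDeriv ContDiff

namespace Vale.Agent.P352.H755

open GF (Ix V Fn Sch ev pd bar sim bas o eta)
open H246 H496 H746
open UniformSpace (Completion)

variable {D : Type*} [NormedAddCommGroup D] [InnerProductSpace ℂ D]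
variable {Q : GF.Theory D}
variable {H : D → D} {alg : Set V → Set (D → D)} {S : V → ℝ → D → D}

/-- the plane source with a cutoff -/
def Sc (a b : V) (κ : V → ℝ) (σ : ℝ → ℝ) (R : ℝ) (x : V) : ℝ := cut b a κ R x * σ (GF.mdot b x)

lemma mdot_add (a x y : V) : GF.mdot a (x + y) = GF.mdot a x + GF.mdot a y := by
  simp only [← ml_apply, map_add]

lemma mdot_smul (a : V) (t : ℝ) (y : V) : GF.mdot a (t • y) = t * GF.mdot a y := by
  simp only [← ml_apply, map_smul, smul_eq_mul]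

lemma mdot_comm (a b : V) : GF.mdot a b = GF.mdot b a := by
  unfold GF.mdot
  exact Finset.sum_congr rfl fun i _ => by ring

lemma cut_line {a b : V} (haa : GF.mdot a a = 0) (hab : GF.mdot a b = 1) (κ : V → ℝ) (R t : ℝ)
    (y : V) : cut b a κ R (y + t • a) = cut b a κ R y := by
  unfold cut
  have h1 : GF.mdot a (y + t • a) = GF.mdot a y := by rw [mdot_add, mdot_smul, haa]; ring
  have h2 : GF.mdot b (y + t • a) = GF.mdot b y + t := by
    rw [mdot_add, mdot_smul, mdot_comm b a, hab]; ring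
  rw [h1, h2]
  congr 2
  have h3 : y + t • a - (GF.mdot b y + t) • a - GF.mdot a y • b =
      y - GF.mdot b y • a - GF.mdot a y • b := by
    rw [add_smul]
    abel
  rw [h3]

lemma Sc_fd {a b : V} (haa : GF.mdot a a = 0) (hab : GF.mdot a b = 1) {κ : V → ℝ} {σ : ℝ → ℝ}
    (hσ : Tst σ) {R : ℝ} (hd : Differentiable ℝ (Sc a b κ σ R)) (y : V) :
    fderiv ℝ (Sc a b κ σ R) y a = cut b a κ R y * deriv σ (GF.mdot b y) := by
  have h1 : HasLineDerivAt ℝ (Sc a b κ σ R) (fderiv ℝ (Sc a b κ σ R) y a) y a :=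
    (hd y).hasFDerivAt.hasLineDerivAt a
  have h2 : HasLineDerivAt ℝ (Sc a b κ σ R) (cut b a κ R y * deriv σ (GF.mdot b y)) y a := by
    unfold HasLineDerivAt Sc
    have e : (fun t : ℝ => cut b a κ R (y + t • a) * σ (GF.mdot b (y + t • a))) =
        fun t => cut b a κ R y * σ (GF.mdot b y + t) := by
      funext t
      rw [cut_line haa hab, mdot_add, mdot_smul, mdot_comm b a, hab, mul_one]
    rw [e]
    have h3 : HasDerivAt σ (deriv σ (GF.mdot b y)) (GF.mdot b y + 0) := by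
      rw [add_zero]
      exact (hσ.diff _).hasDerivAt
    exact ((h3.comp_const_add (GF.mdot b y) 0)).const_mul _
  exact h1.unique h2

lemma cut_tendsto {a b : V} {κ : V → ℝ} (hκ1 : ∀ᶠ x in 𝓝 (0 : V), κ x = 1) (y : V) :
    ∀ᶠ R in atTop, cut b a κ R y = 1 := by
  have h1 : Tendsto (fun R : ℝ => (GF.mdot a y / R ^ 2) • b +
      R⁻¹ • (y - GF.mdot b y • a - GF.mdot a y • b)) atTop (𝓝 0) := by
    have h2 : Tendsto (fun R : ℝ => GF.mdot a y / R ^ 2) atTop (𝓝 0) :=
      tendsto_const_nhds.div_atTop (tendsto_pow_atTop (by norm_num))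
    have h3 := (h2.smul_const b).add
      (tendsto_inv_atTop_zero.smul_const (y - GF.mdot b y • a - GF.mdot a y • b))
    simpa using h3
  exact h1.eventually hκ1

lemma cut_le {κ : V → ℝ} (hκ : Tst κ) : ∃ C, 0 ≤ C ∧ ∀ (a b : V) R y, |cut b a κ R y| ≤ C := by
  obtain ⟨C, hC⟩ := hκ.2.exists_bound_of_continuous hκ.1.continuous
  exact ⟨C, (norm_nonneg _).trans (hC 0), fun a b R y => hC _⟩

lemma cut_cont {κ : V → ℝ} (hκ : Tst κ) (a b : V) (R : ℝ) : Continuous (cut b a κ R) := by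
  unfold cut
  have h1 : ∀ a : V, Continuous fun y : V => GF.mdot a y := fun a => by
    simp only [← ml_apply]
    exact (ml a).continuous
  have h2 := h1 a
  have h3 := h1 b
  exact hκ.1.continuous.comp (by fun_prop)

lemma contDiff_mdot (a : V) : ContDiff ℝ ∞ fun x : V => GF.mdot a x := by
  simp only [← ml_apply]
  exact (ml a).contDiff

lemma Yf_cd (a b : V) {Φ : ℝ → ℝ} (hΦ : Tst Φ) : ContDiff ℝ ∞ (Yf a b Φ) := by
  have h1 := (tst_deriv hΦ).1
  have h2 := (tst_deriv (tst_deriv hΦ)).1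
  have h3 : ContDiff ℝ ∞ fun x : V => x - GF.mdot a x • b - GF.mdot b x • a :=
    (contDiff_id.sub ((contDiff_mdot a).smul contDiff_const)).sub
      ((contDiff_mdot b).smul contDiff_const)
  have h4 : ContDiff ℝ ∞ fun x : V => GF.mdot (x - GF.mdot a x • b - GF.mdot b x • a)
      (x - GF.mdot a x • b - GF.mdot b x • a) := by
    unfold GF.mdot
    refine ContDiff.sum fun i _ => ?_
    have h5 := (contDiff_pi (n := ∞) (𝕜 := ℝ)).1 h3 i
    exact (contDiff_const.mul h5).mul h5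
  unfold Yf
  exact (((h1.comp (contDiff_mdot a)).smul h3).add (((contDiff_const.mul
    (h2.comp (contDiff_mdot a))).mul h4).smul contDiff_const)).add
    ((contDiff_const.mul (hΦ.1.comp (contDiff_mdot a))).smul contDiff_const)

/-- limit of the terms on the null hyperplanes -/
theorem lim_plane {a b : V} (haa : GF.mdot a a = 0) (hbb : GF.mdot b b = 0)
    (hab : GF.mdot a b = 1) {κ : V → ℝ} (hκ : Tst κ) (hκ1 : ∀ᶠ x in 𝓝 (0 : V), κ x = 1)
    {σ : ℝ → ℝ} (hσ : Tst σ) (ψ : ℝ → ℂ) {Fa Fl : V → ℂ}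
    (i1 : Integrable fun y : V => ψ (GF.mdot a y) * ((σ (GF.mdot b y) : ℂ) * Fa y))
    (i2 : Integrable fun y : V => ψ (GF.mdot a y) * (((deriv σ (GF.mdot b y) : ℝ) : ℂ) * Fl y)) :
    Tendsto (fun R => ∫ y : V, ψ (GF.mdot a y) * ((Sc a b κ σ R y : ℂ) * Fa y +
        6 * ((fderiv ℝ (Sc a b κ σ R) y a : ℝ) : ℂ) * Fl y)) atTop
      (𝓝 (∫ y : V, ψ (GF.mdot a y) * ((σ (GF.mdot b y) : ℂ) * Fa y +
        6 * ((deriv σ (GF.mdot b y) : ℝ) : ℂ) * Fl y))) := by
  have hba : GF.mdot b a = 1 := by rw [mdot_comm, hab]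
  obtain ⟨C, hC, hCb⟩ := cut_le hκ
  have hd : ∀ R : ℝ, 1 ≤ R → Differentiable ℝ (Sc a b κ σ R) := fun R hR =>
    (H846.cut_tst hbb haa hba hκ hσ hR).diff
  have e : ∀ R : ℝ, 1 ≤ R → ∀ y : V, ψ (GF.mdot a y) * ((Sc a b κ σ R y : ℂ) * Fa y +
        6 * ((fderiv ℝ (Sc a b κ σ R) y a : ℝ) : ℂ) * Fl y) =
      (cut b a κ R y : ℂ) * (ψ (GF.mdot a y) * ((σ (GF.mdot b y) : ℂ) * Fa y) +
        6 * (ψ (GF.mdot a y) * (((deriv σ (GF.mdot b y) : ℝ) : ℂ) * Fl y))) := by
    intro R hR y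
    rw [Sc_fd haa hab hσ (hd R hR)]
    unfold Sc
    push_cast
    ring
  have i3 := i1.add (i2.const_mul 6)
  refine tendsto_integral_filter_of_dominated_convergence
    (fun y => C * ‖ψ (GF.mdot a y) * ((σ (GF.mdot b y) : ℂ) * Fa y) +
        6 * (ψ (GF.mdot a y) * (((deriv σ (GF.mdot b y) : ℝ) : ℂ) * Fl y))‖) ?_ ?_ ?_ ?_
  · filter_upwards [eventually_ge_atTop (1 : ℝ)] with R hR
    simp only [e R hR]
    exact ((continuous_ofReal.comp (cut_cont hκ a b R)).aestronglyMeasurable).mul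
      i3.aestronglyMeasurable
  · filter_upwards [eventually_ge_atTop (1 : ℝ)] with R hR
    refine Eventually.of_forall fun y => ?_
    rw [e R hR, norm_mul, norm_real]
    exact mul_le_mul_of_nonneg_right (hCb a b R y) (norm_nonneg _)
  · exact i3.norm.const_mul C
  · refine Eventually.of_forall fun y => ?_
    refine Tendsto.congr' ?_ tendsto_const_nhds
    filter_upwards [eventually_ge_atTop (1 : ℝ), cut_tendsto (a := a) (b := b) hκ1 y] with R hR h1
    rw [e R hR, h1]
    push_cast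
    ring

/-- limit of the local term -/
theorem lim_loc {a b : V} (haa : GF.mdot a a = 0) (hbb : GF.mdot b b = 0)
    (hab : GF.mdot a b = 1) {κ : V → ℝ} (hκ : Tst κ) (hκ1 : ∀ᶠ x in 𝓝 (0 : V), κ x = 1)
    {Φ σ : ℝ → ℝ} (hΦ : Tst Φ) (hσ : Tst σ) {A : Ix → V → ℂ} (hA : ∀ c, Continuous (A c))
    (hi : ∀ c, Integrable fun y : V => (1 + ‖y‖) ^ 2 * ‖A c y‖) :
    Tendsto (fun R => ∑ c, ∫ y : V, (act (Yf a b Φ) (fun x => deriv Φ (GF.mdot a x))
        (fun i => dr i (Sc a b κ σ R)) c y : ℂ) * A c y) atTop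
      (𝓝 (∫ y : V, (((-(1 / 2) * deriv (deriv Φ) (GF.mdot a y) * deriv (deriv σ) (GF.mdot b y) *
        Wq a b y : ℝ) : ℂ) * (∑ c, ((eta c * b c : ℝ) : ℂ) * A c y) +
        ((deriv (deriv Φ) (GF.mdot a y) * deriv σ (GF.mdot b y) : ℝ) : ℂ) *
          ∑ c, ((eta c * prp a b y c : ℝ) : ℂ) * A c y))) := by
  have hba : GF.mdot b a = 1 := by rw [mdot_comm, hab]
  obtain ⟨C, hC⟩ := H746.act_dom haa hbb hab hκ hκ1 hΦ hσ
  have hY : ContDiff ℝ ∞ (Yf a b Φ) := Yf_cd a b hΦ
  have hψ : ContDiff ℝ ∞ fun x : V => deriv Φ (GF.mdot a x) :=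
    (tst_deriv hΦ).1.comp (contDiff_mdot a)
  have hSc : ∀ R : ℝ, 1 ≤ R → Tst (Sc a b κ σ R) := fun R hR =>
    H846.cut_tst hbb haa hba hκ hσ hR
  have hact : ∀ (R : ℝ), 1 ≤ R → ∀ c, Tst (act (Yf a b Φ) (fun x => deriv Φ (GF.mdot a x))
        (fun i => dr i (Sc a b κ σ R)) c) := fun R hR c =>
    H746.act_tst hY hψ (fun i => (hSc R hR).dr i) c
  set E : Ix → V → ℝ := fun c y => -(1 / 2) * deriv (deriv Φ) (GF.mdot a y) *
      deriv (deriv σ) (GF.mdot b y) * (2 * GF.mdot a y * GF.mdot b y - GF.mdot y y) *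
        (eta c * b c) + deriv (deriv Φ) (GF.mdot a y) * deriv σ (GF.mdot b y) *
        (eta c * (y c - GF.mdot a y * b c - GF.mdot b y * a c)) with hE
  have hlim : ∀ c y, ∀ᶠ R in atTop, act (Yf a b Φ) (fun x => deriv Φ (GF.mdot a x))
      (fun i => dr i (Sc a b κ σ R)) c y = E c y := fun c y =>
    H746.act_ev haa hbb hab hκ hκ1 hΦ hσ c y
  have hEb : ∀ c y, |E c y| ≤ C * (1 + ‖y‖) ^ 2 := by
    intro c y
    obtain ⟨R, h1, h2⟩ := ((hlim c y).and (eventually_ge_atTop (1 : ℝ))).exists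
    rw [← h1]
    exact hC R h2 c y
  have hT : ∀ c, Tendsto (fun R => ∫ y : V, (act (Yf a b Φ) (fun x => deriv Φ (GF.mdot a x))
        (fun i => dr i (Sc a b κ σ R)) c y : ℂ) * A c y) atTop
        (𝓝 (∫ y : V, (E c y : ℂ) * A c y)) := by
    intro c
    refine tendsto_integral_filter_of_dominated_convergence
      (fun y => C * ((1 + ‖y‖) ^ 2 * ‖A c y‖)) ?_ ?_ ((hi c).const_mul C) ?_
    · filter_upwards [eventually_ge_atTop (1 : ℝ)] with R hR
      exact ((continuous_ofReal.comp (hact R hR c).cont).mul (hA c)).aestronglyMeasurable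
    · filter_upwards [eventually_ge_atTop (1 : ℝ)] with R hR
      refine Eventually.of_forall fun y => ?_
      rw [norm_mul, norm_real, ← mul_assoc]
      exact mul_le_mul_of_nonneg_right (hC R hR c y) (norm_nonneg _)
    · refine Eventually.of_forall fun y => ?_
      refine Tendsto.congr' ?_ tendsto_const_nhds
      filter_upwards [hlim c y] with R h1
      rw [h1]
  have hEc : ∀ c, Continuous (E c) := by
    intro c
    have h1 : ∀ a : V, Continuous fun y : V => GF.mdot a y := fun a => by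
      simp only [← ml_apply]
      exact (ml a).continuous
    have h2 := h1 a
    have h3 := h1 b
    have h4 : Continuous fun y : V => GF.mdot y y := by
      unfold GF.mdot
      fun_prop
    have h5 : Continuous (deriv (deriv Φ)) := (tst_deriv (tst_deriv hΦ)).cont
    have h6 : Continuous (deriv σ) := (tst_deriv hσ).cont
    have h7 : Continuous (deriv (deriv σ)) := (tst_deriv (tst_deriv hσ)).cont
    have h8 := h5.comp h2
    have h9 := h6.comp h3
    have h10 := h7.comp h3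
    simp only [Function.comp_def] at h8 h9 h10
    simp only [hE]
    fun_prop
  have hEi : ∀ c, Integrable fun y : V => (E c y : ℂ) * A c y := by
    intro c
    refine ((hi c).const_mul C).mono' ((continuous_ofReal.comp (hEc c)).mul
      (hA c)).aestronglyMeasurable (Eventually.of_forall fun y => ?_)
    rw [norm_mul, norm_real, ← mul_assoc]
    exact mul_le_mul_of_nonneg_right (hEb c y) (norm_nonneg _)
  have hsum := tendsto_finset_sum (Finset.univ : Finset Ix) fun c _ => hT c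
  rw [← integral_finset_sum _ fun c _ => hEi c] at hsum
  have e : ∀ y : V, ∑ c, (E c y : ℂ) * A c y =
      (((-(1 / 2) * deriv (deriv Φ) (GF.mdot a y) * deriv (deriv σ) (GF.mdot b y) *
        Wq a b y : ℝ) : ℂ) * (∑ c, ((eta c * b c : ℝ) : ℂ) * A c y) +
        ((deriv (deriv Φ) (GF.mdot a y) * deriv σ (GF.mdot b y) : ℝ) : ℂ) *
          ∑ c, ((eta c * prp a b y c : ℝ) : ℂ) * A c y) := by
    intro y
    rw [Finset.mul_sum, Finset.mul_sum, ← Finset.sum_add_distrib]
    refine Finset.sum_congr rfl fun c _ => ?_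
    simp only [hE, Wq, prp, Pi.sub_apply, Pi.smul_apply, smul_eq_mul]
    push_cast
    ring
  simp only [e] at hsum
  exact hsum

end Vale.Agent.P352.H755
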