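import Vale.Agent.P352.H15.BkDefs
import Vale.Agent.P352.H846.CutTst
import Vale.Agent.P352.H246.Vec
import Mathlib.Analysis.Distribution.AEEqOfIntegralContDiff

/-!
# Matrix elements of the smeared stress tensor, limits of cutoffs
-/

set_option linter.all false

noncomputable section

open MeasureTheory Filter Topology Set
open scoped ContDiff ComplexConjugate

namespace Vale.Agent.P352.H755

open GF (Ix V Fn bas eta pd bar sim o)
open H246 H496 H15

variable {D : Type*} [NormedAddCommGroup D] [InnerProductSpace ℂ D] {Q : GF.Theory D}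
  {T : Ix → Ix → GF.Fld D} {J : Ix → GF.Fld D} {A : (V → V) → D → D} {K : V → D → D}

/-- real test functions are test functions -/
lemma tstIs {g : V → ℝ} (hg : Tst g) : GF.IsTest (fun x => (g x : ℂ)) := by
  have h1 : ContDiff ℝ ((⊤ : ℕ∞) : WithTop ℕ∞) (fun x : V => (g x : ℂ)) :=
    Complex.ofRealCLM.contDiff.comp hg.1
  have h2 : HasCompactSupport (fun x : V => (g x : ℂ)) :=
    hg.2.comp_left (g := fun r : ℝ => (r : ℂ)) (by simp)
  exact ⟨h2.toSchwartzMap h1, rfl⟩

/-- matrix elements of the smeared tensor -/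
def mt (T : Ix → Ix → GF.Fld D) (w v : D) (F : Ix → Ix → V → ℝ) : ℂ := inner ℂ w (sm T F v)

lemma mt_eq (w v : D) (F : Ix → Ix → V → ℝ) :
    mt T w v F = ∑ m, ∑ n, inner ℂ w (T m n (fun x => (F m n x : ℂ)) v) := by
  unfold mt sm
  rw [inner_sum]
  exact Finset.sum_congr rfl fun m _ => inner_sum _ _ _

lemma mt_add (hT : Q.IsStress T) {F G : Ix → Ix → V → ℝ} (hF : ∀ m n, Tst (F m n))
    (hG : ∀ m n, Tst (G m n)) (c : ℝ) (w v : D) :
    mt T w v (fun m n x => F m n x + c * G m n x) = mt T w v F + c * mt T w v G := by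
  simp only [mt_eq]
  rw [Finset.mul_sum, ← Finset.sum_add_distrib]
  refine Finset.sum_congr rfl fun m _ => ?_
  rw [Finset.mul_sum, ← Finset.sum_add_distrib]
  refine Finset.sum_congr rfl fun n _ => ?_
  have h := Q.lin (T m n) (fun x => (F m n x : ℂ)) (fun x => (G m n x : ℂ)) c v
    (Q.bose_fld _ (hT.bose m n)) (tstIs (hF m n)) (tstIs (hG m n))
  have e : (fun x => ((F m n x + c * G m n x : ℝ) : ℂ)) =
      fun x => (F m n x : ℂ) + (c : ℂ) * (G m n x : ℂ) := by
    funext x; push_cast; ring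
  rw [e, h, inner_add_right, inner_smul_right]

lemma mt_herm (hT : Q.IsStress T) {F : Ix → Ix → V → ℝ} (hF : ∀ m n, Tst (F m n)) (w v : D) :
    mt T w v F = conj (mt T v w F) := by
  simp only [mt_eq, map_sum]
  refine Finset.sum_congr rfl fun m _ => Finset.sum_congr rfl fun n _ => ?_
  have h := hT.herm m n (fun x => (F m n x : ℂ)) v w (tstIs (hF m n))
  have e : bar (fun x => (F m n x : ℂ)) = fun x => (F m n x : ℂ) := by
    funext x; simp [bar]
  rw [e] at h
  rw [← h, inner_conj_symm]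

lemma mt_trans (hT : Q.IsStress T) {F : Ix → Ix → V → ℝ} (hF : ∀ m n, Tst (F m n)) (x0 : V)
    (w v : D) : mt T (Q.U 1 GF.one x0 w) (Q.U 1 GF.one x0 v) F =
      mt T w v (fun m n x => F m n (x + x0)) := by
  simp only [mt_eq]
  refine Finset.sum_congr rfl fun m _ => Finset.sum_congr rfl fun n _ => ?_
  rw [Q.transl (T m n) x0 _ v (Q.bose_fld _ (hT.bose m n)) (tstIs (hF m n)),
    Q.U_inner 1 GF.one x0 _ _ one_pos isLor_one]
  refine congrArg (fun f => inner ℂ w (T m n f v)) ?_
  funext x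
  have e : sim 1 GF.one x0 x = x + x0 := by
    funext k
    simp [sim, GF.one, bas, add_comm]
  rw [e]

/-- the functions `ctf` are test functions -/
lemma ctf_tst {a b : V} {κ : V → ℝ} {ψ : ℝ → ℝ} (h : Adm a b κ ψ) (y : V) {R : ℝ} (hR : 1 ≤ R) :
    Tst (ctf a b κ y ψ R) := by
  obtain ⟨ha, hb, hab, hκ, -, hψ⟩ := h
  have h1 : Tst fun u : ℝ => ψ (u + GF.mdot a y) :=
    ⟨hψ.1.comp (contDiff_id.add contDiff_const), hψ.2.comp_homeomorph (Homeomorph.addRight _)⟩
  have h2 := H846.cut_tst ha.1 hb.1 hab hκ h1 hR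
  have h3 : Tst fun x => cut a b κ R (x - y) * ψ (GF.mdot a (x - y) + GF.mdot a y) :=
    ⟨h2.1.comp (contDiff_id.sub contDiff_const), by
      have := h2.2.comp_homeomorph (Homeomorph.subRight y)
      exact this⟩
  have e : ctf a b κ y ψ R = fun x => cut a b κ R (x - y) * ψ (GF.mdot a (x - y) + GF.mdot a y) := by
    funext x
    unfold ctf
    congr 2
    simp only [GF.mdot, Fin.sum_univ_four, Pi.sub_apply]; ring
  rw [e]; exact h3

/-- continuous functions on the line are determined by their integrals -/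
lemma fun_uniqueR {h h' : ℝ → ℂ} (hc : Continuous h) (hc' : Continuous h')
    (he : ∀ g : ℝ → ℝ, Tst g → ∫ x, (g x : ℂ) * h x = ∫ x, (g x : ℂ) * h' x) : h = h' := by
  have h1 : ∀ᵐ x ∂(volume : Measure ℝ), h x = h' x := by
    refine ae_eq_of_integral_contDiff_smul_eq hc.locallyIntegrable hc'.locallyIntegrable
      fun g hg hgc => ?_
    simpa [Complex.real_smul] using he g ⟨hg, hgc⟩
  exact MeasureTheory.Measure.eq_of_ae_eq h1 hc hc'

lemma tst_intR {g : ℝ → ℝ} (hg : Tst g) {f : ℝ → ℂ} (hf : Continuous f) :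
    Integrable fun x => (g x : ℂ) * f x := by
  have hgc : HasCompactSupport fun y => (g y : ℂ) :=
    hg.2.comp_left (g := fun r : ℝ => (r : ℂ)) (by simp)
  exact ((Complex.continuous_ofReal.comp hg.1.continuous).mul hf).integrable_of_hasCompactSupport
    hgc.mul_right

end Vale.Agent.P352.H755
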