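import Vale.Agent.P352.H755.R7d
import Mathlib.Analysis.Calculus.BumpFunction.Normed

/-!
# Functions with vanishing weak derivative, translations along the null plane
-/

set_option linter.all false

noncomputable section

open MeasureTheory Filter Topology Set
open scoped ContDiff ComplexConjugate

namespace Vale.Agent.P352.H755

open GF (Ix V Fn bas eta pd bar sim o)
open H246 H496 H15

variable {D : Type*} [NormedAddCommGroup D] [InnerProductSpace ℂ D] {Q : GF.Theory D}
  {T : Ix → Ix → GF.Fld D} {J : Ix → GF.Fld D} {A : (V → V) → D → D} {K : V → D → D}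

lemma prim_tst {ψ : ℝ → ℝ} (hψ : Tst ψ) (h0 : ∫ u, ψ u = 0) :
    ∃ G : ℝ → ℝ, Tst G ∧ ∀ u, deriv G u = ψ u := by
  obtain ⟨M, hM⟩ := hψ.2.isCompact.isBounded.subset_closedBall (0 : ℝ)
  have hc := hψ.1.continuous
  have hsupp : ∀ t, M < |t| → ψ t = 0 := by
    intro t ht
    by_contra hne
    have h1 := hM (subset_tsupport _ (Function.mem_support.2 hne))
    rw [mem_closedBall_zero_iff, Real.norm_eq_abs] at h1
    linarith
  have hder : ∀ u, HasDerivAt (fun u => ∫ t in (-(|M| + 1))..u, ψ t) (ψ u) u := fun u =>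
    intervalIntegral.integral_hasDerivAt_right (hc.intervalIntegrable _ _)
      (hc.stronglyMeasurableAtFilter _ _) hc.continuousAt
  refine ⟨fun u => ∫ t in (-(|M| + 1))..u, ψ t, ⟨?_, ?_⟩, fun u => (hder u).deriv⟩
  · refine contDiff_infty_iff_deriv.2 ⟨fun u => (hder u).differentiableAt, ?_⟩
    have e : deriv (fun u => ∫ t in (-(|M| + 1))..u, ψ t) = ψ := funext fun u => (hder u).deriv
    rw [e]; exact hψ.1
  · refine HasCompactSupport.intro (isCompact_closedBall (0 : ℝ) (|M| + 1)) ?_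
    intro u hu
    rw [mem_closedBall_zero_iff, Real.norm_eq_abs, not_le] at hu
    rcases le_total u 0 with h | h
    · rw [abs_of_nonpos h] at hu
      rw [intervalIntegral.integral_congr (g := fun _ => 0)]
      · simp
      · intro t ht
        rw [uIcc_of_ge (by linarith)] at ht
        refine hsupp t ?_
        rw [abs_of_nonpos (by have := abs_nonneg M; linarith [ht.2])]
        have := le_abs_self M
        linarith [ht.2]
    · rw [abs_of_nonneg h] at hu
      rw [intervalIntegral.integral_eq_integral_of_support_subset, h0]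
      intro t ht
      have h1 := hM (subset_tsupport _ ht)
      rw [mem_closedBall_zero_iff, Real.norm_eq_abs] at h1
      have h2 := abs_le.1 h1
      have := le_abs_self M
      exact ⟨by linarith [h2.1], by linarith [h2.2]⟩

lemma const_of_int {h : ℝ → ℂ} (hc : Continuous h)
    (H : ∀ G : ℝ → ℝ, Tst G → ∫ u, ((deriv G u : ℝ) : ℂ) * h u = 0) (u : ℝ) : h u = h 0 := by
  let f : ContDiffBump (0 : ℝ) := ⟨1, 2, one_pos, one_lt_two⟩
  have hρ : Tst (f.normed volume) := ⟨f.contDiff_normed, f.hasCompactSupport_normed⟩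
  have hρ1 : ∫ x, f.normed volume x = 1 := f.integral_normed
  set ρ := f.normed (volume : Measure ℝ) with hρdef
  have key : h = fun _ => ∫ x, (ρ x : ℂ) * h x := by
    refine fun_uniqueR hc continuous_const fun ψ hψ => ?_
    have hψ0 : Tst fun x => ψ x - (∫ y, ψ y) * ρ x :=
      ⟨hψ.1.sub (contDiff_const.mul hρ.1), hψ.2.sub (hρ.2.mul_left)⟩
    have i1 : Integrable ψ := hψ.1.continuous.integrable_of_hasCompactSupport hψ.2
    have i2 : Integrable ρ := hρ.1.continuous.integrable_of_hasCompactSupport hρ.2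
    obtain ⟨G, hG, hG'⟩ := prim_tst hψ0 (by
      rw [integral_sub i1 (i2.const_mul _), integral_const_mul, hρ1, mul_one, sub_self])
    have h1 := H G hG
    have e : (fun u => ((deriv G u : ℝ) : ℂ) * h u) =
        fun u => (ψ u : ℂ) * h u - ((∫ y, ψ y : ℝ) : ℂ) * ((ρ u : ℂ) * h u) := by
      funext u
      rw [hG']
      push_cast
      ring
    rw [e, integral_sub (tst_intR hψ hc) ((tst_intR hρ hc).const_mul _), integral_const_mul,
      sub_eq_zero] at h1
    rw [h1, integral_mul_const, integral_complex_ofReal]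
  rw [key]

/-- the field of `K_a(x) - K_a` -/
def XX (a x : V) : V → V := fun z => -(2 * GF.mdot a x) • z + (2 * GF.mdot x z) • a -
  (2 * GF.mdot a z) • x + cK a x

lemma XX_sim (a x : V) : IsSim (-(2 * GF.mdot a x)) (XX a x) := by
  refine ⟨cK a x, fun m n => 2 * (eta m * x m) * a n - 2 * (eta m * a m) * x n, ?_, ?_⟩
  · intro m n
    ring
  · intro z n
    simp only [XX, GF.mdot, Fin.sum_univ_four, Pi.add_apply, Pi.sub_apply, Pi.smul_apply,
      smul_eq_mul]
    ring

lemma const_sim (c : V) : IsSim 0 (fun _ => c) :=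
  ⟨c, fun _ _ => 0, by simp, by simp⟩

lemma contDiff_sim {r : ℝ} {X : V → V} (hX : IsSim r X) (n : Ix) : ContDiff ℝ ∞ fun x => X x n := by
  obtain ⟨c, w, -, h⟩ := hX
  simp only [h]
  have : ∀ m : Ix, ContDiff ℝ ∞ fun x : V => x m := fun m => contDiff_apply ℝ ℝ m
  simp only [Fin.sum_univ_four]
  have h0 := this 0
  have h1 := this 1
  have h2 := this 2
  have h3 := this 3
  have h4 := this n
  fun_prop

/-- sources of the generators -/
def Fg (a b : V) (κ : V → ℝ) (y : V) (ψ : ℝ → ℝ) (R : ℝ) (X : V → V) : Ix → Ix → V → ℝ :=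
  fun m n x => eta m * a m * (eta n * X x n) * ctf a b κ y ψ R x

lemma Fg_tst {a b : V} {κ : V → ℝ} {ψ : ℝ → ℝ} (h : Adm a b κ ψ) (y : V) {R : ℝ} (hR : 1 ≤ R)
    {r : ℝ} {X : V → V} (hX : IsSim r X) (m n : Ix) : Tst (Fg a b κ y ψ R X m n) :=
  tst_smul (f := fun x => eta m * a m * (eta n * X x n))
    (contDiff_const.mul (contDiff_const.mul (contDiff_sim hX n))) (ctf_tst h y hR)

lemma gen0 (h : NullCharges Q T J A K) {a b : V} {κ : V → ℝ} {ψ : ℝ → ℝ} (hA : Adm a b κ ψ) (y : V)
    {X : V → V} (hX : IsSim 0 X) (v w : D) :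
    Tendsto (fun R => mt T w v (Fg a b κ y ψ R X)) atTop
      (𝓝 ((∫ u, (ψ u : ℂ)) * inner ℂ w (A X v))) := by
  have h1 := h.gen a b κ y ψ 0 X v w hA hX
  simp only [Complex.ofReal_zero, zero_smul, Finset.sum_const_zero, sub_zero] at h1
  exact h1

lemma tst_umul {ψ : ℝ → ℝ} (hψ : Tst ψ) : Tst fun u => u * ψ u :=
  ⟨contDiff_id.mul hψ.1, hψ.2.mul_left⟩

lemma Adm.umul {a b : V} {κ : V → ℝ} {ψ : ℝ → ℝ} (h : Adm a b κ ψ) :
    Adm a b κ (fun u => u * ψ u) :=
  ⟨h.1, h.2.1, h.2.2.1, h.2.2.2.1, h.2.2.2.2.1, tst_umul h.2.2.2.2.2⟩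

theorem tra_zero (hT : Q.IsStress T) (h : NullCharges Q T J A K) {a x0 : V} (ha : IsNull a)
    (hx : GF.mdot a x0 = 0) (v : D) :
    Q.U 1 GF.one x0 (K a (Q.U 1 GF.one (-x0) v)) = K a v + A (XX a x0) v := by
  obtain ⟨b, hb, hab⟩ := exists_dual ha
  obtain ⟨κ, hκ, hκ1⟩ := exists_kp
  refine ext_inner_left ℂ fun w => ?_
  have hX : IsSim 0 (XX a x0) := by
    have := XX_sim a x0
    rw [hx] at this
    simpa using this
  set w0 : V := x0 - GF.mdot b x0 • a with hw0
  have key : (fun u => Kh Q K a b (Q.U 1 GF.one (-x0) w) (Q.U 1 GF.one (-x0) v) u) =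
      fun u => Kh Q K a b w v u + inner ℂ w (A (XX a x0) v) +
        2 * ((u : ℂ) * inner ℂ w (A (fun _ => w0) v)) := by
    have hc : Continuous (Kh Q K a b w v) := h.cont a b v w ha hb
    refine fun_uniqueR (h.cont a b _ _ ha hb) (by fun_prop) fun ψ hψ => ?_
    have hA : Adm a b κ ψ := ⟨ha, hb, hab, hκ, hκ1, hψ⟩
    have h1 := Mom.tt h.mom hA 0 (Q.U 1 GF.one (-x0) v) (Q.U 1 GF.one (-x0) w)
    have h2 := Mom.tt h.mom hA x0 v w
    have h3 := gen0 h hA x0 hX v w
    have h4 := gen0 h (Adm.umul hA) x0 (const_sim w0) v w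
    have h5 := (h2.add h3).add (h4.const_mul 2)
    have h6 : (fun R => mt T (Q.U 1 GF.one (-x0) w) (Q.U 1 GF.one (-x0) v) (Fm a b κ 0 ψ R))
        =ᶠ[atTop] fun R => mt T w v (Fm a b κ x0 ψ R) + mt T w v (Fg a b κ x0 ψ R (XX a x0)) +
          2 * mt T w v (Fg a b κ x0 (fun u => u * ψ u) R fun _ => w0) := by
      filter_upwards [eventually_ge_atTop 1] with R hR
      have t1 : ∀ m n, Tst (Fm a b κ x0 ψ R m n) := fun m n => Fm_tst hA x0 hR m n
      have t2 : ∀ m n, Tst (Fg a b κ x0 ψ R (XX a x0) m n) := fun m n => Fg_tst hA x0 hR hX m n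
      have t3 : ∀ m n, Tst (Fg a b κ x0 (fun u => u * ψ u) R (fun _ => w0) m n) :=
        fun m n => Fg_tst (Adm.umul hA) x0 hR (const_sim w0) m n
      rw [mt_trans hT (fun m n => Fm_tst hA 0 hR m n)]
      have e1 := mt_add hT t1 t2 1 w v
      have e2 := mt_add hT (F := fun m n x => Fm a b κ x0 ψ R m n x +
        1 * Fg a b κ x0 ψ R (XX a x0) m n x)
        (fun m n => ⟨(t1 m n).1.add (contDiff_const.mul (t2 m n).1),
          (t1 m n).2.add ((t2 m n).2.mul_left)⟩) t3 2 w v
      rw [e1] at e2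
      push_cast at e2
      rw [one_mul] at e2
      rw [← e2]
      congr 1
      funext m n x
      have c1 : ctf a b κ 0 ψ R (x + -x0) = ctf a b κ x0 ψ R x := by
        unfold ctf
        rw [sub_zero, ← sub_eq_add_neg, md_sub, hx, sub_zero]
      have c2 : ctf a b κ x0 (fun u => u * ψ u) R x = GF.mdot a x * ctf a b κ x0 ψ R x := by
        unfold ctf
        ring
      have c3 : sq a b (x + -x0) * a n = sq a b x * a n + XX a x0 x n +
          2 * GF.mdot a x * w0 n := by
        rw [← sub_eq_add_neg]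
        unfold H15.sq XX cK
        rw [md_sub, md_sub, md_sub, md_sub_l, md_sub_l, hx, hw0]
        simp only [Pi.add_apply, Pi.sub_apply, Pi.smul_apply, smul_eq_mul]
        rw [md_comm x x0]
        ring
      simp only [Fm, Fg]
      rw [c1, c2]
      linear_combination (eta m * a m * eta n * ctf a b κ x0 ψ R x) * c3
    have h7 := tendsto_nhds_unique h1 (h5.congr' h6.symm)
    rw [h7]
    have j1 : Integrable fun u => (ψ u : ℂ) * Kh Q K a b w v u := tst_intR hψ hc
    have j2 : Integrable fun u => (ψ u : ℂ) * inner ℂ w (A (XX a x0) v) :=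
      tst_intR hψ continuous_const
    have j3 : Integrable fun u => (ψ u : ℂ) * (2 * ((u : ℂ) * inner ℂ w (A (fun _ => w0) v))) :=
      tst_intR hψ (by fun_prop)
    have e : (fun u => (ψ u : ℂ) * (Kh Q K a b w v u + inner ℂ w (A (XX a x0) v) +
        2 * ((u : ℂ) * inner ℂ w (A (fun _ => w0) v)))) = fun u =>
        ((ψ u : ℂ) * Kh Q K a b w v u + (ψ u : ℂ) * inner ℂ w (A (XX a x0) v)) +
        (ψ u : ℂ) * (2 * ((u : ℂ) * inner ℂ w (A (fun _ => w0) v))) := by
      funext u; ring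
    have j4 : Integrable fun u => (ψ u : ℂ) * Kh Q K a b w v u +
        (ψ u : ℂ) * inner ℂ w (A (XX a x0) v) := j1.add j2
    rw [e, integral_add j4 j3, integral_add j1 j2, integral_mul_const]
    congr 1
    rw [← integral_mul_const, ← integral_const_mul]
    refine integral_congr_ae (Eventually.of_forall fun u => ?_)
    simp only
    push_cast
    ring
  have h0 := congrFun key 0
  simp only [Kh_zero] at h0
  have e : inner ℂ w (Q.U 1 GF.one x0 (K a (Q.U 1 GF.one (-x0) v))) =
      inner ℂ (Q.U 1 GF.one (-x0) w) (K a (Q.U 1 GF.one (-x0) v)) := by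
    rw [← Q.U_inner 1 GF.one (-x0) w _ one_pos isLor_one, Uadd1, neg_add_cancel, Uone]
  rw [e, h0, inner_add_right]
  simp

end Vale.Agent.P352.H755
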