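import Vale.Agent.P352.H755.App
import Vale.Agent.P352.H993.Sch

/-!
# Covariant vector valued scalar distributions of dimension two: their values on the orbits of the
vectors `J(g) Ω` are Schwartz functions
-/

set_option linter.all false

noncomputable section

open MeasureTheory SchwartzMap Filter Topology Set
open Complex hiding eta
open scoped SchwartzMap ComplexConjugate ENNReal NNReal LineDeriv ContDiff

namespace Vale.Agent.P352.H755

open GF (Ix V Fn Sch ev pd bar sim bas o eta)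
open H246 H496 H746 H246R
open UniformSpace (Completion)

variable {D : Type*} [NormedAddCommGroup D] [InnerProductSpace ℂ D]
variable {Q : GF.Theory D}
variable {H : D → D} {alg : Set V → Set (D → D)} {S : V → ℝ → D → D}

/-- vector valued scalar distributions of dimension two -/
structure Scl (Q : GF.Theory D) (O : Fn → Completion D) (κ : 𝓢(Mink, ℂ) →L[ℂ] Completion D) :
    Prop where
  eq : ∀ F, O (fl F) = κ F
  cov : ∀ s L a (F : 𝓢(Mink, ℂ)) v, 0 < s → GF.IsLor L →
    inner ℂ (O (fl F)) ((Q.U s L a v : D) : Completion D) =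
      (s ^ 2 : ℝ) * inner ℂ (O fun x => fl F (sim s L a x)) (v : Completion D)

lemma Scl.cd {O : Fn → Completion D} {κ : 𝓢(Mink, ℂ) →L[ℂ] Completion D} (h : Scl Q O κ) :
    Cd Q O κ := by
  refine ⟨h.eq, fun g a z => ?_⟩
  have h1 := h.cov 1 GF.one a.ofLp (tauS a g) z one_pos isLor_one
  have h2 : (fun x => fl (tauS a g) (sim 1 GF.one a.ofLp x)) = fl g := by
    funext x
    have h3 : sim 1 GF.one a.ofLp x = a.ofLp + x := by
      funext n
      simp [sim, GF.one, bas]
    rw [h3]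
    simp only [fl, tauS_apply]
    congr 1
    ext n
    simp
  rw [h2, h.eq, h.eq, one_pow, ofReal_one, one_mul] at h1
  have h4 := congrArg conj h1
  rw [inner_conj_symm, inner_conj_symm] at h4
  exact h4

theorem Scl.pt (N : CNet Q H alg S) {O : Fn → Completion D} {κ : 𝓢(Mink, ℂ) →L[ℂ] Completion D}
    (h : Scl Q O κ) : ∃ (φ : Completion D) (B : D → D), B ∈ alg Set.univ ∧
    (∀ v, vk O v = H496.pt φ B v) ∧ ∀ σ L v, 0 < σ → GF.IsLor L →
      H496.pt φ B (Q.U σ L 0 v) = ((σ ^ 2)⁻¹ : ℝ) * H496.pt φ B v := by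
  obtain ⟨⟨κ', μ, K, w, n, hw⟩, -, hrep⟩ := h.cd.pf N.toNet
  have hB := pw1_mem N.toNet n
  refine ⟨K.J w, pw1 H n, hB, hw, fun s L v hs hL => ?_⟩
  have hc1 : Continuous fun x : Mink => vk O (U1 Q (-x) (Q.U s L 0 v)) := by
    simp only [hw]
    exact cont_pt N.toNet hB _
  have hc0 : Continuous fun x : Mink => vk O (U1 Q (-x) v) := by
    simp only [hw]
    exact cont_pt N.toNet hB _
  have hc2 : Continuous fun x : Mink => ((s ^ 2)⁻¹ : ℝ) *
      vk O (U1 Q (-(s⁻¹ • lam (linv L) x)) v) :=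
    continuous_const.mul (hc0.comp ((continuous_lam (linv L)).const_smul s⁻¹))
  have h1 := fun_unique hc1 hc2 (fun F hF => by
    have hr : ∀ (F : 𝓢(Mink, ℂ)) (v : D), inner ℂ (O (fl F)) (v : Completion D) =
        ∫ x : Mink, conj (F x) * vk O (U1 Q (-x) v) := by
      intro F v
      rw [hrep, integral_V]
      rfl
    rw [← hr, h.cov s L 0 F v hs hL, fl_sim s hs hL 0, hr]
    simp only [simS0_apply]
    have h3 := int_sim hs hL
        (fun x => conj (F x) * vk O (U1 Q (-(s⁻¹ • lam (linv L) x)) v))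
    have h4 : ∀ y : Mink, s⁻¹ • lam (linv L) (s • lam L y) = y := by
      intro y
      have h5 : lam (linv L) (s • lam L y) = s • y := by
        have h6 : ∀ (c : ℝ) (x : Mink), lam (linv L) (c • x) = c • lam (linv L) x := by
          intro c x
          ext n
          simp only [lam_apply, PiLp.smul_apply, smul_eq_mul, Finset.mul_sum]
          exact Finset.sum_congr rfl fun k _ => by ring
        rw [h6, linv_lam hL]
      rw [h5, smul_smul, inv_mul_cancel₀ hs.ne', one_smul]
    simp only [h4] at h3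
    have h5 : ∀ x : Mink, conj (F x) * (((s ^ 2)⁻¹ : ℝ) *
        vk O (U1 Q (-(s⁻¹ • lam (linv L) x)) v)) = (((s ^ 2)⁻¹ : ℝ) : ℂ) *
          (conj (F x) * vk O (U1 Q (-(s⁻¹ • lam (linv L) x)) v)) := by
      intro x
      ring
    simp only [h5]
    rw [integral_const_mul, h3]
    have hs' : (s : ℂ) ≠ 0 := by exact_mod_cast hs.ne'
    push_cast
    field_simp)
  have h2 := congrFun h1 0
  have h6 : lam (linv L) (0 : Mink) = 0 := by
    ext n
    simp [lam_apply]
  simp only [h6, smul_zero, neg_zero, U1_zero_all] at h2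
  rw [← hw, ← hw]
  exact h2

/-- the Schwartz property -/
theorem Scl.sch (N : CNet Q H alg S) {O : Fn → Completion D} {κ : 𝓢(Mink, ℂ) →L[ℂ] Completion D}
    (h : Scl Q O κ) {T : Ix → Ix → GF.Fld D} {J : Ix → GF.Fld D} (hJ : IsVirial Q T J) (m : Ix)
    {g : 𝓢(Mink, ℂ)} (hg : PC (mftS g)) : ∃ A : 𝓢(V, ℂ), ∀ f : V → ℝ, Tst f →
    inner ℂ (O fun x => (f x : ℂ)) ((J m (fl g) Q.vac : D) : Completion D) =
      ∫ x, (f x : ℂ) * A x := by
  obtain ⟨φ, B, hB, h1, h2⟩ := h.pt N
  obtain ⟨Ψ, hΨ⟩ := H993.sch_pt N hB h2 hJ.vfld m hg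
  refine ⟨H993.toV Ψ, fun f hf => ?_⟩
  rw [h.cd.rep N.toNet hf]
  congr 1
  funext x
  rw [H993.toV_apply, ← hΨ (WithLp.toLp 2 x), ← h1]
  rfl

end Vale.Agent.P352.H755
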