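import Vale.Agent.P352.H755.TP3Defs
import Vale.Agent.P352.H755.Scl
import Vale.Agent.P352.H846.Symm1

/-!
# Time ordered products with symmetry and Ward identities up to contact terms
-/

set_option linter.all false

noncomputable section

open MeasureTheory SchwartzMap Filter Topology Set
open Complex hiding eta
open scoped SchwartzMap ComplexConjugate ENNReal NNReal LineDeriv ContDiff

namespace Vale.Agent.P352.H755

open GF (Ix V Fn Sch ev pd bar sim bas o eta)
open H246 H496 H746 H846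
open UniformSpace (Completion)

variable {D : Type*} [NormedAddCommGroup D] [InnerProductSpace ℂ D]
variable {Q : GF.Theory D} {J : Ix → GF.Fld D} {G : V → D → D} {κ : V → ℝ}

/-- the derivatives of the plane sources are bounded and eventually constant in `R` -/
lemma src_bdd {a b : V} (hκ : Tst κ) {φ : ℝ → ℝ} (hφ : Tst φ) (i : Ix) :
    ∃ C, 0 ≤ C ∧ ∀ R, 1 ≤ R → ∀ y, |dr i (fun x => cut a b κ R x * φ (GF.mdot a x)) y| ≤ C := by
  have h1 : PB 0 fun R y => dr i (fun x => cut a b κ R x * φ (GF.mdot a x)) y := by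
    have h2 : ∀ R y, dr i (fun x => cut a b κ R x * φ (GF.mdot a x)) y =
        (∑ j, Mc a b R (bas i 1) j * dr j κ (Mc a b R y)) * φ (GF.mdot a y) +
          κ (Mc a b R y) * (deriv φ (GF.mdot a y) * (eta i * a i)) := by
      intro R y
      have e : (fun x => cut a b κ R x * φ (GF.mdot a x)) =
          fun x => κ (Mc a b R x) * φ (GF.mdot a x) := by
        funext x
        rw [cut_eq]
      rw [e]
      exact ((hd_M hκ (Mc a b R) i y).mul (HD.comp (tdif hφ) (hd_mdot i a y))).dr
    refine PB.congr ?_ (fun R _ y => h2 R y)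
    exact ((PB.sum fun j => (PB.M a b i j).mul (PB.tM (hκ.dr j) a b)).mul
      (PB.tst hφ fun y => GF.mdot a y)).add ((PB.tM hκ a b).mul
        ((PB.tst (tder hφ) fun y => GF.mdot a y).mul (PB.const _)))
  obtain ⟨C, hC, h⟩ := h1
  exact ⟨C, hC, fun R hR y => by simpa using h R hR y⟩

lemma src_ev {a b : V} (hκ1 : ∀ᶠ x in 𝓝 (0 : V), κ x = 1) {φ : ℝ → ℝ} (hφ : Tst φ) (i : Ix)
    (y : V) : ∀ᶠ R in atTop, dr i (fun x => cut a b κ R x * φ (GF.mdot a x)) y =
      deriv φ (GF.mdot a y) * (eta i * a i) := by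
  filter_upwards [cut_ev (a := a) (b := b) hκ1 y] with R hR
  have h2 : (fun z => cut a b κ R z * φ (GF.mdot a z)) =ᶠ[𝓝 y] fun z => φ (GF.mdot a z) := by
    filter_upwards [hR] with z hz
    rw [hz, one_mul]
  rw [hd_congr h2]
  exact (HD.comp (tdif hφ) (hd_mdot i a y)).dr

lemma Tst.prod {f g : V → ℝ} (hf : Tst f) (hg : Tst g) : Tst fun x => f x * g x :=
  ⟨hf.1.mul hg.1, hf.2.mul_right⟩

lemma sum_diag (x : Ix → ℂ) (c : Ix → Ix → ℂ) :
    ∑ i, ∑ j, ((if i = j then eta i else 0 : ℝ) : ℂ) * c i j = ∑ i, (eta i : ℂ) * c i i := by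
  refine Finset.sum_congr rfl fun i _ => ?_
  rw [Finset.sum_eq_single i]
  · simp
  · intro j _ hj
    rw [if_neg (Ne.symm hj)]
    simp
  · intro h
    exact absurd (Finset.mem_univ i) h

/-- against a vector for which the contact terms reduce to scalars with nice values, the contact
terms can be absorbed by a finite renormalization -/
theorem TProd3.x {K K' : Ix → Ix → Fn → Completion D} {t : (Ix → V → ℝ) → (Ix → V → ℝ) → D → ℂ}
    {s : (Ix → Ix → V → ℝ) → (Ix → V → ℝ) → D → ℂ} (hT : TProd3 Q J G κ K K' t s) (hκ : Tst κ)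
    (hκ1 : ∀ᶠ x in 𝓝 (0 : V), κ x = 1) (m : Ix) {g : Fn} (hg : GF.IsTest g) {X : D}
    (hX : X = J m g Q.vac) {O O' : Fn → Completion D}
    (hK : ∀ i c f, GF.IsTest f → inner ℂ (K i c f) (X : Completion D) =
      ((if i = c then eta i else 0 : ℝ) : ℂ) * inner ℂ (O f) (X : Completion D))
    (hK' : ∀ i c f, GF.IsTest f → inner ℂ (K' i c f) (X : Completion D) =
      ((if i = c then eta i else 0 : ℝ) : ℂ) * inner ℂ (O' f) (X : Completion D))
    {A : 𝓢(V, ℂ)} (hA : ∀ f : V → ℝ, Tst f →
      inner ℂ (O fun x => (f x : ℂ)) (X : Completion D) = ∫ x, (f x : ℂ) * A x) :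
    TPx Q J G κ (fun f h v => t f h v + ∑ i, (eta i : ℂ) *
      inner ℂ (O fun x => ((f i x * h i x : ℝ) : ℂ)) (v : Completion D)) s X := by
  have hsum : ∀ (f h : Ix → V → ℝ), (∀ i, Tst (f i)) → (∀ i, Tst (h i)) →
      ∑ i, ∑ c, inner ℂ (K i c fun x => ((f i x * h c x : ℝ) : ℂ)) (X : Completion D) =
      ∑ i, (eta i : ℂ) * inner ℂ (O fun x => ((f i x * h i x : ℝ) : ℂ)) (X : Completion D) := by
    intro f h hf hh
    rw [← sum_diag (fun _ => 0) fun i c =>
      inner ℂ (O fun x => ((f i x * h c x : ℝ) : ℂ)) (X : Completion D)]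
    exact Finset.sum_congr rfl fun i _ => Finset.sum_congr rfl fun c _ =>
      hK i c _ ((hf i).prod (hh c)).isTest
  have hsum' : ∀ (f h : Ix → V → ℝ), (∀ i, Tst (f i)) → (∀ i, Tst (h i)) →
      ∑ i, ∑ c, inner ℂ (K' i c fun x => ((f i x * h c x : ℝ) : ℂ)) (X : Completion D) =
      ∑ i, (eta i : ℂ) * inner ℂ (O' fun x => ((f i x * h i x : ℝ) : ℂ)) (X : Completion D) := by
    intro f h hf hh
    rw [← sum_diag (fun _ => 0) fun i c =>
      inner ℂ (O' fun x => ((f i x * h c x : ℝ) : ℂ)) (X : Completion D)]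
    exact Finset.sum_congr rfl fun i _ => Finset.sum_congr rfl fun c _ =>
      hK' i c _ ((hf i).prod (hh c)).isTest
  have hcomm : ∀ (O : Fn → Completion D) (f h : Ix → V → ℝ),
      ∑ i, (eta i : ℂ) * inner ℂ (O fun x => ((f i x * h i x : ℝ) : ℂ)) (X : Completion D) =
      ∑ i, (eta i : ℂ) * inner ℂ (O fun x => ((h i x * f i x : ℝ) : ℂ)) (X : Completion D) := by
    intro O f h
    refine Finset.sum_congr rfl fun i _ => ?_
    have : (fun x => ((f i x * h i x : ℝ) : ℂ)) = fun x => ((h i x * f i x : ℝ) : ℂ) := by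
      funext x
      rw [mul_comm]
    rw [this]
  constructor
  · -- symmetry
    intro f h hf hh
    have h1 := hT.symm f h m g hf hh hg
    have h2 := hT.symm h f m g hh hf hg
    rw [← hX, hsum' f h hf hh] at h1
    rw [← hX, hsum' h f hh hf, hcomm O' h f] at h2
    have h3 : t f h X = t h f X := by
      linear_combination (1 / 2 : ℂ) * h1 - (1 / 2 : ℂ) * h2
    show t f h X + _ = t h f X + _
    rw [h3, hcomm O f h]
  · -- Ward identities
    intro Y ψ h hY hψ hh
    have h1 := hT.ward Y ψ h m g hY hψ hh hg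
    rw [← hX, hsum (fun i => dr i ψ) h (fun i => hψ.dr i) hh] at h1
    show _ - (t _ h X + _) = _
    linear_combination h1
  · intro a b Φ h ha hb hab hΦ hh
    rw [hX]
    exact hT.light a b Φ h m g ha hb hab hΦ hh hg
  · intro a b φ σ ha hb hab hφ hσ
    obtain ⟨c, hc⟩ := hT.joint a b φ σ m g ha hb hab hφ hσ hg
    rw [← hX] at hc
    have hba : GF.mdot b a = 1 := by rw [H755.mdot_comm, hab]
    choose C1 hC1 hb1 using fun i => src_bdd (a := a) (b := b) hκ hφ i
    choose C2 hC2 hb2 using fun i => src_bdd (a := b) (b := a) hκ hσ i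
    have hlim : ∀ i, Tendsto (fun R : ℝ × ℝ => inner ℂ (O fun x =>
        ((dr i (fun x => cut a b κ R.1 x * φ (GF.mdot a x)) x *
          dr i (fun x => cut b a κ R.2 x * σ (GF.mdot b x)) x : ℝ) : ℂ)) (X : Completion D)) atTop
        (𝓝 (∫ y, ((deriv φ (GF.mdot a y) * (eta i * a i) *
          (deriv σ (GF.mdot b y) * (eta i * b i)) : ℝ) : ℂ) * A y)) := by
      intro i
      rw [← prod_atTop_atTop_eq]
      have hev : ∀ᶠ R : ℝ × ℝ in atTop ×ˢ atTop, 1 ≤ R.1 ∧ 1 ≤ R.2 :=
        prod_mem_prod (eventually_ge_atTop (1 : ℝ)) (eventually_ge_atTop (1 : ℝ))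
      have ht : ∀ R : ℝ × ℝ, 1 ≤ R.1 ∧ 1 ≤ R.2 →
          Tst (dr i (fun x => cut a b κ R.1 x * φ (GF.mdot a x))) ∧
          Tst (dr i (fun x => cut b a κ R.2 x * σ (GF.mdot b x))) := fun R hR =>
        ⟨(H846.cut_tst ha.1 hb.1 hab hκ hφ hR.1).dr i, (H846.cut_tst hb.1 ha.1 hba hκ hσ hR.2).dr i⟩
      have h1 : Tendsto (fun R : ℝ × ℝ => ∫ y, ((dr i (fun x => cut a b κ R.1 x *
          φ (GF.mdot a x)) y * dr i (fun x => cut b a κ R.2 x * σ (GF.mdot b x)) y : ℝ) : ℂ) *
          A y) (atTop ×ˢ atTop) (𝓝 (∫ y, ((deriv φ (GF.mdot a y) * (eta i * a i) *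
          (deriv σ (GF.mdot b y) * (eta i * b i)) : ℝ) : ℂ) * A y)) := by
        refine tendsto_integral_filter_of_dominated_convergence
          (fun y => C1 i * C2 i * ‖A y‖) ?_ ?_ ?_ ?_
        · filter_upwards [hev] with R hR
          exact ((continuous_ofReal.comp ((ht R hR).1.prod (ht R hR).2).cont).mul
            A.continuous).aestronglyMeasurable
        · filter_upwards [hev] with R hR
          refine Eventually.of_forall fun y => ?_
          rw [norm_mul, norm_real, Real.norm_eq_abs, abs_mul]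
          gcongr
          · exact hC1 i
          · exact hb1 i R.1 hR.1 y
          · exact hb2 i R.2 hR.2 y
        · exact A.integrable.norm.const_mul _
        · refine Eventually.of_forall fun y => ?_
          refine Tendsto.congr' ?_ tendsto_const_nhds
          have h2 := prod_mem_prod (src_ev (a := a) (b := b) hκ1 hφ i y)
            (src_ev (a := b) (b := a) hκ1 hσ i y)
          filter_upwards [h2] with R hR
          have h3 := hR.1
          have h4 := hR.2
          simp only [Set.mem_setOf_eq] at h3 h4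
          rw [h3, h4]
      refine h1.congr' ?_
      filter_upwards [hev] with R hR
      exact (hA _ ((ht R hR).1.prod (ht R hR).2)).symm
    refine ⟨_, hc.add (tendsto_finset_sum (Finset.univ : Finset Ix) fun i _ =>
      (hlim i).const_mul (eta i : ℂ))⟩

end Vale.Agent.P352.H755
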