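import Vale.Agent.P352.H755.TP

open MeasureTheory Filter Topology
open scoped ComplexConjugate ContDiff

namespace Vale.Agent.P352.H755

open GF H246 H496
open UniformSpace (Completion)

noncomputable section

variable {D : Type*} [NormedAddCommGroup D] [InnerProductSpace ℂ D]

/-- Vacuum time ordered products `t f h v`, `s F h v` of two currents `J`, and of the stress tensor
`T` and the current `J`, as in `TProd`, with the Ward identities up to the contact term
`∑ K m c (∂_m ψ h_c)` and with the symmetry up to the contact term `∑ K' m c (f_m h_c)`. -/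
structure TProd3 (Q : Theory D) (J : Ix → Fld D) (G : V → D → D) (κ : V → ℝ)
    (K K' : Ix → Ix → Fn → Completion D)
    (t : (Ix → V → ℝ) → (Ix → V → ℝ) → D → ℂ)
    (s : (Ix → Ix → V → ℝ) → (Ix → V → ℝ) → D → ℂ) : Prop where
  symm : ∀ f h m g, (∀ i, Tst (f i)) → (∀ i, Tst (h i)) → GF.IsTest g →
    t f h (J m g Q.vac) = t h f (J m g Q.vac) +
      ∑ i, ∑ c, inner ℂ (K' i c fun x => ((f i x * h c x : ℝ) : ℂ))
        ((J m g Q.vac : D) : Completion D)
  ward : ∀ (Y : V → V) (ψ : V → ℝ) h m g, (∀ i, Tst fun x => Y x i) → Tst ψ →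
    (∀ i, Tst (h i)) → GF.IsTest g →
    s (fun i j x => (eta j * dr i (fun y => Y y j) x + eta i * dr j (fun y => Y y i) x) / 2 -
        ψ x * bas i (eta i) j) h (J m g Q.vac) - t (fun i => dr i ψ) h (J m g Q.vac) =
      -Complex.I * inner ℂ (∑ i, J i (fun x => (act Y ψ h i x : ℂ)) Q.vac) (J m g Q.vac) +
      ∑ i, ∑ c, inner ℂ (K i c fun x => ((dr i ψ x * h c x : ℝ) : ℂ))
        ((J m g Q.vac : D) : Completion D)
  light : ∀ a b Φ h m g, IsNull a → IsNull b → GF.mdot a b = 1 → Tst Φ → (∀ i, Tst (h i)) →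
    GF.IsTest g →
    Tendsto (fun R => s (fun i j x =>
        (eta j * dr i (fun y => cut a b κ R y * Yf a b Φ y j) x +
          eta i * dr j (fun y => cut a b κ R y * Yf a b Φ y i) x) / 2 -
        cut a b κ R x * deriv Φ (GF.mdot a x) * bas i (eta i) j) h (J m g Q.vac)) atTop
      (𝓝 (∫ u, (deriv (deriv (deriv Φ)) u / 2 : ℂ) * ∫ y in {y | GF.mdot a y < u},
        ∑ i, (h i y : ℂ) * vj Q J i (Q.U 1 GF.one (-y) (Q.U 1 GF.one (u • b)
          (G a (Q.U 1 GF.one (-(u • b)) (J m g Q.vac)))))))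
  joint : ∀ a b φ σ m g, IsNull a → IsNull b → GF.mdot a b = 1 → Tst φ → Tst σ → GF.IsTest g →
    ∃ c, Tendsto (fun R : ℝ × ℝ => t (fun i => dr i fun x => cut a b κ R.1 x * φ (GF.mdot a x))
      (fun i => dr i fun x => cut b a κ R.2 x * σ (GF.mdot b x)) (J m g Q.vac)) atTop (𝓝 c)

end

end Vale.Agent.P352.H755
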