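import Vale.Agent.P352.H846.TnDefs
import Vale.Agent.P352.H246.SubDefs

/-!
# P352 (helper755): stress tensors and virial currents are tensor fields of real scaling dimension
-/

set_option linter.all false

noncomputable section

namespace Vale.Agent.P352.H755

open GF H846 H246

variable {D : Type*} [NormedAddCommGroup D] [InnerProductSpace ℂ D]
variable {Q : GF.Theory D} {T : Ix → Ix → GF.Fld D} {J : Ix → GF.Fld D}

/-- a stress tensor is a tensor field of rank two and dimension four -/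
theorem ten_T (hT : Q.IsStress T) : IsTen Q 2 4 (fun μ => T (μ 0) (μ 1)) := by
  refine ⟨fun μ => hT.bose _ _, fun μ s L a f v hs hL hf => ?_⟩
  show T (μ 0) (μ 1) f (Q.U s L a v) = _
  rw [hT.cov (μ 0) (μ 1) s L a f v hs hL hf]
  rw [Fintype.sum_equiv (finTwoArrowEquiv Ix) (fun ν : Fin 2 → Ix =>
    ((s ^ ((4 : ℝ) - 4) * ∏ i, L (ν i) (μ i) : ℝ) : ℂ) •
      Q.U s L a (T (ν 0) (ν 1) (fun x => f (sim s L a x)) v))
    (fun ν : Ix × Ix => ((L ν.1 (μ 0) * L ν.2 (μ 1) : ℝ) : ℂ) •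
      Q.U s L a (T ν.1 ν.2 (fun x => f (sim s L a x)) v)) (fun ν => ?_), Fintype.sum_prod_type]
  · refine Finset.sum_congr rfl fun k _ => Finset.sum_congr rfl fun l _ => ?_
    push_cast
    rfl
  · rw [sub_self, Real.rpow_zero, one_mul, Fin.prod_univ_two]
    rfl

/-- a virial current is a vector field of dimension three -/
theorem ten_J (hJ : IsVirial Q T J) : IsTen Q 1 3 (fun μ => J (μ 0)) := by
  refine ⟨fun μ => hJ.bose _, fun μ s L a f v hs hL hf => ?_⟩
  show J (μ 0) f (Q.U s L a v) = _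
  rw [hJ.cov (μ 0) s L a f v hs hL hf]
  rw [Fintype.sum_equiv (Equiv.funUnique (Fin 1) Ix) (fun ν : Fin 1 → Ix =>
    ((s ^ ((4 : ℝ) - 3) * ∏ i, L (ν i) (μ i) : ℝ) : ℂ) •
      Q.U s L a (J (ν 0) (fun x => f (sim s L a x)) v))
    (fun k : Ix => ((s * L k (μ 0) : ℝ) : ℂ) •
      Q.U s L a (J k (fun x => f (sim s L a x)) v)) (fun ν => ?_)]
  · refine Finset.sum_congr rfl fun k _ => ?_
    push_cast
    rfl
  · rw [show (4 : ℝ) - 3 = 1 by norm_num, Real.rpow_one, Fin.prod_univ_one]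
    rfl

end Vale.Agent.P352.H755

end
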