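import Mathlib

set_option linter.all false

/-!
# P352 (helper755): the conformal Ward identity from the covariance under the stabilizer of a null
direction (algebra)

`u`, `w i` are multiplication operators, `du`, `dv`, `d i` derivatives. If a sesquilinear form is
invariant under `du`, `dv`, `d i`, under `H = 2 u du + ∑ w i d i + h` and under the null rotations
`M i = u d i + w i dv`, then it is invariant under the special conformal transformation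
`-(2 u² du + 2 u ∑ w i d i + ∑ (w i)² dv) - 2 h u`.
-/

namespace Vale.Agent.P352.H755

theorem ward_id {E : Type*} [AddCommGroup E] [Module ℂ E] (B : E → E → ℂ)
    (hadd : ∀ g f f', B g (f + f') = B g f + B g f')
    (hsm : ∀ (c : ℝ) g f, B g ((c : ℂ) • f) = c * B g f)
    (hadd' : ∀ g g' f, B (g + g') f = B g f + B g' f)
    (hsm' : ∀ (c : ℝ) g f, B ((c : ℂ) • g) f = c * B g f)
    (u w₁ w₂ du dv d₁ d₂ : E →ₗ[ℂ] E) (h : ℝ)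
    (c1 : ∀ f, du (u f) = u (du f) + f) (c2 : ∀ f, du (w₁ f) = w₁ (du f))
    (c3 : ∀ f, du (w₂ f) = w₂ (du f))
    (c4 : ∀ f, dv (u f) = u (dv f)) (c5 : ∀ f, dv (w₁ f) = w₁ (dv f))
    (c6 : ∀ f, dv (w₂ f) = w₂ (dv f))
    (c7 : ∀ f, d₁ (u f) = u (d₁ f)) (c8 : ∀ f, d₁ (w₁ f) = w₁ (d₁ f) + f)
    (c9 : ∀ f, d₁ (w₂ f) = w₂ (d₁ f))
    (c10 : ∀ f, d₂ (u f) = u (d₂ f)) (c11 : ∀ f, d₂ (w₁ f) = w₁ (d₂ f))
    (c12 : ∀ f, d₂ (w₂ f) = w₂ (d₂ f) + f)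
    (m1 : ∀ f, w₁ (u f) = u (w₁ f)) (m2 : ∀ f, w₂ (u f) = u (w₂ f))
    (tu : ∀ g f, B (du g) f + B g (du f) = 0) (tv : ∀ g f, B (dv g) f + B g (dv f) = 0)
    (t1 : ∀ g f, B (d₁ g) f + B g (d₁ f) = 0) (t2 : ∀ g f, B (d₂ g) f + B g (d₂ f) = 0)
    (hH : ∀ g f, B ((2 : ℂ) • u (du g) + w₁ (d₁ g) + w₂ (d₂ g) + (h : ℂ) • g) f +
      B g ((2 : ℂ) • u (du f) + w₁ (d₁ f) + w₂ (d₂ f) + (h : ℂ) • f) = 0)
    (h1 : ∀ g f, B (u (d₁ g) + w₁ (dv g)) f + B g (u (d₁ f) + w₁ (dv f)) = 0)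
    (h2 : ∀ g f, B (u (d₂ g) + w₂ (dv g)) f + B g (u (d₂ f) + w₂ (dv f)) = 0) (g f : E) :
    B ((2 : ℂ) • u (u (du g)) + (2 : ℂ) • u (w₁ (d₁ g)) + (2 : ℂ) • u (w₂ (d₂ g)) +
      w₁ (w₁ (dv g)) + w₂ (w₂ (dv g)) + ((2 * h : ℝ) : ℂ) • u g) f +
    B g ((2 : ℂ) • u (u (du f)) + (2 : ℂ) • u (w₁ (d₁ f)) + (2 : ℂ) • u (w₂ (d₂ f)) +
      w₁ (w₁ (dv f)) + w₂ (w₂ (dv f)) + ((2 * h : ℝ) : ℂ) • u f) = 0 := by
  have two : ∀ x : E, (2 : ℂ) • x = ((2 : ℝ) : ℂ) • x := fun x => by norm_num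
  simp only [two] at hH ⊢
  -- the relations with shifted arguments
  have H1 := hH (u g) f
  have H2 := hH g (u f)
  have A1 := h1 (w₁ g) f
  have A2 := h1 g (w₁ f)
  have B1 := h2 (w₂ g) f
  have B2 := h2 g (w₂ f)
  have T1 := tu (u g) (u f)
  have T2 := t1 (u g) (w₁ f)
  have T3 := t1 (w₁ g) (u f)
  have T4 := t2 (u g) (w₂ f)
  have T5 := t2 (w₂ g) (u f)
  have T6 := tv (w₁ g) (w₁ f)
  have T7 := tv (w₂ g) (w₂ f)
  simp only [map_add, map_smul, hadd, hadd', hsm, hsm', c1, c2, c3, c4, c5, c6, c7, c8, c9, c10,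
    c11, c12, m1, m2] at H1 H2 A1 A2 B1 B2 T1 T2 T3 T4 T5 T6 T7 ⊢
  push_cast at H1 H2 A1 A2 B1 B2 T1 T2 T3 T4 T5 T6 T7 ⊢
  linear_combination H1 + H2 + A1 + A2 + B1 + B2 - 2 * T1 - T2 - T3 - T4 - T5 - T6 - T7

end Vale.Agent.P352.H755
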